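import Vale.Agent.P154.Fold

/-!
# Exactly multiplicative Hellinger functionals

For `a ≥ 0` with `∑ a = 1` the expectation of the symmetrised product `∏ (1 + y i) ^ a i` at a
node is the product over the children of its expectation after one edge.  A finite combination
of these functionals therefore obeys a closed recursion on every Galton-Watson tree.
-/

noncomputable section

namespace Vale.P154

open Finset Filter Topology
open scoped ENNReal

variable {q : ℕ}

/-- The symmetrised Hellinger product of a nonnegative vector. -/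
def hvec (a v : Fin q → ℝ) : ℝ :=
  (∑ π : Equiv.Perm (Fin q), ∏ i, v i ^ a (π i)) / Fintype.card (Equiv.Perm (Fin q))

/-- The functional on centred likelihood ratios. -/
def hel (a y : Fin q → ℝ) : ℝ := hvec a fun i => 1 + y i

theorem le_sub_one {y : Fin q → ℝ} (hy : Simp y) (i : Fin q) : y i ≤ (q : ℝ) - 1 := by
  have h := Finset.sum_erase_add Finset.univ y (Finset.mem_univ i)
  have h' : ∑ j ∈ Finset.univ.erase i, (-1 : ℝ) ≤ ∑ j ∈ Finset.univ.erase i, y j :=
    Finset.sum_le_sum fun j _ => hy.1 j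
  rw [Finset.sum_const, Finset.card_erase_of_mem (Finset.mem_univ i), Finset.card_univ,
    Fintype.card_fin, nsmul_eq_mul, mul_neg_one] at h'
  rw [hy.2] at h
  have : (1 : ℕ) ≤ q := i.pos
  push_cast [this] at h'
  linarith

theorem chi_le_sq (hq : 2 ≤ q) {y : Fin q → ℝ} (hy : Simp y) : chi y ≤ (q : ℝ) ^ 2 := by
  have hq' : (2 : ℝ) ≤ q := by exact_mod_cast hq
  unfold chi
  rw [div_le_iff₀ (by linarith)]
  have hb : ∀ i, y i ≤ (q : ℝ) - 1 := by
    intro i
    exact le_sub_one hy i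
  calc ∑ i, y i ^ 2 ≤ ∑ _i : Fin q, (q : ℝ) ^ 2 :=
        Finset.sum_le_sum fun i _ => by nlinarith [hy.1 i, hb i]
    _ = _ := by simp [mul_comm]

/-- Admissible exponents. -/
def Expo (a : Fin q → ℝ) : Prop := (∀ i, 0 ≤ a i) ∧ ∑ i, a i = 1

theorem hvec_nonneg (a : Fin q → ℝ) {v : Fin q → ℝ} (hv : ∀ i, 0 ≤ v i) : 0 ≤ hvec a v :=
  div_nonneg (Finset.sum_nonneg fun _ _ => Finset.prod_nonneg fun i _ =>
    Real.rpow_nonneg (hv i) _) (Nat.cast_nonneg _)

theorem hvec_perm (a v : Fin q → ℝ) (π : Equiv.Perm (Fin q)) :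
    hvec a (fun i => v (π i)) = hvec a v := by
  unfold hvec
  congr 1
  refine Fintype.sum_equiv (Equiv.mulRight π⁻¹) _ _ fun σ => ?_
  rw [← Equiv.prod_comp π fun i => v i ^ a ((Equiv.mulRight π⁻¹) σ i)]
  simp [Equiv.Perm.mul_apply]

theorem hvec_zero {a : Fin q → ℝ} (ha : Expo a) : hvec a (fun _ => 0) = 0 := by
  obtain ⟨j, hj⟩ : ∃ j, a j ≠ 0 := by
    by_contra h
    push Not at h
    simpa [h] using ha.2
  have : ∀ π : Equiv.Perm (Fin q), ∏ i, (0 : ℝ) ^ a (π i) = 0 := fun π =>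
    Finset.prod_eq_zero (Finset.mem_univ (π.symm j)) (by simp [Real.zero_rpow hj])
  simp [hvec, this]

theorem prod_rpow_smul {a : Fin q → ℝ} (ha : Expo a) {m : ℝ} (hm : 0 ≤ m) {z : Fin q → ℝ}
    (hz : ∀ i, 0 ≤ z i) (π : Equiv.Perm (Fin q)) :
    ∏ i, (m * z i) ^ a (π i) = m * ∏ i, z i ^ a (π i) := by
  rw [Finset.prod_congr rfl fun i _ => Real.mul_rpow hm (hz i), Finset.prod_mul_distrib,
    ← Real.rpow_sum_of_nonneg hm fun i _ => ha.1 _, Equiv.sum_comp π a, ha.2, Real.rpow_one]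

/-- Homogeneity: the expectation of `hel` needs no normalisation. -/
theorem mass_mul_hel [NeZero q] {a : Fin q → ℝ} (ha : Expo a) {l : Fin q → ℝ}
    (hl : ∀ i, 0 ≤ l i) : ((∑ i, l i) / q) * hel a (rel l) = hvec a l := by
  have h0 : 0 ≤ ∑ i, l i := Finset.sum_nonneg fun i _ => hl i
  rcases h0.eq_or_lt with h | h
  · have : l = fun _ => 0 := funext fun i =>
      (Finset.sum_eq_zero_iff_of_nonneg fun i _ => hl i).1 h.symm i (Finset.mem_univ i)
    rw [this, hvec_zero ha]; simp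
  · have hq : (0 : ℝ) < q := by exact_mod_cast NeZero.pos q
    have hz : ∀ i, 0 ≤ 1 + rel l i := fun i => by have := (rel_simp hl h).1 i; linarith
    have hm : 0 ≤ (∑ i, l i) / q := div_nonneg h.le hq.le
    have e : (fun i => ((∑ j, l j) / q) * (1 + rel l i)) = l := by
      funext i; simp only [rel]; field_simp; ring
    conv_rhs => rw [← e]
    simp only [hel, hvec, prod_rpow_smul ha hm hz, ← Finset.mul_sum, mul_div_assoc]

theorem chan_nonneg (hq : 2 ≤ q) {lam : ℝ} (h0 : -1 / ((q : ℝ) - 1) ≤ lam) (h1 : lam ≤ 1)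
    {l : Fin q → ℝ} (hl : ∀ i, 0 ≤ l i) (i : Fin q) : 0 ≤ chan lam l i :=
  Finset.sum_nonneg fun j _ => mul_nonneg (potts_nonneg hq h0 h1 i j) (hl j)

theorem chan_comp_perm (lam : ℝ) (π : Equiv.Perm (Fin q)) (l : Fin q → ℝ) (i : Fin q) :
    chan lam (fun j => l (π j)) i = chan lam l (π i) := by
  unfold chan
  rw [← Equiv.sum_comp π fun j => potts q lam (π i) j * l j]
  simp [potts_perm]

theorem sum_chan [NeZero q] (lam : ℝ) (l : Fin q → ℝ) : ∑ i, chan lam l i = ∑ i, l i := by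
  have hq : (q : ℝ) ≠ 0 := by exact_mod_cast NeZero.ne q
  simp only [chan, potts_mul]
  rw [Finset.sum_add_distrib, ← Finset.mul_sum]
  simp
  field_simp
  ring

theorem hvec_chan [NeZero q] (hq : 2 ≤ q) {lam : ℝ} (h0 : -1 / ((q : ℝ) - 1) ≤ lam) (h1 : lam ≤ 1)
    {a : Fin q → ℝ} (ha : Expo a) {l : Fin q → ℝ} (hl : ∀ i, 0 ≤ l i) :
    hvec a (chan lam l) = ((∑ i, l i) / q) * hel a (fun i => lam * rel l i) := by
  rw [← mass_mul_hel ha (chan_nonneg hq h0 h1 hl), sum_chan]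
  by_cases h : ∑ i, l i = 0
  · simp [h]
  · congr 2
    funext i
    have hq' : (q : ℝ) ≠ 0 := by exact_mod_cast NeZero.ne q
    simp only [rel, sum_chan]
    simp only [chan, potts_mul]
    field_simp
    ring

/-- The expectation of `hel` on a fixed tree. -/
def hTree (a : Fin q → ℝ) (lam : ℝ) (n : ℕ) (t : PTree n) : ℝ :=
  ∑ s : Cfg q n t, hvec a (lik lam n t s)

/-- The expectation of `hel` after one edge. -/
def hChan (a : Fin q → ℝ) (lam : ℝ) (n : ℕ) (t : PTree n) : ℝ :=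
  ∑ s : Cfg q n t, hvec a (chan lam (lik lam n t s))

/-- Exact multiplicativity. -/
theorem hTree_succ (hq : 2 ≤ q) {lam : ℝ} (h0 : -1 / ((q : ℝ) - 1) ≤ lam) (h1 : lam ≤ 1)
    (a : Fin q → ℝ) (n k : ℕ) (ch : Fin k → PTree n) :
    hTree a lam (n + 1) ⟨k, ch⟩ = ∏ c, hChan a lam n (ch c) := by
  have : NeZero q := ⟨by omega⟩
  let T : Equiv.Perm (Fin q) → Fin k → ℝ := fun π c =>
    ∑ s : Cfg q n (ch c), ∏ i, chan lam (lik lam n (ch c) s) i ^ a (π i)
  have hT : ∀ π c, T π c = T 1 c := by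
    intro π c
    have h := sum_lik_perm lam π n (ch c) fun v => ∏ i, chan lam v i ^ a (π i)
    show _ = ∑ s : Cfg q n (ch c), _
    refine h.symm.trans (Finset.sum_congr rfl fun s _ => ?_)
    simp only [chan_comp_perm, Equiv.Perm.one_apply]
    exact Equiv.prod_comp π fun i => chan lam (lik lam n (ch c) s) i ^ a i
  have hP : ∀ c, hChan a lam n (ch c) = T 1 c := by
    intro c
    unfold hChan hvec
    rw [← Finset.sum_div, Finset.sum_comm]
    show (∑ π, T π c) / _ = _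
    simp only [hT, Finset.sum_const, Finset.card_univ, nsmul_eq_mul]
    field_simp
  simp only [hP]
  show ∑ s : (c : Fin k) → Cfg q n (ch c), hvec a (nodeVec lam ch s) = _
  unfold hvec
  rw [← Finset.sum_div, Finset.sum_comm]
  have e : ∀ π : Equiv.Perm (Fin q),
      ∑ s : (c : Fin k) → Cfg q n (ch c), ∏ i, nodeVec lam ch s i ^ a (π i) = ∏ c, T 1 c := by
    intro π
    rw [← Finset.prod_congr rfl fun c _ => hT π c]
    simp only [T, Fintype.prod_sum]
    refine Finset.sum_congr rfl fun s _ => ?_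
    rw [Finset.prod_comm]
    refine Finset.prod_congr rfl fun i _ => ?_
    exact (Real.finsetProd_rpow _ _ (fun c _ =>
      chan_nonneg hq h0 h1 (lik_nonneg hq h0 h1 n _ _) i) _).symm
  simp only [e, Finset.sum_const, Finset.card_univ, nsmul_eq_mul]
  field_simp

theorem hTree_eq_ev (hq : 2 ≤ q) {lam : ℝ} (h0 : -1 / ((q : ℝ) - 1) ≤ lam) (h1 : lam ≤ 1)
    {a : Fin q → ℝ} (ha : Expo a) (n : ℕ) (t : PTree n) :
    hTree a lam n t = ev (lik (q := q) lam n t) (hel a) := by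
  have : NeZero q := ⟨by omega⟩
  exact Finset.sum_congr rfl fun s _ => (mass_mul_hel ha (lik_nonneg hq h0 h1 n t s)).symm

theorem hChan_eq_ev (hq : 2 ≤ q) {lam : ℝ} (h0 : -1 / ((q : ℝ) - 1) ≤ lam) (h1 : lam ≤ 1)
    {a : Fin q → ℝ} (ha : Expo a) (n : ℕ) (t : PTree n) :
    hChan a lam n t = ev (lik (q := q) lam n t) (fun y => hel a fun i => lam * y i) := by
  have : NeZero q := ⟨by omega⟩
  exact Finset.sum_congr rfl fun s _ => hvec_chan hq h0 h1 ha (lik_nonneg hq h0 h1 n t s)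

theorem gwE_hTree_succ (hq : 2 ≤ q) {lam : ℝ} (h0 : -1 / ((q : ℝ) - 1) ≤ lam) (h1 : lam ≤ 1)
    (a : Fin q → ℝ) {p : ℕ → ℝ} (hp : ∀ k, 0 ≤ p k) (n : ℕ) :
    gwE p (n + 1) (fun t => ENNReal.ofReal (hTree a lam (n + 1) t)) =
      ∑' k, ENNReal.ofReal (p k) * gwE p n (fun t => ENNReal.ofReal (hChan a lam n t)) ^ k := by
  rw [gwE_succ hp]
  refine tsum_congr fun k => ?_
  congr 1
  have e : ∀ ch : Fin k → PTree n,
      (∏ c, ENNReal.ofReal (gwWeight p n (ch c))) * ENNReal.ofReal (hTree a lam (n + 1) ⟨k, ch⟩) =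
        ∏ c, ENNReal.ofReal (gwWeight p n (ch c)) * ENNReal.ofReal (hChan a lam n (ch c)) := by
    intro ch
    rw [hTree_succ hq h0 h1, ENNReal.ofReal_prod_of_nonneg (s := Finset.univ)
      (f := fun c => hChan a lam n (ch c)) fun c _ => Finset.sum_nonneg fun s _ =>
        hvec_nonneg a (chan_nonneg hq h0 h1 (lik_nonneg hq h0 h1 n _ s)), Finset.prod_mul_distrib]
  simp only [e, tsum_pi_prod (fun _ x => ENNReal.ofReal (gwWeight p n x) *
    ENNReal.ofReal (hChan a lam n x)), gwE, Finset.prod_const, Finset.card_univ, Fintype.card_fin]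

/-- The likelihood ratios of a boundary configuration, set to zero on null configurations. -/
def relOr (l : Fin q → ℝ) : Fin q → ℝ := if ∑ i, l i = 0 then 0 else rel l

theorem relOr_simp [NeZero q] {l : Fin q → ℝ} (hl : ∀ i, 0 ≤ l i) : Simp (relOr l) := by
  unfold relOr
  split_ifs with h
  · exact ⟨fun i => by norm_num, by simp⟩
  · exact rel_simp hl (lt_of_le_of_ne (Finset.sum_nonneg fun i _ => hl i) (Ne.symm h))

/-- The index set of trees with a boundary configuration. -/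
abbrev Idx (q n : ℕ) : Type := Σ t : PTree n, Cfg q n t

/-- The probability of a tree with a boundary configuration. -/
def wIdx (q : ℕ) (lam : ℝ) (p : ℕ → ℝ) (n : ℕ) (x : Idx q n) : ℝ :=
  gwWeight p n x.1 * ((∑ i, lik (q := q) lam n x.1 x.2 i) / q)

/-- The likelihood ratios of a tree with a boundary configuration. -/
def yIdx (lam : ℝ) (n : ℕ) (x : Idx q n) : Fin q → ℝ := relOr (lik lam n x.1 x.2)

theorem gwE_ev_eq (hq : 2 ≤ q) {lam : ℝ} (h0 : -1 / ((q : ℝ) - 1) ≤ lam) (h1 : lam ≤ 1)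
    {p : ℕ → ℝ} (hp : ∀ k, 0 ≤ p k) (n : ℕ) {f : (Fin q → ℝ) → ℝ}
    (hf : ∀ y, Simp y → 0 ≤ f y) :
    gwE p n (fun t => ENNReal.ofReal (ev (lik (q := q) lam n t) f)) =
      ∑' x : Idx q n, ENNReal.ofReal (wIdx q lam p n x * f (yIdx lam n x)) := by
  have : NeZero q := ⟨by omega⟩
  rw [ENNReal.tsum_sigma']
  refine tsum_congr fun t => ?_
  rw [tsum_fintype, ← ENNReal.ofReal_mul (gwWeight_nonneg hp n t), ev, Finset.mul_sum,
    ENNReal.ofReal_sum_of_nonneg]
  · refine Finset.sum_congr rfl fun s _ => congrArg _ ?_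
    simp only [wIdx, yIdx, relOr]
    split_ifs with h <;> simp [h, mul_assoc]
  · intro s _
    refine mul_nonneg (gwWeight_nonneg hp n t) ?_
    obtain ⟨hm, hs⟩ := mass_simp _ (lik_nonneg hq h0 h1 n t) s
    by_cases h : (∑ i, lik lam n t s i) / (q : ℝ) = 0
    · simp [h]
    · exact mul_nonneg hm (hf _ (hs h))

theorem wIdx_nonneg (hq : 2 ≤ q) {lam : ℝ} (h0 : -1 / ((q : ℝ) - 1) ≤ lam) (h1 : lam ≤ 1)
    {p : ℕ → ℝ} (hp : ∀ k, 0 ≤ p k) (n : ℕ) (x : Idx q n) : 0 ≤ wIdx q lam p n x :=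
  mul_nonneg (gwWeight_nonneg hp n x.1) (mass_nonneg hq h0 h1 n x.1 x.2)

theorem wIdx_tsum (hq : 2 ≤ q) {lam : ℝ} (h0 : -1 / ((q : ℝ) - 1) ≤ lam) (h1 : lam ≤ 1)
    {p : ℕ → ℝ} (hp : ∀ k, 0 ≤ p k) (hp1 : ∑' k, ENNReal.ofReal (p k) = 1) (n : ℕ) :
    Summable (wIdx q lam p n) ∧ ∑' x, wIdx q lam p n x = 1 := by
  have : NeZero q := ⟨by omega⟩
  have h := gwE_ev_eq hq h0 h1 hp n (f := fun _ => 1) fun _ _ => zero_le_one
  simp only [ev_const, sum_mass, mul_one, ENNReal.ofReal_one, gwE_one hp hp1 n] at h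
  have hs : Summable (wIdx q lam p n) := by
    refine (ENNReal.summable_toReal (f := fun x => ENNReal.ofReal (wIdx q lam p n x))
      (h ▸ ENNReal.one_ne_top)).congr fun x => ?_
    exact ENNReal.toReal_ofReal (wIdx_nonneg hq h0 h1 hp n x)
  refine ⟨hs, ?_⟩
  rw [← ENNReal.ofReal_tsum_of_nonneg (wIdx_nonneg hq h0 h1 hp n) hs] at h
  exact ENNReal.ofReal_eq_one.1 h.symm

theorem gwE_ev_toReal (hq : 2 ≤ q) {lam : ℝ} (h0 : -1 / ((q : ℝ) - 1) ≤ lam) (h1 : lam ≤ 1)
    {p : ℕ → ℝ} (hp : ∀ k, 0 ≤ p k) (n : ℕ) {f : (Fin q → ℝ) → ℝ}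
    (hf : ∀ y, Simp y → 0 ≤ f y) :
    (gwE p n (fun t => ENNReal.ofReal (ev (lik (q := q) lam n t) f))).toReal =
      ∑' x : Idx q n, wIdx q lam p n x * f (yIdx lam n x) := by
  have : NeZero q := ⟨by omega⟩
  rw [gwE_ev_eq hq h0 h1 hp n hf, ENNReal.tsum_toReal_eq fun _ => ENNReal.ofReal_ne_top]
  exact tsum_congr fun x => ENNReal.toReal_ofReal (mul_nonneg (wIdx_nonneg hq h0 h1 hp n x)
    (hf _ (relOr_simp (lik_nonneg hq h0 h1 n x.1 x.2))))

theorem lam_smul_simp (hq : 2 ≤ q) {lam : ℝ} (h0 : -1 / ((q : ℝ) - 1) ≤ lam) (h1 : lam ≤ 1)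
    {y : Fin q → ℝ} (hy : Simp y) : Simp fun i => lam * y i := by
  have hq' : (2 : ℝ) ≤ q := by exact_mod_cast hq
  refine ⟨fun i => ?_, by rw [← Finset.mul_sum, hy.2, mul_zero]⟩
  have hub : y i ≤ (q : ℝ) - 1 := by
    exact le_sub_one hy i
  have hl := hy.1 i
  have h0' : -1 ≤ lam * ((q : ℝ) - 1) := (div_le_iff₀ (by linarith)).1 h0
  rcases le_total 0 lam with h | h
  · nlinarith
  · nlinarith [mul_le_mul_of_nonpos_left hub h]

theorem hel_le_one [NeZero q] {a : Fin q → ℝ} (ha : Expo a) {y : Fin q → ℝ} (hy : Simp y) :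
    hel a y ≤ 1 := by
  have hz : ∀ i, 0 ≤ 1 + y i := fun i => by linarith [hy.1 i]
  unfold hel hvec
  rw [div_le_one (by exact_mod_cast Fintype.card_pos)]
  calc ∑ π : Equiv.Perm (Fin q), ∏ i, (1 + y i) ^ a (π i)
      ≤ ∑ π : Equiv.Perm (Fin q), ∑ i, a (π i) * (1 + y i) := Finset.sum_le_sum fun π _ =>
        Real.geom_mean_le_arith_mean_weighted _ _ _ (fun i _ => ha.1 _)
          (by rw [Equiv.sum_comp π a, ha.2]) fun i _ => hz i
    _ = _ := by
        rw [Finset.sum_comm]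
        have e : ∀ i, ∑ π : Equiv.Perm (Fin q), a (π i) =
            (Fintype.card (Equiv.Perm (Fin q)) : ℝ) / q := by
          intro i
          have hc : ∀ j, ∑ π : Equiv.Perm (Fin q), a (π j) = ∑ π : Equiv.Perm (Fin q), a (π i) :=
            fun j => Fintype.sum_equiv (Equiv.mulRight (Equiv.swap i j)) _ _ fun π => by
              simp [Equiv.Perm.mul_apply]
          have h : ∑ j, ∑ π : Equiv.Perm (Fin q), a (π j) = Fintype.card (Equiv.Perm (Fin q)) := by
            rw [Finset.sum_comm]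
            simp [Equiv.sum_comp _ a, ha.2]
          simp only [hc, Finset.sum_const, Finset.card_univ, Fintype.card_fin, nsmul_eq_mul] at h
          rw [eq_div_iff (by exact_mod_cast NeZero.ne q)]
          linarith
        simp only [← Finset.sum_mul, e, ← Finset.mul_sum, Finset.sum_add_distrib, hy.2, add_zero]
        simp

/-- Nonreconstruction from a Lyapunov inequality for every probability family on the simplex. -/
theorem aGW_zero_of_hel (hq : 2 ≤ q) {lam : ℝ} (h0 : -1 / ((q : ℝ) - 1) ≤ lam) (h1 : lam ≤ 1)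
    {p : ℕ → ℝ} (hp : ∀ k, 0 ≤ p k) (hp1 : ∑' k, ENNReal.ofReal (p k) = 1)
    {m : ℕ} (c : Fin m → ℝ) (a : Fin m → Fin q → ℝ) (ha : ∀ j, Expo (a j)) {η : ℝ} (hη : 0 < η)
    (cert : ∀ (ι : Type) (w : ι → ℝ) (y : ι → Fin q → ℝ), (∀ x, 0 ≤ w x) → Summable w →
      ∑' x, w x = 1 → (∀ x, Simp (y x)) →
      ∑ j, c j * (1 - ∑' k, p k * (∑' x, w x * hel (a j) (fun i => lam * y x i)) ^ k)
          + η * (∑' x, w x * chi (y x)) ^ 2
        ≤ ∑ j, c j * (1 - ∑' x, w x * hel (a j) (y x))) :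
    Tendsto (fun n => aGW q p lam n) atTop (𝓝 0) := by
  have : NeZero q := ⟨by omega⟩
  refine aGW_tendsto_zero hq h0 h1 hp hp1 ?_
  set g : Fin m → ℕ → ℝ := fun j n => ∑' x : Idx q n, wIdx q lam p n x * hel (a j) (yIdx lam n x)
  set X : ℕ → ℝ := fun n => ∑' x : Idx q n, wIdx q lam p n x * chi (yIdx lam n x)
  set F : ℕ → ℝ := fun n => ∑ j, c j * (1 - g j n)
  have hy : ∀ n (x : Idx q n), Simp (yIdx lam n x) := fun n x =>
    relOr_simp (lik_nonneg hq h0 h1 n x.1 x.2)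
  have hhel : ∀ j y, Simp y → 0 ≤ hel (a j) y := fun j y hy =>
    hvec_nonneg _ fun i => by linarith [hy.1 i]
  have hg : ∀ j n, 0 ≤ g j n ∧ g j n ≤ 1 := by
    intro j n
    obtain ⟨hs, h1'⟩ := wIdx_tsum hq h0 h1 hp hp1 n
    have hle : ∀ x, wIdx q lam p n x * hel (a j) (yIdx lam n x) ≤ wIdx q lam p n x := fun x =>
      mul_le_of_le_one_right (wIdx_nonneg hq h0 h1 hp n x) (hel_le_one (ha j) (hy n x))
    have hnn : ∀ x, 0 ≤ wIdx q lam p n x * hel (a j) (yIdx lam n x) := fun x =>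
      mul_nonneg (wIdx_nonneg hq h0 h1 hp n x) (hhel j _ (hy n x))
    refine ⟨tsum_nonneg hnn, ?_⟩
    rw [← h1']
    exact (Summable.of_nonneg_of_le hnn hle hs).tsum_le_tsum hle hs
  have hrec : ∀ j n, g j (n + 1) =
      ∑' k, p k * (∑' x, wIdx q lam p n x * hel (a j) (fun i => lam * yIdx lam n x i)) ^ k := by
    intro j n
    have h := congrArg ENNReal.toReal (gwE_hTree_succ hq h0 h1 (a j) hp n)
    simp only [hTree_eq_ev hq h0 h1 (ha j), hChan_eq_ev hq h0 h1 (ha j)] at h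
    rw [gwE_ev_toReal hq h0 h1 hp (n + 1) (hhel j), ENNReal.tsum_toReal_eq] at h
    · refine h.trans (tsum_congr fun k => ?_)
      rw [ENNReal.toReal_mul, ENNReal.toReal_pow, ENNReal.toReal_ofReal (hp k),
        gwE_ev_toReal hq h0 h1 hp n fun y hy => hhel j _ (lam_smul_simp hq h0 h1 hy)]
    · intro k
      refine ENNReal.mul_ne_top ENNReal.ofReal_ne_top (ENNReal.pow_ne_top ?_)
      refine ne_top_of_le_ne_top ENNReal.one_ne_top ?_
      rw [← gwE_one hp hp1 n]
      refine ENNReal.tsum_le_tsum fun t => mul_le_mul_right (ENNReal.ofReal_le_one.2 ?_) _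
      calc ev (lik (q := q) lam n t) (fun y => hel (a j) fun i => lam * y i)
          ≤ ev (lik (q := q) lam n t) (fun _ => 1) := by
            refine Finset.sum_le_sum fun s _ => ?_
            obtain ⟨hm, hs⟩ := mass_simp _ (lik_nonneg hq h0 h1 n t) s
            by_cases h : (∑ i, lik lam n t s i) / (q : ℝ) = 0
            · simp [h]
            · exact mul_le_mul_of_nonneg_left
                (hel_le_one (ha j) (lam_smul_simp hq h0 h1 (hs h))) hm
        _ = 1 := ev_one _ (sum_mass lam n t)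
  have step : ∀ n, F (n + 1) + η * X n ^ 2 ≤ F n := by
    intro n
    obtain ⟨hs, h1'⟩ := wIdx_tsum hq h0 h1 hp hp1 n
    have := cert (Idx q n) _ (yIdx lam n) (wIdx_nonneg hq h0 h1 hp n) hs h1' (hy n)
    simpa only [F, hrec, X] using this
  set B := ∑ j, |c j|
  have hF : ∀ n, |F n| ≤ B := fun n => by
    refine (Finset.abs_sum_le_sum_abs _ _).trans (Finset.sum_le_sum fun j _ => ?_)
    rw [abs_mul]
    refine mul_le_of_le_one_right (abs_nonneg _) ?_
    rw [abs_of_nonneg (by linarith [(hg j n).2])]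
    linarith [(hg j n).1]
  have hsum : Summable fun n => η * X n ^ 2 := by
    refine summable_of_sum_range_le (c := 2 * B) (fun n => by positivity) fun N => ?_
    have : ∀ N, ∑ n ∈ Finset.range N, η * X n ^ 2 ≤ F 0 - F N := by
      intro N
      induction N with
      | zero => simp
      | succ N ih => rw [Finset.sum_range_succ]; linarith [step N]
    linarith [this N, le_abs_self (F 0), neg_abs_le (F N), hF 0, hF N]
  have hX : Tendsto X atTop (𝓝 0) := by
    have h2 : Tendsto (fun n => Real.sqrt (η * X n ^ 2 / η)) atTop (𝓝 0) := by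
      simpa using (hsum.tendsto_atTop_zero.div_const η).sqrt
    refine h2.congr fun n => ?_
    rw [mul_div_cancel_left₀ _ hη.ne', Real.sqrt_sq (tsum_nonneg fun x =>
      mul_nonneg (wIdx_nonneg hq h0 h1 hp n x) (by unfold chi; positivity))]
  have hne : ∀ n, gwE p n (fun t => ENNReal.ofReal (xTree q lam n t)) ≠ ∞ := by
    intro n
    refine ne_top_of_le_ne_top (ENNReal.ofReal_ne_top (r := (q : ℝ) ^ 2)) ?_
    calc gwE p n (fun t => ENNReal.ofReal (xTree q lam n t))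
        ≤ ∑' t, ENNReal.ofReal (gwWeight p n t) * ENNReal.ofReal ((q : ℝ) ^ 2) := by
          refine ENNReal.tsum_le_tsum fun t => mul_le_mul_right (ENNReal.ofReal_le_ofReal ?_) _
          calc xTree q lam n t ≤ ev (lik (q := q) lam n t) (fun _ => (q : ℝ) ^ 2) := by
                refine Finset.sum_le_sum fun s _ => ?_
                obtain ⟨hm, hs⟩ := mass_simp _ (lik_nonneg hq h0 h1 n t) s
                by_cases h : (∑ i, lik lam n t s i) / (q : ℝ) = 0
                · simp [h]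
                · refine mul_le_mul_of_nonneg_left ?_ hm
                  exact chi_le_sq hq (hs h)
            _ = _ := by rw [ev_const, sum_mass, one_mul]
      _ = _ := by
          rw [ENNReal.tsum_mul_right]
          have h1' := gwE_one hp hp1 n
          simp only [gwE, mul_one] at h1'
          rw [h1', one_mul]
  rw [← ENNReal.tendsto_toReal_iff hne ENNReal.zero_ne_top]
  refine hX.congr fun n => ?_
  exact (gwE_ev_toReal hq h0 h1 hp n (f := chi) fun y _ => by unfold chi; positivity).symm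

theorem tsum_dirac (d : ℕ) (g : ℕ → ℝ) : ∑' k, dirac d k * g k = g d := by
  rw [tsum_eq_single d fun k hk => by simp [dirac, hk]]
  simp [dirac]

theorem tsum_poisWeight_pow (d m : ℝ) :
    ∑' k, poisWeight d k * m ^ k = Real.exp (-(d * (1 - m))) := by
  have h := (NormedSpace.expSeries_div_hasSum_exp (d * m)).mul_left (Real.exp (-d))
  rw [← Real.exp_eq_exp_ℝ, ← Real.exp_add, show -d + d * m = -(d * (1 - m)) by ring] at h
  have e : (fun k => poisWeight d k * m ^ k) =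
      fun k => Real.exp (-d) * ((d * m) ^ k / k.factorial) := by
    funext k; unfold poisWeight; ring
  rw [e, h.tsum_eq]

/-- The criterion on the `d`-ary tree. -/
theorem aReg_zero_of_hel (hq : 2 ≤ q) {lam : ℝ} (h0 : -1 / ((q : ℝ) - 1) ≤ lam) (h1 : lam ≤ 1)
    (d : ℕ) {m : ℕ} (c : Fin m → ℝ) (a : Fin m → Fin q → ℝ) (ha : ∀ j, Expo (a j))
    {η : ℝ} (hη : 0 < η)
    (cert : ∀ (ι : Type) (w : ι → ℝ) (y : ι → Fin q → ℝ), (∀ x, 0 ≤ w x) → Summable w →
      ∑' x, w x = 1 → (∀ x, Simp (y x)) →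
      ∑ j, c j * (1 - (∑' x, w x * hel (a j) (fun i => lam * y x i)) ^ d)
          + η * (∑' x, w x * chi (y x)) ^ 2
        ≤ ∑ j, c j * (1 - ∑' x, w x * hel (a j) (y x))) :
    Tendsto (fun n => aReg q d lam n) atTop (𝓝 0) := by
  have hp : ∀ k, 0 ≤ dirac d k := fun k => by unfold dirac; split_ifs <;> norm_num
  have hp1 : ∑' k, ENNReal.ofReal (dirac d k) = 1 := by
    rw [tsum_eq_single d fun k hk => by simp [dirac, hk]]; simp [dirac]
  simpa only [aGW_dirac] using aGW_zero_of_hel hq h0 h1 hp hp1 c a ha hη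
    (by simpa only [tsum_dirac] using cert)

/-- The criterion on Poisson Galton-Watson trees. -/
theorem aPois_zero_of_hel (hq : 2 ≤ q) {lam : ℝ} (h0 : -1 / ((q : ℝ) - 1) ≤ lam) (h1 : lam ≤ 1)
    {d : ℝ} (hd : 0 ≤ d) {m : ℕ} (c : Fin m → ℝ) (a : Fin m → Fin q → ℝ) (ha : ∀ j, Expo (a j))
    {η : ℝ} (hη : 0 < η)
    (cert : ∀ (ι : Type) (w : ι → ℝ) (y : ι → Fin q → ℝ), (∀ x, 0 ≤ w x) → Summable w →
      ∑' x, w x = 1 → (∀ x, Simp (y x)) →
      ∑ j, c j * (1 - Real.exp (-(d * (1 - ∑' x, w x * hel (a j) (fun i => lam * y x i)))))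
          + η * (∑' x, w x * chi (y x)) ^ 2
        ≤ ∑ j, c j * (1 - ∑' x, w x * hel (a j) (y x))) :
    Tendsto (fun n => aGW q (poisWeight d) lam n) atTop (𝓝 0) :=
  aGW_zero_of_hel hq h0 h1 (poisWeight_nonneg hd) (tsum_poisWeight hd) c a ha hη
    (by simpa only [tsum_poisWeight_pow] using cert)

/-- Jensen for the square: the step from a bound for one vector to a bound for a family. -/
theorem sq_tsum_le {ι : Type} {w f : ι → ℝ} {B : ℝ} (hw : ∀ x, 0 ≤ w x) (hs : Summable w)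
    (h1 : ∑' x, w x = 1) (hf : ∀ x, |f x| ≤ B) :
    (∑' x, w x * f x) ^ 2 ≤ ∑' x, w x * f x ^ 2 := by
  have bd : ∀ g : ι → ℝ, (∃ C, ∀ x, |g x| ≤ C) → Summable fun x => w x * g x := by
    rintro g ⟨C, hC⟩
    refine Summable.of_norm_bounded (hs.mul_right C) fun x => ?_
    rw [Real.norm_eq_abs, abs_mul, abs_of_nonneg (hw x)]
    exact mul_le_mul_of_nonneg_left (hC x) (hw x)
  set μ := ∑' x, w x * f x with hμ
  have s1 := bd f ⟨B, hf⟩
  have s2 := bd (fun x => f x ^ 2) ⟨B ^ 2, fun x => by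
    rw [abs_pow]; exact pow_le_pow_left₀ (abs_nonneg _) (hf x) 2⟩
  have h0 : 0 ≤ ∑' x, w x * (f x - μ) ^ 2 := tsum_nonneg fun x => mul_nonneg (hw x) (sq_nonneg _)
  have e : ∀ x, w x * (f x - μ) ^ 2 = w x * f x ^ 2 - 2 * μ * (w x * f x) + μ ^ 2 * w x :=
    fun x => by ring
  simp only [e] at h0
  rw [(s2.sub (s1.mul_left _)).tsum_add (hs.mul_left _), s2.tsum_sub (s1.mul_left _),
    tsum_mul_left, tsum_mul_left, h1, ← hμ] at h0
  linarith

end Vale.P154
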