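import Vale.Agent.P154.GW

/-!
# Reconstruction above the Kesten-Stigum bound
-/

noncomputable section

namespace Vale.P154

open Finset Filter Topology
open scoped ENNReal

variable {q : ℕ}

/-- The number of vertices at distance `n` from the root. -/
def leaves : (n : ℕ) → PTree n → ℝ
  | 0, _ => 1
  | n + 1, t => ∑ c, leaves n (t.2 c)

/-- The centred colour census of a configuration. -/
def census {q : ℕ} : (n : ℕ) → (t : PTree n) → Cfg q n t → Fin q → ℝ
  | 0, _, s, j => (q : ℝ) * (if id (α := Fin q) s = j then 1 else 0) - 1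
  | n + 1, t, s, j => ∑ c, census n (t.2 c) (s c) j

/-- The conditional second moment of the census. -/
def censusVar (q : ℕ) (lam : ℝ) : (n : ℕ) → PTree n → ℝ
  | 0, _ => (q : ℝ) * (q - 1)
  | n + 1, t => (∑ c, censusVar q lam n (t.2 c)) + lam ^ (2 * n + 2) * ((q : ℝ) * (q - 1)) *
      ∑ p ∈ (univ : Finset (Fin t.1)).offDiag, leaves n (t.2 p.1) * leaves n (t.2 p.2)

theorem leaves_nonneg : ∀ (n : ℕ) (t : PTree n), 0 ≤ leaves n t
  | 0, _ => zero_le_one
  | n + 1, t => Finset.sum_nonneg fun c _ => leaves_nonneg n (t.2 c)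

theorem censusVar_nonneg (hq : 2 ≤ q) (lam : ℝ) : ∀ (n : ℕ) (t : PTree n), 0 ≤ censusVar q lam n t
  | 0, _ => by
      have : (2 : ℝ) ≤ q := by exact_mod_cast hq
      exact mul_nonneg (by linarith) (by linarith)
  | n + 1, t => by
      have hq' : (2 : ℝ) ≤ q := by exact_mod_cast hq
      refine add_nonneg (Finset.sum_nonneg fun c _ => censusVar_nonneg hq lam n (t.2 c))
        (mul_nonneg (mul_nonneg ?_ (mul_nonneg (by linarith) (by linarith)))
          (Finset.sum_nonneg fun p _ => mul_nonneg (leaves_nonneg n _) (leaves_nonneg n _)))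
      rw [show 2 * n + 2 = 2 * (n + 1) by ring, pow_mul]; positivity

/-- `q * delta - 1`. -/
def cvec (q : ℕ) (i j : Fin q) : ℝ := (q : ℝ) * (if i = j then 1 else 0) - 1

theorem sum_cvec_sq [NeZero q] (i : Fin q) : ∑ j, cvec q i j ^ 2 = (q : ℝ) * (q - 1) := by
  have e : ∀ j, cvec q i j ^ 2 = (if i = j then (q : ℝ) ^ 2 - 2 * q else 0) + 1 := by
    intro j; unfold cvec; split_ifs <;> ring
  simp only [e, Finset.sum_add_distrib, Finset.sum_ite_eq, Finset.mem_univ, if_true,
    Finset.sum_const, Finset.card_univ, Fintype.card_fin, nsmul_eq_mul, mul_one]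
  ring

theorem potts_cvec [NeZero q] (lam : ℝ) (i j : Fin q) :
    ∑ k, potts q lam i k * cvec q k j = lam * cvec q i j := by
  rw [potts_mul]
  have : ∑ k, cvec q k j = 0 := by simp [cvec, Finset.sum_sub_distrib, mul_ite]
  rw [this]; simp

theorem pi_sum_one {k : ℕ} {β : Fin k → Type*} [∀ c, Fintype (β c)] (u : (c : Fin k) → β c → ℝ)
    (hu : ∀ c, ∑ x, u c x = 1) (c₀ : Fin k) (h : β c₀ → ℝ) :
    ∑ s : (c : Fin k) → β c, (∏ c, u c (s c)) * h (s c₀) = ∑ x, u c₀ x * h x := by
  classical
  let g : (c : Fin k) → β c → ℝ := fun c x => if hc : c = c₀ then h (hc ▸ x) else 1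
  have e : ∀ s : (c : Fin k) → β c, (∏ c, u c (s c)) * h (s c₀) = ∏ c, u c (s c) * g c (s c) := by
    intro s
    rw [Finset.prod_mul_distrib, Finset.prod_eq_single c₀ (f := fun c => g c (s c))]
    · simp [g]
    · intro c _ hc; simp [g, hc]
    · simp
  simp only [e, ← Fintype.prod_sum (fun c x => u c x * g c x)]
  rw [Finset.prod_eq_single c₀]
  · simp [g]
  · intro c _ hc; simp [g, hc, hu]
  · simp

theorem pi_sum_two {k : ℕ} {β : Fin k → Type*} [∀ c, Fintype (β c)] (u : (c : Fin k) → β c → ℝ)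
    (hu : ∀ c, ∑ x, u c x = 1) {c₀ c₁ : Fin k} (hne : c₀ ≠ c₁) (h : β c₀ → ℝ) (h' : β c₁ → ℝ) :
    ∑ s : (c : Fin k) → β c, (∏ c, u c (s c)) * (h (s c₀) * h' (s c₁))
      = (∑ x, u c₀ x * h x) * ∑ x, u c₁ x * h' x := by
  classical
  let g : (c : Fin k) → β c → ℝ := fun c x =>
    if hc : c = c₀ then h (hc ▸ x) else if hc' : c = c₁ then h' (hc' ▸ x) else 1
  have e : ∀ s : (c : Fin k) → β c,
      (∏ c, u c (s c)) * (h (s c₀) * h' (s c₁)) = ∏ c, u c (s c) * g c (s c) := by
    intro s
    rw [Finset.prod_mul_distrib, Finset.prod_eq_mul c₀ c₁ hne (f := fun c => g c (s c))]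
    · simp [g, hne.symm]
    · intro c _ hc; simp [g, hc.1, hc.2]
    · simp
    · simp
  simp only [e, ← Fintype.prod_sum (fun c x => u c x * g c x)]
  rw [Finset.prod_eq_mul c₀ c₁ hne]
  · simp [g, hne.symm]
  · intro c _ hc; simp [g, hc.1, hc.2, hu]
  · simp
  · simp

theorem chan_total [NeZero q] (lam : ℝ) (n : ℕ) (t : PTree n) (i : Fin q) :
    ∑ x : Cfg q n t, ∑ k, potts q lam i k * lik lam n t x k = 1 := by
  rw [Finset.sum_comm]; simp [← Finset.mul_sum, sum_lik, sum_potts]

theorem census_mean [NeZero q] (lam : ℝ) : ∀ (n : ℕ) (t : PTree n) (i j : Fin q),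
    ∑ s : Cfg q n t, lik lam n t s i * census n t s j = lam ^ n * leaves n t * cvec q i j
  | 0, t, i, j => by
      show ∑ s : Fin q, (if s = i then (1 : ℝ) else 0) *
        ((q : ℝ) * (if s = j then 1 else 0) - 1) = _
      simp [leaves, cvec]
  | n + 1, t, i, j => by
      show ∑ s : (c : Fin t.1) → Cfg q n (t.2 c),
        (∏ c, ∑ k, potts q lam i k * lik lam n (t.2 c) (s c) k) * ∑ c, census n (t.2 c) (s c) j = _
      simp only [Finset.mul_sum (s := (univ : Finset (Fin t.1)))]
      rw [Finset.sum_comm]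
      have : ∀ c : Fin t.1, ∑ s : (c : Fin t.1) → Cfg q n (t.2 c),
          (∏ c, ∑ k, potts q lam i k * lik lam n (t.2 c) (s c) k) * census n (t.2 c) (s c) j
          = lam ^ (n + 1) * leaves n (t.2 c) * cvec q i j := by
        intro c
        rw [pi_sum_one (fun c x => ∑ k, potts q lam i k * lik lam n (t.2 c) x k)
          (fun c => chan_total lam n _ i) c (fun x => census n (t.2 c) x j)]
        simp only [Finset.sum_mul]
        rw [Finset.sum_comm]
        simp only [mul_assoc (potts q lam i _), ← Finset.mul_sum, census_mean lam n (t.2 c)]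
        have e : ∀ k, potts q lam i k * (lam ^ n * leaves n (t.2 c) * cvec q k j)
            = lam ^ n * leaves n (t.2 c) * (potts q lam i k * cvec q k j) := fun k => by ring
        simp only [e, ← Finset.mul_sum, potts_cvec, pow_succ]
        ring
      simp only [this, leaves, Finset.mul_sum, Finset.sum_mul]

theorem census_var [NeZero q] (lam : ℝ) : ∀ (n : ℕ) (t : PTree n) (i : Fin q),
    ∑ s : Cfg q n t, lik lam n t s i * ∑ j, census n t s j ^ 2 = censusVar q lam n t
  | 0, t, i => by
      show ∑ s : Fin q, (if s = i then (1 : ℝ) else 0) *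
        ∑ j, cvec q s j ^ 2 = _
      simp [sum_cvec_sq, censusVar]
  | n + 1, t, i => by
      show ∑ s : (c : Fin t.1) → Cfg q n (t.2 c),
        (∏ c, ∑ k, potts q lam i k * lik lam n (t.2 c) (s c) k) *
          ∑ j, (∑ c, census n (t.2 c) (s c) j) ^ 2 = _
      set u : (c : Fin t.1) → Cfg q n (t.2 c) → ℝ :=
        fun c x => ∑ k, potts q lam i k * lik lam n (t.2 c) x k with hu
      have hu1 : ∀ c, ∑ x, u c x = 1 := fun c => chan_total lam n _ i
      have expand : ∀ s : (c : Fin t.1) → Cfg q n (t.2 c),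
          ∑ j, (∑ c, census n (t.2 c) (s c) j) ^ 2
            = (∑ c, ∑ j, census n (t.2 c) (s c) j ^ 2)
              + ∑ p ∈ (univ : Finset (Fin t.1)).offDiag,
                  ∑ j, census n (t.2 p.1) (s p.1) j * census n (t.2 p.2) (s p.2) j := by
        intro s
        rw [Finset.sum_comm (s := (univ : Finset (Fin t.1))), Finset.sum_comm
          (s := (univ : Finset (Fin t.1)).offDiag), ← Finset.sum_add_distrib]
        refine Finset.sum_congr rfl fun j _ => ?_
        rw [sq, Finset.sum_mul_sum, ← Finset.sum_product', ← Finset.diag_union_offDiag,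
          Finset.sum_union (Finset.disjoint_diag_offDiag _), Finset.sum_diag]
        simp [sq]
      have diag : ∀ c, ∑ s : (c : Fin t.1) → Cfg q n (t.2 c),
          (∏ c, u c (s c)) * ∑ j, census n (t.2 c) (s c) j ^ 2 = censusVar q lam n (t.2 c) := by
        intro c
        rw [pi_sum_one u hu1 c (fun x => ∑ j, census n (t.2 c) x j ^ 2)]
        simp only [hu, Finset.sum_mul]
        rw [Finset.sum_comm]
        simp only [mul_assoc (potts q lam i _), ← Finset.mul_sum, census_var lam n (t.2 c),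
          ← Finset.sum_mul, sum_potts, one_mul]
      have one : ∀ c j, ∑ x, u c x * census n (t.2 c) x j
          = lam ^ (n + 1) * leaves n (t.2 c) * cvec q i j := by
        intro c j
        simp only [hu, Finset.sum_mul]
        rw [Finset.sum_comm]
        simp only [mul_assoc (potts q lam i _), ← Finset.mul_sum, census_mean lam n (t.2 c)]
        have e : ∀ k, potts q lam i k * (lam ^ n * leaves n (t.2 c) * cvec q k j)
            = lam ^ n * leaves n (t.2 c) * (potts q lam i k * cvec q k j) := fun k => by ring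
        rw [Finset.sum_congr rfl fun k _ => e k, ← Finset.mul_sum, potts_cvec, pow_succ]
        ring
      have off : ∀ p ∈ (univ : Finset (Fin t.1)).offDiag, ∑ s : (c : Fin t.1) → Cfg q n (t.2 c),
          (∏ c, u c (s c)) * ∑ j, census n (t.2 p.1) (s p.1) j * census n (t.2 p.2) (s p.2) j
          = lam ^ (2 * n + 2) * ((q : ℝ) * (q - 1)) *
            (leaves n (t.2 p.1) * leaves n (t.2 p.2)) := by
        intro p hp
        have hne : p.1 ≠ p.2 := (Finset.mem_offDiag.1 hp).2.2
        calc ∑ s : (c : Fin t.1) → Cfg q n (t.2 c), (∏ c, u c (s c)) *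
              ∑ j, census n (t.2 p.1) (s p.1) j * census n (t.2 p.2) (s p.2) j
            = ∑ j, ∑ s : (c : Fin t.1) → Cfg q n (t.2 c), (∏ c, u c (s c)) *
              (census n (t.2 p.1) (s p.1) j * census n (t.2 p.2) (s p.2) j) := by
              rw [Finset.sum_comm]; exact Finset.sum_congr rfl fun s _ => Finset.mul_sum _ _ _
          _ = ∑ j, lam ^ (2 * n + 2) * (leaves n (t.2 p.1) * leaves n (t.2 p.2)) *
              cvec q i j ^ 2 := by
              refine Finset.sum_congr rfl fun j _ => ?_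
              rw [pi_sum_two u hu1 hne (fun x => census n (t.2 p.1) x j)
                (fun x => census n (t.2 p.2) x j), one, one]
              ring
          _ = _ := by rw [← Finset.mul_sum, sum_cvec_sq]; ring
      calc ∑ s : (c : Fin t.1) → Cfg q n (t.2 c), (∏ c, u c (s c)) *
            ∑ j, (∑ c, census n (t.2 c) (s c) j) ^ 2
          = ∑ s : (c : Fin t.1) → Cfg q n (t.2 c),
              ((∑ c, (∏ c, u c (s c)) * ∑ j, census n (t.2 c) (s c) j ^ 2)
              + ∑ p ∈ (univ : Finset (Fin t.1)).offDiag, (∏ c, u c (s c)) *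
                  ∑ j, census n (t.2 p.1) (s p.1) j * census n (t.2 p.2) (s p.2) j) := by
            refine Finset.sum_congr rfl fun s _ => ?_
            rw [expand s, mul_add, Finset.mul_sum, Finset.mul_sum]
        _ = _ := by
            rw [Finset.sum_add_distrib, Finset.sum_comm, Finset.sum_congr rfl fun c _ => diag c,
              Finset.sum_comm, Finset.sum_congr rfl off, ← Finset.mul_sum]
            rfl

/-- The second-moment bound for one tree, with `2 * tau` times the mean census on the right. -/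
theorem census_le (hq : 2 ≤ q) {lam : ℝ} (h0 : -1 / ((q : ℝ) - 1) ≤ lam) (h1 : lam ≤ 1)
    (n : ℕ) (t : PTree n) {tau : ℝ} (_htau : 0 ≤ tau) :
    2 * tau * (|lam| ^ n * leaves n t * ((q : ℝ) * (q - 1)))
      ≤ q * xTree q lam n t + tau ^ 2 * censusVar q lam n t := by
  have : NeZero q := ⟨by omega⟩
  have hq0 : (0 : ℝ) < q := by exact_mod_cast (by omega : 0 < q)
  obtain ⟨σ, hσ, hσn⟩ : ∃ σ : ℝ, σ ^ 2 = 1 ∧ σ * lam ^ n = |lam| ^ n := by
    rcases le_total 0 (lam ^ n) with h | h
    · exact ⟨1, one_pow 2, by rw [one_mul, ← abs_pow, abs_of_nonneg h]⟩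
    · exact ⟨-1, by norm_num, by rw [← abs_pow, abs_of_nonpos h]; ring⟩
  set w : Cfg q n t → ℝ := fun s => (∑ i, lik lam n t s i) / q with hw
  set y : Cfg q n t → Fin q → ℝ := fun s j =>
    q * lik lam n t s j / (∑ k, lik lam n t s k) - 1 with hy
  have main : 0 ≤ ∑ s, w s * ∑ j, (tau * σ * census n t s j - y s j) ^ 2 :=
    Finset.sum_nonneg fun s _ => mul_nonneg (mass_nonneg hq h0 h1 n t s) (by positivity)
  have e1 : ∑ s, w s * ∑ j, census n t s j ^ 2 = censusVar q lam n t := by
    simp only [hw, div_mul_eq_mul_div, ← Finset.sum_div, Finset.sum_mul]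
    rw [Finset.sum_comm]
    simp [census_var]
    field_simp
  have e2 : ∑ s, w s * ∑ j, y s j ^ 2 = q * xTree q lam n t := by
    rw [xTree, Finset.mul_sum]
    refine Finset.sum_congr rfl fun s _ => ?_
    simp only [hw, hy]; field_simp
  have e3 : ∑ s, w s * ∑ j, census n t s j * y s j
      = lam ^ n * leaves n t * ((q : ℝ) * (q - 1)) := by
    have p : ∀ s j, w s * (census n t s j * y s j)
        = (∑ i, lik lam n t s i * census n t s j * cvec q i j) / q := by
      intro s j
      have hv : ∑ i, lik lam n t s i * census n t s j * cvec q i j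
          = census n t s j * (q * lik lam n t s j - ∑ i, lik lam n t s i) := by
        simp only [cvec, mul_sub, Finset.mul_sum, mul_ite, mul_one, mul_zero]
        rw [Finset.sum_sub_distrib]
        simp only [Finset.sum_ite_eq', Finset.mem_univ, if_true]
        congr 1
        · ring
        · exact Finset.sum_congr rfl fun i _ => by ring
      rw [hv]
      simp only [hw, hy]
      by_cases hs : ∑ i, lik lam n t s i = 0
      · have := (Finset.sum_eq_zero_iff_of_nonneg fun i _ => lik_nonneg hq h0 h1 n t s i).1 hs j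
          (Finset.mem_univ j)
        simp [hs, this]
      · field_simp
    simp only [Finset.mul_sum, p]
    rw [Finset.sum_comm]
    simp only [← Finset.sum_div]
    have : ∀ j, ∑ s, ∑ i, lik lam n t s i * census n t s j * cvec q i j
        = ∑ i, lam ^ n * leaves n t * cvec q i j ^ 2 := by
      intro j
      rw [Finset.sum_comm]
      refine Finset.sum_congr rfl fun i _ => ?_
      rw [← Finset.sum_mul, census_mean]; ring
    simp only [this]
    rw [Finset.sum_comm]
    simp only [← Finset.mul_sum, sum_cvec_sq, Finset.sum_const, Finset.card_univ, Fintype.card_fin,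
      nsmul_eq_mul]
    field_simp
  have e4 : ∑ s, w s * ∑ j, (tau * σ * census n t s j - y s j) ^ 2
      = tau ^ 2 * σ ^ 2 * (∑ s, w s * ∑ j, census n t s j ^ 2)
        - 2 * tau * σ * (∑ s, w s * ∑ j, census n t s j * y s j)
        + ∑ s, w s * ∑ j, y s j ^ 2 := by
    simp only [Finset.mul_sum, ← Finset.sum_sub_distrib, ← Finset.sum_add_distrib]
    exact Finset.sum_congr rfl fun s _ => Finset.sum_congr rfl fun j _ => by ring
  rw [e4, e1, e2, e3, hσ, mul_one] at main
  have : 2 * tau * σ * (lam ^ n * leaves n t * ((q : ℝ) * (q - 1)))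
      = 2 * tau * (|lam| ^ n * leaves n t * ((q : ℝ) * (q - 1))) := by rw [← hσn]; ring
  linarith

theorem aTree_ge_xTree (hq : 2 ≤ q) {lam : ℝ} (h0 : -1 / ((q : ℝ) - 1) ≤ lam) (h1 : lam ≤ 1)
    (n : ℕ) (t : PTree n) : xTree q lam n t ≤ 2 * ((q : ℝ) - 1) * aTree q lam n t := by
  have hq0 : (0 : ℝ) < q := by exact_mod_cast (by omega : 0 < q)
  have hq2 : (2 : ℝ) ≤ q := by exact_mod_cast hq
  rw [xTree, aTree, Finset.mul_sum]
  refine Finset.sum_le_sum fun s _ => ?_
  rw [mul_left_comm (2 * ((q : ℝ) - 1))]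
  refine mul_le_mul_of_nonneg_left ?_ (mass_nonneg hq h0 h1 n t s)
  have key : ∀ i, (q * lik lam n t s i / (∑ j, lik lam n t s j) - 1) ^ 2 / (q : ℝ)
      ≤ ((q : ℝ) - 1) * |lik lam n t s i / (∑ j, lik lam n t s j) - 1 / (q : ℝ)| := by
    intro i
    set z := lik lam n t s i / (∑ j, lik lam n t s j) with hz
    have hs : 0 ≤ ∑ j, lik lam n t s j :=
      Finset.sum_nonneg fun j _ => lik_nonneg hq h0 h1 n t s j
    have hz0 : 0 ≤ z := div_nonneg (lik_nonneg hq h0 h1 n t s i) hs
    have hz1 : z ≤ 1 := by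
      rcases hs.eq_or_lt with h | h
      · simp [hz, ← h]
      · rw [hz, div_le_one h]
        exact Finset.single_le_sum (f := fun j => lik lam n t s j)
          (fun j _ => lik_nonneg hq h0 h1 n t s j) (Finset.mem_univ i)
    have e : (q * lik lam n t s i / (∑ j, lik lam n t s j) - 1) ^ 2 / (q : ℝ)
        = (q : ℝ) * |z - 1 / q| ^ 2 := by
      rw [sq_abs, hz, mul_div_assoc]; field_simp
    rw [e]
    have hb : (q : ℝ) * |z - 1 / q| ≤ (q : ℝ) - 1 := by
      have h' : |z - 1 / (q : ℝ)| ≤ ((q : ℝ) - 1) / q := by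
        rw [abs_le, sub_div, div_self hq0.ne']
        have : 2 * (1 / (q : ℝ)) ≤ 1 := by rw [mul_one_div, div_le_one hq0]; linarith
        exact ⟨by linarith, by linarith⟩
      calc (q : ℝ) * |z - 1 / q| ≤ (q : ℝ) * (((q : ℝ) - 1) / q) := by gcongr
        _ = _ := by field_simp
    calc (q : ℝ) * |z - 1 / q| ^ 2 = ((q : ℝ) * |z - 1 / q|) * |z - 1 / q| := by ring
      _ ≤ _ := mul_le_mul_of_nonneg_right hb (abs_nonneg _)
  rw [Finset.sum_div]
  calc _ ≤ ∑ i, ((q : ℝ) - 1) * |lik lam n t s i / (∑ j, lik lam n t s j) - 1 / (q : ℝ)| :=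
        Finset.sum_le_sum fun i _ => key i
    _ = _ := by rw [← Finset.mul_sum]; ring

theorem gwE_zero_eq (p : ℕ → ℝ) (f : PTree 0 → ℝ≥0∞) : gwE p 0 f = f () := by
  show ∑' t : Unit, ENNReal.ofReal 1 * f t = f ()
  rw [tsum_eq_single (default : Unit) fun b hb => absurd (Subsingleton.elim b default) hb]
  simp

/-- The expected product over ordered pairs of distinct children. -/
theorem node_offDiag {p : ℕ → ℝ} (hp : ∀ k, 0 ≤ p k) (hp1 : ∑' k, ENNReal.ofReal (p k) = 1)
    (n k : ℕ) (f : PTree n → ℝ≥0∞) :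
    ∑' ch : Fin k → PTree n, (∏ c, ENNReal.ofReal (gwWeight p n (ch c))) *
      ∑ e ∈ (univ : Finset (Fin k)).offDiag, f (ch e.1) * f (ch e.2)
      = ((k * k - k : ℕ) : ℝ≥0∞) * gwE p n f ^ 2 := by
  simp only [Finset.mul_sum]
  rw [Summable.tsum_finsetSum fun e _ => ENNReal.summable]
  have h1 := gwE_one hp hp1 n
  simp only [gwE, mul_one] at h1
  have : ∀ e ∈ (univ : Finset (Fin k)).offDiag, ∑' ch : Fin k → PTree n,
      (∏ c, ENNReal.ofReal (gwWeight p n (ch c))) * (f (ch e.1) * f (ch e.2)) = gwE p n f ^ 2 := by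
    intro e he
    have hne : e.1 ≠ e.2 := (Finset.mem_offDiag.1 he).2.2
    let g : Fin k → PTree n → ℝ≥0∞ := fun c x => if c = e.1 ∨ c = e.2 then f x else 1
    have hg : ∀ ch : Fin k → PTree n, ∏ c, g c (ch c) = f (ch e.1) * f (ch e.2) := by
      intro ch
      rw [Finset.prod_eq_mul e.1 e.2 hne]
      · simp [g]
      · intro c _ hc; simp [g, hc.1, hc.2]
      · simp
      · simp
    simp only [← hg, ← Finset.prod_mul_distrib]
    rw [tsum_pi_prod (fun c x => ENNReal.ofReal (gwWeight p n x) * g c x),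
      Finset.prod_eq_mul e.1 e.2 hne]
    · simp [g, gwE, sq]
    · intro c _ hc; simp [g, hc.1, hc.2, h1]
    · simp
    · simp
  rw [Finset.sum_congr rfl this, Finset.sum_const, nsmul_eq_mul, Finset.offDiag_card,
    Finset.card_univ, Fintype.card_fin]

/-- Reconstruction above the Kesten-Stigum bound, for offspring laws with mean `d` and second
factorial moment at most `D`. -/
theorem aGW_ge_of_ks (hq : 2 ≤ q) {lam : ℝ} (h0 : -1 / ((q : ℝ) - 1) ≤ lam) (h1 : lam ≤ 1)
    {p : ℕ → ℝ} (hp : ∀ k, 0 ≤ p k) (hp1 : ∑' k, ENNReal.ofReal (p k) = 1) {d D : ℝ} (hd : 0 < d)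
    (hD : 0 ≤ D) (hmean : ∑' k, ENNReal.ofReal (p k) * k = ENNReal.ofReal d)
    (hfac : ∑' k, ENNReal.ofReal (p k) * ((k * k - k : ℕ) : ℝ≥0∞) ≤ ENNReal.ofReal D)
    (hks : 1 < d * lam ^ 2) : ∃ c : ℝ, 0 < c ∧ ∀ n, c ≤ aGW q p lam n := by
  have hq2 : (2 : ℝ) ≤ q := by exact_mod_cast hq
  set Kq := (q : ℝ) * (q - 1) with hKq
  have hK : 0 < Kq := mul_pos (by linarith) (by linarith)
  set g := d * lam ^ 2 with hg
  set B := Kq + Kq * (D / d ^ 2) * (g / (g - 1)) with hB
  have hg1 : 0 < g - 1 := by linarith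
  have hlam : lam ≠ 0 := fun h => by rw [hg, h] at hks; norm_num at hks
  set N := fun n => gwE p n fun t => ENNReal.ofReal (leaves n t) with hN
  set W := fun n => gwE p n fun t => ENNReal.ofReal (censusVar q lam n t) with hW
  have hNn : ∀ n, N n = ENNReal.ofReal (d ^ n) := by
    intro n
    induction n with
    | zero =>
      simp only [hN, gwE_zero_eq, pow_zero, leaves]
    | succ n ih =>
      simp only [hN] at ih ⊢
      rw [gwE_succ hp]
      simp only [leaves, ENNReal.ofReal_sum_of_nonneg fun c _ => leaves_nonneg n _]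
      calc _ = ∑' k, ENNReal.ofReal (p k) * ((k : ℝ≥0∞) * ENNReal.ofReal (d ^ n)) := by
            refine tsum_congr fun k => ?_
            congr 1
            rw [← ih, ← node_sum hp hp1 n k fun t => ENNReal.ofReal (leaves n t)]
        _ = _ := by
            simp only [← mul_assoc]
            rw [ENNReal.tsum_mul_right, hmean, ← ENNReal.ofReal_mul hd.le, pow_succ']
  have hWn : ∀ n, W n ≤ ENNReal.ofReal (B * (lam ^ 2 * d ^ 2) ^ n) := by
    intro n
    induction n with
    | zero =>
      simp only [hW, gwE_zero_eq, pow_zero, mul_one, censusVar]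
      refine ENNReal.ofReal_le_ofReal ?_
      rw [hB, hKq]
      have : 0 ≤ (q : ℝ) * (q - 1) * (D / d ^ 2) * (g / (g - 1)) := by
        refine mul_nonneg (mul_nonneg hK.le (by positivity)) (div_nonneg (by linarith) hg1.le)
      linarith
    | succ n ih =>
      have hl : 0 ≤ lam ^ (2 * n + 2) * Kq := by
        rw [show 2 * n + 2 = 2 * (n + 1) by ring, pow_mul]; positivity
      have e : W (n + 1) = (∑' k, ENNReal.ofReal (p k) * k) * W n
          + ENNReal.ofReal (lam ^ (2 * n + 2) * Kq) *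
            ((∑' k, ENNReal.ofReal (p k) * ((k * k - k : ℕ) : ℝ≥0∞)) * N n ^ 2) := by
        simp only [hW, hN]
        rw [gwE_succ hp]
        simp only [← ENNReal.tsum_mul_right, ← ENNReal.tsum_mul_left, ← ENNReal.tsum_add]
        refine tsum_congr fun k => ?_
        rw [ENNReal.tsum_mul_left, mul_assoc, mul_assoc, ← node_sum hp hp1 n k,
          ← node_offDiag hp hp1 n k, mul_left_comm (ENNReal.ofReal (lam ^ _ * _)),
          ← mul_add]
        congr 1
        rw [← ENNReal.tsum_mul_left, ← ENNReal.tsum_add]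
        refine tsum_congr fun ch => ?_
        rw [mul_left_comm (ENNReal.ofReal _), ← mul_add]
        congr 1
        simp only [censusVar, ← hKq]
        rw [ENNReal.ofReal_add (Finset.sum_nonneg fun c _ => censusVar_nonneg hq lam n _)
          (mul_nonneg hl (Finset.sum_nonneg fun e _ =>
            mul_nonneg (leaves_nonneg n _) (leaves_nonneg n _))),
          ENNReal.ofReal_sum_of_nonneg fun c _ => censusVar_nonneg hq lam n _,
          ENNReal.ofReal_mul hl,
          ENNReal.ofReal_sum_of_nonneg fun e _ =>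
            mul_nonneg (leaves_nonneg n _) (leaves_nonneg n _)]
        congr 2
        exact Finset.sum_congr rfl fun e _ => ENNReal.ofReal_mul (leaves_nonneg n _)
      rw [e, hmean, hNn, ← ENNReal.ofReal_pow (by positivity)]
      have hB0 : 0 ≤ B * (lam ^ 2 * d ^ 2) ^ n := by
        have : 0 ≤ g / (g - 1) := div_nonneg (by linarith) hg1.le
        rw [hB]; positivity
      calc _ ≤ ENNReal.ofReal d * ENNReal.ofReal (B * (lam ^ 2 * d ^ 2) ^ n)
            + ENNReal.ofReal (lam ^ (2 * n + 2) * Kq) *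
              (ENNReal.ofReal D * ENNReal.ofReal ((d ^ n) ^ 2)) := by gcongr
        _ = ENNReal.ofReal (d * (B * (lam ^ 2 * d ^ 2) ^ n)
            + lam ^ (2 * n + 2) * Kq * (D * (d ^ n) ^ 2)) := by
            rw [← ENNReal.ofReal_mul hd.le, ← ENNReal.ofReal_mul hD, ← ENNReal.ofReal_mul hl,
              ← ENNReal.ofReal_add (mul_nonneg hd.le hB0)
                (mul_nonneg hl (mul_nonneg hD (by positivity)))]
        _ ≤ _ := by
            refine ENNReal.ofReal_le_ofReal ?_
            have e1 : lam ^ (2 * n + 2) * Kq * (D * (d ^ n) ^ 2)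
                = Kq * D * lam ^ 2 * (lam ^ 2 * d ^ 2) ^ n := by ring
            have e2 : B * (lam ^ 2 * d ^ 2) ^ (n + 1)
                = B * (lam ^ 2 * d ^ 2) * (lam ^ 2 * d ^ 2) ^ n := by rw [pow_succ]; ring
            have e3 : d * (B * (lam ^ 2 * d ^ 2) ^ n) = d * B * (lam ^ 2 * d ^ 2) ^ n := by ring
            rw [e1, e2, e3, ← add_mul]
            refine mul_le_mul_of_nonneg_right ?_ (by positivity)
            have e4 : B * (lam ^ 2 * d ^ 2) - (d * B + Kq * D * lam ^ 2)
                = Kq * d * (g - 1) := by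
              rw [hB]; field_simp; rw [hg]; ring
            nlinarith [mul_nonneg (mul_nonneg hK.le hd.le) hg1.le]
  have hBpos : 0 < B := by
    have : 0 ≤ Kq * (D / d ^ 2) * (g / (g - 1)) :=
      mul_nonneg (mul_nonneg hK.le (by positivity)) (div_nonneg (by linarith) hg1.le)
    linarith
  have hQ : 0 < (q : ℝ) * (2 * ((q : ℝ) - 1)) := mul_pos (by linarith) (by linarith)
  refine ⟨Kq ^ 2 / B / (q * (2 * ((q : ℝ) - 1))), div_pos (by positivity) hQ, fun n => ?_⟩
  set tau := Kq * (|lam| ^ n * d ^ n) / (B * (lam ^ 2 * d ^ 2) ^ n) with htau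
  have htau0 : 0 ≤ tau := by positivity
  set A := gwE p n fun t => ENNReal.ofReal (aTree q lam n t) with hA
  have hle : ENNReal.ofReal (2 * tau * (|lam| ^ n * Kq)) * N n
      ≤ ENNReal.ofReal (q * (2 * ((q : ℝ) - 1))) * A + ENNReal.ofReal (tau ^ 2) * W n := by
    simp only [hN, hW, hA, gwE, ← ENNReal.tsum_mul_left, ← ENNReal.tsum_add]
    refine ENNReal.tsum_le_tsum fun t => ?_
    rw [mul_left_comm, mul_left_comm (ENNReal.ofReal (↑q * _)),
      mul_left_comm (ENNReal.ofReal (tau ^ 2)), ← mul_add]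
    refine mul_le_mul_right ?_ _
    have hl : 0 ≤ 2 * tau * (|lam| ^ n * Kq) := by positivity
    have ha0 := aTree_nonneg hq h0 h1 n t
    rw [← ENNReal.ofReal_mul hl, ← ENNReal.ofReal_mul hQ.le,
      ← ENNReal.ofReal_mul (sq_nonneg tau),
      ← ENNReal.ofReal_add (mul_nonneg hQ.le ha0)
        (mul_nonneg (sq_nonneg tau) (censusVar_nonneg hq lam n t))]
    refine ENNReal.ofReal_le_ofReal (le_trans (le_of_eq ?_)
      ((census_le hq h0 h1 n t htau0).trans (add_le_add ?_ le_rfl)))
    · rw [hKq]; ring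
    · rw [mul_assoc]; exact mul_le_mul_of_nonneg_left (aTree_ge_xTree hq h0 h1 n t) (by positivity)
  have hne : ∀ t, ENNReal.ofReal (gwWeight p n t) * ENNReal.ofReal (aTree q lam n t) ≠ ∞ :=
    fun t => ENNReal.mul_ne_top ENNReal.ofReal_ne_top ENNReal.ofReal_ne_top
  have hAtop : A ≠ ∞ := by
    refine ne_top_of_le_ne_top (b := ENNReal.ofReal ((q : ℝ) + 1)) ENNReal.ofReal_ne_top ?_
    have h1' := gwE_one hp hp1 n
    calc A ≤ gwE p n fun _ => ENNReal.ofReal ((q : ℝ) + 1) := by
          refine ENNReal.tsum_le_tsum fun t => mul_le_mul_right (ENNReal.ofReal_le_ofReal ?_) _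
          have : NeZero q := ⟨by omega⟩
          calc aTree q lam n t ≤ ∑ s : Cfg q n t, ((∑ i, lik lam n t s i) / q) * ((q : ℝ) + 1) := by
                refine Finset.sum_le_sum fun s _ =>
                  mul_le_mul_of_nonneg_left ?_ (mass_nonneg hq h0 h1 n t s)
                have hs : 0 ≤ ∑ j, lik lam n t s j :=
                  Finset.sum_nonneg fun j _ => lik_nonneg hq h0 h1 n t s j
                have : ∀ i, |lik lam n t s i / (∑ j, lik lam n t s j) - 1 / (q : ℝ)| ≤ 1 := by
                  intro i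
                  have hz : 0 ≤ lik lam n t s i / (∑ j, lik lam n t s j) :=
                    div_nonneg (lik_nonneg hq h0 h1 n t s i) hs
                  have hz1 : lik lam n t s i / (∑ j, lik lam n t s j) ≤ 1 :=
                    div_le_one_of_le₀ (Finset.single_le_sum (f := fun j => lik lam n t s j)
                      (fun j _ => lik_nonneg hq h0 h1 n t s j) (Finset.mem_univ i)) hs
                  have : 1 / (q : ℝ) ≤ 1 := (div_le_one (by linarith)).2 (by linarith)
                  have : 0 ≤ 1 / (q : ℝ) := by positivity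
                  rw [abs_le]; constructor <;> linarith
                have := Finset.sum_le_sum (s := (univ : Finset (Fin q))) fun i _ => this i
                simp at this ⊢
                linarith
            _ = _ := by rw [← Finset.sum_mul, sum_mass, one_mul]
      _ = _ := by
          rw [gwE, ENNReal.tsum_mul_right]
          simp only [gwE, mul_one] at h1'
          rw [h1', one_mul]
  have hreal : aGW q p lam n = A.toReal := by
    simp only [hA, gwE, ENNReal.tsum_toReal_eq hne, aGW, ENNReal.toReal_mul,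
      ENNReal.toReal_ofReal (gwWeight_nonneg hp n _),
      ENNReal.toReal_ofReal (aTree_nonneg hq h0 h1 n _)]
  rw [hNn] at hle
  have h2 := hle.trans (add_le_add le_rfl (mul_le_mul_right (hWn n) _))
  rw [← ENNReal.ofReal_toReal hAtop, ← ENNReal.ofReal_mul (by positivity),
    ← ENNReal.ofReal_mul hQ.le, ← ENNReal.ofReal_mul (sq_nonneg _),
    ← ENNReal.ofReal_add (mul_nonneg hQ.le ENNReal.toReal_nonneg) (by positivity),
    ENNReal.ofReal_le_ofReal_iff (add_nonneg (mul_nonneg hQ.le ENNReal.toReal_nonneg)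
      (by positivity)), ← hreal] at h2
  rw [div_le_iff₀ hQ]
  have e : (|lam| ^ n * d ^ n) ^ 2 = (lam ^ 2 * d ^ 2) ^ n := by
    rw [← mul_pow, ← pow_mul, mul_comm n 2, pow_mul, mul_pow, sq_abs]
  have hu : 0 < (lam ^ 2 * d ^ 2) ^ n := by positivity
  have e1 : 2 * tau * (|lam| ^ n * Kq) * d ^ n - tau ^ 2 * (B * (lam ^ 2 * d ^ 2) ^ n)
      = Kq ^ 2 / B := by
    have e' : 2 * tau * (|lam| ^ n * Kq) * d ^ n = 2 * tau * (Kq * (|lam| ^ n * d ^ n)) := by ring
    rw [e', htau]
    field_simp
    rw [← e]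
    ring
  linarith

/-- Reconstruction on the `d`-ary tree above the Kesten-Stigum bound. -/
theorem aReg_ge_of_ks (hq : 2 ≤ q) {lam : ℝ} (h0 : -1 / ((q : ℝ) - 1) ≤ lam) (h1 : lam ≤ 1)
    {d : ℕ} (hks : 1 < d * lam ^ 2) : ∃ c : ℝ, 0 < c ∧ ∀ n, c ≤ aReg q d lam n := by
  have hd : 0 < (d : ℝ) := by
    rcases Nat.eq_zero_or_pos d with h | h
    · simp [h] at hks; linarith
    · exact_mod_cast h
  have hsum : ∀ g : ℕ → ℝ≥0∞, ∑' k, ENNReal.ofReal (dirac d k) * g k = g d := by
    intro g
    rw [tsum_eq_single d fun k hk => by simp [dirac, hk]]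
    simp [dirac]
  obtain ⟨c, hc, h⟩ := aGW_ge_of_ks hq h0 h1 (p := dirac d) (d := (d : ℝ))
    (D := ((d * d - d : ℕ) : ℝ)) (fun k => by unfold dirac; split_ifs <;> norm_num)
    (by simpa using hsum fun _ => 1) hd (Nat.cast_nonneg _)
    (by rw [hsum, ENNReal.ofReal_natCast]) (by rw [hsum, ENNReal.ofReal_natCast]) hks
  exact ⟨c, hc, fun n => by simpa only [aGW_dirac] using h n⟩

theorem tsum_poisWeight_fac {d : ℝ} (hd : 0 ≤ d) :
    ∑' k, ENNReal.ofReal (poisWeight d k) * ((k * k - k : ℕ) : ℝ≥0∞) = ENNReal.ofReal (d ^ 2) := by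
  rw [tsum_eq_zero_add' ENNReal.summable, tsum_eq_zero_add' ENNReal.summable]
  simp only [Nat.sub_self, Nat.cast_zero, mul_zero, zero_add, mul_one]
  have e : ∀ k : ℕ, ENNReal.ofReal (poisWeight d (k + 1 + 1))
      * (((k + 1 + 1) * (k + 1 + 1) - (k + 1 + 1) : ℕ) : ℝ≥0∞)
      = ENNReal.ofReal (d ^ 2) * ENNReal.ofReal (poisWeight d k) := by
    intro k
    have hn : (k + 1 + 1) * (k + 1 + 1) - (k + 1 + 1) = (k + 2) * (k + 1) := by
      rw [← Nat.mul_sub_one]; rfl
    rw [hn, ← ENNReal.ofReal_natCast, ← ENNReal.ofReal_mul (poisWeight_nonneg hd _),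
      ← ENNReal.ofReal_mul (sq_nonneg d)]
    congr 1
    simp only [poisWeight, Nat.factorial_succ, pow_succ]
    push_cast
    field_simp
    ring
  simp only [e, ENNReal.tsum_mul_left, tsum_poisWeight hd, mul_one]

/-- Reconstruction on Poisson Galton-Watson trees above the Kesten-Stigum bound. -/
theorem aPois_ge_of_ks (hq : 2 ≤ q) {lam : ℝ} (h0 : -1 / ((q : ℝ) - 1) ≤ lam) (h1 : lam ≤ 1)
    {d : ℝ} (hd : 0 < d) (hks : 1 < d * lam ^ 2) :
    ∃ c : ℝ, 0 < c ∧ ∀ n, c ≤ aGW q (poisWeight d) lam n :=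
  aGW_ge_of_ks hq h0 h1 (poisWeight_nonneg hd.le) (tsum_poisWeight hd.le) hd (sq_nonneg d)
    (tsum_poisWeight_mul hd.le) (tsum_poisWeight_fac hd.le).le hks

end Vale.P154
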