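import Vale.Agent.P154.Fold
import Vale.Agent.P154.KS

/-!
# The threshold from a two-point certificate
-/

noncomputable section

namespace Vale.P154

open Filter Topology

variable {q : ℕ}

theorem not_tendsto_zero_of_ge {a : ℕ → ℝ} (h : ∃ c : ℝ, 0 < c ∧ ∀ n, c ≤ a n) :
    ¬ Tendsto a atTop (𝓝 0) := by
  obtain ⟨c, hc, hle⟩ := h
  exact fun ht => absurd (ge_of_tendsto' ht hle) (not_le.2 hc)

/-- The threshold on `d`-ary trees. -/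
theorem reg_threshold (hq : 2 ≤ q) {lam η : ℝ} (h0 : -1 / ((q : ℝ) - 1) ≤ lam) (h1 : lam ≤ 1)
    (hη0 : 0 ≤ η) (hη : lam ≠ 0 → 0 < η) (T : TwoPoint q lam η) {d : ℕ} (hd : 2 ≤ d) :
    Tendsto (fun n => aReg q d lam n) atTop (𝓝 0) ↔ d * lam ^ 2 ≤ 1 :=
  ⟨fun h => not_lt.1 fun hks => not_tendsto_zero_of_ge (aReg_ge_of_ks hq h0 h1 hks) h,
    aReg_zero_of_twoPoint hq h0 h1 hη0 hη T hd⟩

/-- The threshold on Poisson Galton-Watson trees. -/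
theorem pois_threshold (hq : 2 ≤ q) {lam η : ℝ} (h0 : -1 / ((q : ℝ) - 1) ≤ lam) (h1 : lam ≤ 1)
    (hη0 : 0 ≤ η) (hη : lam ≠ 0 → 0 < η) (T : TwoPoint q lam η) {d : ℝ} (hd : 0 < d) :
    Tendsto (fun n => aGW q (poisWeight d) lam n) atTop (𝓝 0) ↔ d * lam ^ 2 ≤ 1 :=
  ⟨fun h => not_lt.1 fun hks => not_tendsto_zero_of_ge (aPois_ge_of_ks hq h0 h1 hd hks) h,
    aPois_zero_of_twoPoint hq h0 h1 hη0 hη T hd⟩

end Vale.P154
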