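import Vale.Agent.P154.Garble
import Vale.Agent.P154.KS
import Vale.Agent.P154.Threshold

/-!
# Three-state antiferromagnet: reduction to the critical channels `-1 / √d`, `d ≥ 4`
-/

noncomputable section

namespace Vale.P154

open Filter Topology

theorem neg_le_inv_sqrt {lam x : ℝ} (hx : 0 < x) (h : x * lam ^ 2 ≤ 1) :
    -(1 / Real.sqrt x) ≤ lam := by
  have hs : 0 < Real.sqrt x := Real.sqrt_pos.2 hx
  have : |lam * Real.sqrt x| ≤ 1 := by
    rw [abs_le_one_iff_mul_self_le_one]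
    nlinarith [Real.mul_self_sqrt hx.le]
  rw [neg_le, le_div_iff₀ hs]
  have := (abs_le.1 this).1
  linarith

theorem inv_sqrt_admissible {x : ℝ} (hx : 4 ≤ x) :
    -1 / (((3 : ℕ) : ℝ) - 1) ≤ -(1 / Real.sqrt x) ∧ -(1 / Real.sqrt x) ≤ 1 := by
  have hs : 2 ≤ Real.sqrt x := by
    rw [show (2 : ℝ) = Real.sqrt 4 by norm_num [show (4 : ℝ) = 2 ^ 2 by norm_num]]
    exact Real.sqrt_le_sqrt hx
  have : 1 / Real.sqrt x ≤ 1 / 2 := one_div_le_one_div_of_le (by norm_num) hs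
  have h0 : 0 ≤ 1 / Real.sqrt x := by positivity
  constructor
  · norm_num at *; linarith
  · linarith

/-- Regular trees: critical nonreconstruction for `d ≥ 4` gives the whole antiferromagnet. -/
theorem q3_af_reg_of_critical
    (hcrit : ∀ d : ℕ, 4 ≤ d →
      Tendsto (fun n => aReg 3 d (-(1 / Real.sqrt d)) n) atTop (𝓝 0))
    {lam : ℝ} (h0 : -(1 / 2) ≤ lam) (h1 : lam ≤ 0) {d : ℕ} (hd : 2 ≤ d) :
    Tendsto (fun n => aReg 3 d lam n) atTop (𝓝 0) ↔ (d : ℝ) * lam ^ 2 ≤ 1 := by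
  have hq : 2 ≤ 3 := by norm_num
  have hl : -1 / (((3 : ℕ) : ℝ) - 1) ≤ lam := by norm_num at *; linarith
  refine ⟨fun h => not_lt.1 fun hks =>
    not_tendsto_zero_of_ge (aReg_ge_of_ks hq hl (by linarith) hks) h, fun h => ?_⟩
  set D : ℕ := max d 4
  have hD : 4 ≤ D := le_max_right _ _
  have hD' : (4 : ℝ) ≤ D := by exact_mod_cast hD
  have hDl : (D : ℝ) * lam ^ 2 ≤ 1 := by
    rcases le_total d 4 with h4 | h4
    · rw [show D = 4 from max_eq_right h4]; push_cast; nlinarith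
    · rwa [show D = d from max_eq_left h4]
  obtain ⟨r, hr0, hr1, rfl⟩ :=
    neg_scale_critical (by positivity) h1 (neg_le_inv_sqrt (by linarith) hDl)
  exact aReg_tendsto_zero_mono hq (inv_sqrt_admissible hD').1 (inv_sqrt_admissible hD').2 hr0 hr1
    (le_max_left _ _) (hcrit D hD)

/-- Poisson trees: critical nonreconstruction for `d ≥ 4` gives the whole antiferromagnet. -/
theorem q3_af_pois_of_critical
    (hcrit : ∀ d : ℝ, 4 ≤ d →
      Tendsto (fun n => aGW 3 (poisWeight d) (-(1 / Real.sqrt d)) n) atTop (𝓝 0))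
    {lam : ℝ} (h0 : -(1 / 2) ≤ lam) (h1 : lam ≤ 0) {d : ℝ} (hd : 0 < d) :
    Tendsto (fun n => aGW 3 (poisWeight d) lam n) atTop (𝓝 0) ↔ d * lam ^ 2 ≤ 1 := by
  have hq : 2 ≤ 3 := by norm_num
  have hl : -1 / (((3 : ℕ) : ℝ) - 1) ≤ lam := by norm_num at *; linarith
  refine ⟨fun h => not_lt.1 fun hks =>
    not_tendsto_zero_of_ge (aPois_ge_of_ks hq hl (by linarith) hd hks) h, fun h => ?_⟩
  set D : ℝ := max d 4
  have hD : 4 ≤ D := le_max_right _ _
  have hDl : D * lam ^ 2 ≤ 1 := by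
    rcases le_total d 4 with h4 | h4
    · rw [show D = 4 from max_eq_right h4]; nlinarith
    · rwa [show D = d from max_eq_left h4]
  obtain ⟨r, hr0, hr1, rfl⟩ :=
    neg_scale_critical (by positivity) h1 (neg_le_inv_sqrt (by linarith) hDl)
  exact aPois_tendsto_zero_mono hq (inv_sqrt_admissible hD).1 (inv_sqrt_admissible hD).2 hr0 hr1
    hd.le (le_max_left _ _) (hcrit D hD)

end Vale.P154
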