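import Vale.Agent.P154.AFCheck

/-! Subdivision certificates, part 1, for the lower bounds. -/

namespace Vale.P154.AF

theorem checkedLower_fff : Checked leafLower rootLower.fst.fst.fst :=
  ⟨(.N (.N .L (.N .L (.N .L (.N .L (.N .L .L))))) (.N (.N (.N .L (.N .L (.N .L (.N .L .L)))) (.N (.N (.N .L (.N .L (.N .L (.N .L (.N .L .L))))) (.N .L (.N (.N (.N (.N .L .L) (.N .L .L)) (.N (.N .L .L) (.N .L .L))) (.N (.N (.N .L .L) (.N .L .L)) (.N (.N .L .L) (.N .L .L)))))) (.N (.N (.N (.N .L .L) (.N .L .L)) (.N .L .L)) (.N (.N (.N .L .L) (.N .L .L)) (.N .L .L))))) (.N (.N (.N (.N .L .L) (.N .L .L)) (.N (.N .L .L) (.N .L .L))) (.N (.N (.N .L .L) (.N .L .L)) (.N (.N .L .L) (.N .L .L)))))), by decide +kernel⟩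

theorem checkedLower_ffsff : Checked leafLower rootLower.fst.fst.snd.fst.fst :=
  ⟨(.N (.N .L (.N .L (.N .L (.N .L (.N .L .L))))) (.N (.N (.N .L .L) (.N .L .L)) (.N (.N (.N .L .L) (.N (.N .L .L) (.N .L .L))) (.N (.N .L .L) (.N (.N .L .L) (.N .L .L)))))), by decide +kernel⟩

theorem checkedLower_ffsfsff : Checked leafLower rootLower.fst.fst.snd.fst.snd.fst.fst :=
  ⟨(.N (.N .L (.N .L (.N .L (.N .L (.N .L .L))))) (.N (.N (.N .L .L) (.N .L .L)) (.N (.N (.N .L .L) (.N (.N .L .L) (.N .L .L))) (.N (.N .L .L) (.N (.N .L .L) (.N .L .L)))))), by decide +kernel⟩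

theorem checkedLower_ffsfsfsff : Checked leafLower rootLower.fst.fst.snd.fst.snd.fst.snd.fst.fst :=
  ⟨(.N (.N .L (.N .L (.N .L (.N .L (.N .L .L))))) (.N (.N (.N .L (.N .L .L)) (.N .L (.N .L .L))) (.N (.N (.N (.N .L .L) (.N .L .L)) (.N (.N .L .L) (.N .L .L))) (.N (.N (.N .L .L) (.N .L .L)) (.N (.N .L .L) (.N .L .L)))))), by decide +kernel⟩

theorem checkedLower_ffsfsfsfs : Checked leafLower rootLower.fst.fst.snd.fst.snd.fst.snd.fst.snd :=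
  ⟨(.N (.N (.N (.N .L (.N .L (.N .L (.N .L (.N .L (.N .L .L)))))) (.N (.N (.N .L (.N .L (.N .L .L))) (.N (.N .L .L) (.N (.N .L .L) (.N .L .L)))) (.N (.N (.N (.N .L .L) (.N .L .L)) (.N (.N (.N .L .L) (.N .L .L)) (.N (.N .L .L) (.N .L .L)))) (.N (.N (.N .L .L) (.N .L .L)) (.N (.N (.N .L .L) (.N .L .L)) (.N .L (.N .L .L))))))) .L) (.N (.N (.N (.N (.N (.N .L .L) (.N (.N .L .L) (.N .L .L))) (.N (.N .L .L) (.N .L .L))) (.N (.N (.N (.N .L .L) (.N .L .L)) (.N (.N .L (.N .L .L)) (.N .L .L))) (.N (.N (.N .L .L) (.N .L .L)) (.N (.N .L .L) (.N .L .L))))) (.N (.N (.N (.N .L .L) (.N .L .L)) (.N .L (.N .L .L))) (.N (.N (.N .L .L) (.N (.N .L .L) .L)) (.N (.N .L .L) (.N .L .L))))) (.N (.N (.N (.N (.N (.N (.N .L .L) (.N .L .L)) (.N .L (.N .L .L))) (.N (.N (.N .L .L) (.N .L .L)) (.N (.N .L .L) (.N .L .L)))) (.N (.N (.N .L .L) (.N .L .L)) (.N (.N .L .L) (.N .L .L)))) (.N (.N (.N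 (.N (.N .L .L) .L) .L) .L) .L)) (.N (.N (.N (.N (.N .L .L) .L) (.N (.N .L .L) .L)) (.N (.N .L .L) .L)) .L)))), by decide +kernel⟩

theorem checkedLower_ffsfsfss : Checked leafLower rootLower.fst.fst.snd.fst.snd.fst.snd.snd :=
  ⟨(.N (.N (.N (.N (.N .L (.N .L .L)) (.N .L (.N .L .L))) (.N (.N (.N (.N .L .L) .L) (.N (.N .L .L) (.N .L .L))) (.N (.N .L .L) (.N (.N .L .L) .L)))) (.N (.N (.N .L .L) (.N .L .L)) (.N (.N (.N .L .L) (.N .L .L)) (.N .L .L)))) (.N (.N (.N (.N (.N (.N .L .L) (.N .L .L)) (.N (.N .L (.N .L .L)) (.N .L .L))) (.N (.N (.N .L .L) (.N .L .L)) (.N (.N .L .L) (.N .L .L)))) (.N (.N (.N (.N (.N .L .L) .L) .L) .L) .L)) (.N (.N (.N (.N .L .L) (.N .L .L)) (.N (.N .L .L) .L)) .L))), by decide +kernel⟩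

theorem checkedLower_ffsfss : Checked leafLower rootLower.fst.fst.snd.fst.snd.snd :=
  ⟨(.N (.N (.N (.N (.N .L .L) (.N .L .L)) (.N (.N (.N .L .L) (.N (.N .L .L) .L)) (.N (.N .L .L) (.N .L .L)))) (.N (.N (.N .L .L) (.N .L .L)) (.N (.N .L (.N .L .L)) (.N .L .L)))) (.N (.N (.N (.N (.N (.N .L .L) (.N .L .L)) (.N (.N .L .L) (.N .L .L))) (.N (.N .L .L) (.N .L .L))) (.N (.N (.N (.N .L .L) .L) .L) .L)) (.N (.N (.N (.N .L .L) (.N .L .L)) (.N .L .L)) .L))), by decide +kernel⟩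

theorem checkedLower_ffss : Checked leafLower rootLower.fst.fst.snd.snd :=
  ⟨(.N (.N (.N (.N (.N .L .L) (.N .L .L)) (.N (.N .L (.N .L .L)) (.N .L (.N .L .L)))) (.N (.N (.N .L .L) (.N .L .L)) (.N (.N .L .L) (.N .L .L)))) (.N (.N (.N (.N (.N (.N .L .L) .L) (.N (.N .L .L) (.N .L .L))) (.N (.N .L .L) (.N .L .L))) (.N (.N (.N (.N .L .L) .L) .L) .L)) (.N (.N (.N (.N .L .L) (.N .L .L)) (.N .L .L)) .L))), by decide +kernel⟩

end Vale.P154.AF
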