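import Vale.Agent.P154.AFCheck

/-! Subdivision certificates, part 2, for the lower bounds. -/

namespace Vale.P154.AF

theorem checkedLower_fsff : Checked leafLower rootLower.fst.snd.fst.fst :=
  ⟨(.N (.N (.N (.N (.N .L (.N (.N (.N (.N .L .L) (.N .L .L)) (.N (.N .L .L) (.N .L .L))) (.N (.N (.N .L .L) (.N .L .L)) (.N (.N .L .L) (.N .L .L))))) (.N .L (.N (.N (.N (.N .L .L) (.N .L .L)) (.N (.N .L .L) (.N .L .L))) (.N (.N (.N .L .L) (.N .L .L)) (.N (.N .L .L) .L))))) (.N (.N (.N (.N .L .L) (.N .L .L)) .L) (.N (.N (.N .L .L) (.N .L .L)) .L))) (.N (.N (.N .L (.N (.N (.N (.N .L .L) (.N .L .L)) .L) (.N (.N (.N .L .L) (.N .L .L)) .L))) (.N .L (.N (.N (.N (.N .L .L) (.N .L .L)) .L) (.N (.N (.N .L .L) (.N .L .L)) .L)))) (.N (.N (.N (.N .L .L) (.N .L .L)) .L) (.N (.N (.N .L .L) (.N .L .L)) .L)))) (.N (.N (.N (.N .L .L) (.N .L .L)) (.N (.N .L .L) (.N .L .L)))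 (.N (.N (.N .L .L) (.N .L .L)) (.N (.N .L .L) (.N .L .L))))), by decide +kernel⟩

theorem checkedLower_fsfs : Checked leafLower rootLower.fst.snd.fst.snd :=
  ⟨(.N (.N (.N (.N (.N .L (.N (.N (.N (.N .L .L) (.N .L .L)) .L) (.N (.N (.N .L .L) (.N .L .L)) .L))) (.N .L (.N (.N (.N (.N .L .L) (.N .L .L)) .L) (.N (.N (.N .L .L) (.N .L .L)) .L)))) (.N (.N (.N (.N .L .L) (.N .L .L)) .L) (.N (.N (.N .L .L) (.N .L .L)) .L))) (.N (.N (.N .L (.N (.N (.N (.N .L .L) (.N .L .L)) .L) (.N (.N (.N .L .L) (.N .L .L)) .L))) (.N .L (.N (.N (.N (.N .L .L) .L) .L) (.N .L .L)))) (.N (.N (.N .L .L) .L) (.N .L .L)))) (.N (.N (.N (.N .L .L) (.N .L .L)) (.N .L .L)) (.N (.N (.N .L .L) (.N .L .L)) (.N .L .L)))), by decide +kernel⟩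

theorem checkedLower_fss : Checked leafLower rootLower.fst.snd.snd :=
  ⟨(.N (.N (.N (.N (.N (.N .L .L) (.N .L .L)) (.N (.N .L .L) (.N .L .L))) (.N (.N (.N .L .L) .L) (.N (.N .L .L) (.N .L .L)))) (.N (.N (.N (.N .L .L) .L) .L) .L)) (.N (.N (.N (.N .L .L) (.N (.N .L .L) .L)) (.N (.N .L (.N .L .L)) .L)) .L)), by decide +kernel⟩

theorem checkedLower_sf : Checked leafLower rootLower.snd.fst :=
  ⟨(.N (.N (.N (.N (.N (.N (.N .L (.N (.N .L .L) (.N .L .L))) (.N .L (.N (.N .L .L) (.N .L .L)))) (.N (.N .L .L) (.N .L .L))) (.N (.N (.N .L (.N (.N .L .L) (.N .L .L))) (.N .L (.N (.N .L .L) (.N .L .L)))) (.N (.N .L .L) (.N .L .L)))) (.N (.N (.N (.N .L .L) (.N .L .L)) (.N .L .L)) (.N (.N (.N .L .L) (.N .L .L)) (.N (.N .L .L) (.N .L .L))))) (.N (.N (.N (.N (.N .L (.N (.N .L .L) (.N .L .L))) (.N .L (.N (.N .L .L) (.N .L .L)))) (.N (.N .L .L) (.N .L .L))) (.N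 (.N (.N (.N (.N .L .L) (.N .L .L)) (.N (.N .L .L) (.N .L .L))) (.N (.N (.N .L .L) (.N .L .L)) (.N (.N .L .L) (.N .L .L)))) (.N (.N .L .L) (.N .L .L)))) (.N (.N (.N (.N .L .L) (.N .L .L)) (.N (.N .L .L) .L)) (.N (.N (.N .L (.N .L .L)) (.N .L .L)) .L)))) (.N (.N (.N (.N (.N (.N .L .L) .L) .L) .L) .L) .L)), by decide +kernel⟩

theorem checkedLower_ss : Checked leafLower rootLower.snd.snd :=
  ⟨(.N (.N (.N (.N (.N (.N (.N (.N (.N .L .L) (.N .L .L)) (.N (.N .L .L) (.N .L .L))) (.N (.N (.N .L .L) (.N .L .L)) (.N (.N .L .L) (.N .L .L)))) (.N (.N .L .L) (.N (.N .L .L) (.N .L .L)))) (.N (.N (.N (.N (.N .L .L) (.N .L .L)) (.N (.N .L .L) (.N .L .L))) (.N (.N (.N .L .L) (.N .L .L)) (.N (.N .L .L) (.N .L .L)))) (.N (.N (.N .L .L) (.N (.N .L .L) .L)) (.N (.N .L (.N .L .L)) .L)))) (.N (.N (.N (.N (.N .L .L) .L) .L) .L) .L)) (.N (.N (.N (.N (.N (.N (.N .L .L)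 (.N .L .L)) (.N (.N .L .L) (.N .L .L))) (.N (.N (.N .L .L) (.N .L .L)) (.N (.N .L (.N .L .L)) (.N .L .L)))) (.N (.N (.N (.N .L .L) .L) .L) .L)) (.N (.N (.N (.N (.N .L .L) (.N (.N .L .L) .L)) (.N (.N (.N (.N .L .L) .L) .L) .L)) (.N (.N .L (.N .L .L)) .L)) .L)) .L)) .L), by decide +kernel⟩

end Vale.P154.AF
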