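import Vale.Agent.P154.AFCheck

/-! Subdivision certificates, part 2, for the upper bounds. -/

namespace Vale.P154.AF

theorem checkedUpper_sfsfsfssf : Checked leafUpper rootUpper.snd.fst.snd.fst.snd.fst.snd.snd.fst :=
  ⟨(.N (.N (.N (.N (.N (.N .L .L) (.N .L .L)) (.N (.N .L .L) (.N .L .L))) (.N (.N (.N .L .L) (.N .L .L)) (.N (.N .L .L) (.N .L .L)))) (.N (.N (.N (.N (.N .L .L) (.N .L .L)) (.N (.N .L .L) (.N .L .L))) (.N (.N (.N .L .L) (.N (.N .L .L) (.N .L .L))) (.N (.N .L .L) (.N .L .L)))) (.N (.N (.N .L (.N .L .L)) (.N .L .L)) (.N (.N (.N .L .L) (.N .L .L)) (.N (.N .L .L) (.N .L .L)))))) (.N (.N (.N (.N (.N .L .L) (.N .L .L)) (.N (.N .L .L) (.N .L .L))) (.N (.N (.N .L .L) .L) (.N (.N .L .L) (.N .L .L)))) (.N (.N (.N (.N .L .L) (.N .L .L)) (.N (.N .L .L) (.N .L .L))) (.N (.N (.N .L .L) (.N .L .L)) (.N (.N .L .L) (.N .L .L)))))), by decide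 +kernel⟩

theorem checkedUpper_sfsfsfsss : Checked leafUpper rootUpper.snd.fst.snd.fst.snd.fst.snd.snd.snd :=
  ⟨(.N (.N (.N (.N (.N (.N (.N (.N .L .L) (.N .L .L)) (.N (.N .L .L) (.N .L .L))) (.N (.N (.N .L .L) .L) (.N (.N .L .L) (.N .L .L)))) (.N (.N (.N (.N .L .L) (.N .L .L)) (.N (.N .L .L) (.N .L .L))) (.N (.N (.N .L .L) (.N .L .L)) (.N (.N .L .L) (.N .L .L))))) (.N (.N (.N (.N .L .L) (.N .L .L)) (.N (.N .L .L) (.N .L .L))) (.N (.N (.N .L .L) (.N .L .L)) (.N (.N .L .L) .L)))) (.N (.N (.N (.N (.N (.N .L .L) .L) .L) .L) .L) .L)) (.N (.N (.N (.N (.N (.N .L .L) (.N .L .L)) (.N .L .L)) (.N (.N (.N .L .L) .L) .L)) (.N (.N (.N .L .L) (.N .L .L)) .L)) .L)), by decide +kernel⟩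

theorem checkedUpper_sfsfss : Checked leafUpper rootUpper.snd.fst.snd.fst.snd.snd :=
  ⟨(.N (.N (.N (.N (.N (.N (.N .L .L) .L) (.N (.N .L .L) (.N .L .L))) (.N (.N .L .L) (.N (.N .L .L) (.N .L .L)))) (.N (.N (.N (.N .L .L) (.N .L .L)) (.N (.N (.N .L .L) (.N .L .L)) (.N .L (.N .L .L)))) (.N (.N (.N .L .L) (.N .L .L)) (.N (.N .L .L) (.N .L .L))))) (.N (.N (.N (.N .L .L) (.N (.N .L .L) .L)) (.N (.N .L .L) (.N .L .L))) (.N (.N (.N (.N .L .L) (.N .L .L)) (.N (.N .L .L) (.N .L .L))) (.N (.N (.N .L .L) .L) (.N (.N .L .L) .L))))) (.N (.N (.N (.N (.N (.N (.N .L .L) (.N (.N .L .L) .L)) (.N (.N .L .L) (.N .L .L))) (.N (.N (.N (.N .L .L) .L) (.N (.N .L .L) .L)) (.N (.N .L .L) (.N .L .L)))) (.N (.N (.N (.N .L .L) (.N .L .L)) (.N .L .L)) (.N (.N (.N .L .L) (.N .L .L)) (.N .L .L)))) (.N (.N (.N (.N (.N (.N .L .L) .L) .L) .L) .L) .L)) (.N (.N (.N (.N (.N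 .L .L) (.N .L .L)) (.N (.N .L .L) .L)) (.N (.N (.N .L .L) .L) .L)) .L))), by decide +kernel⟩

theorem checkedUpper_sfss : Checked leafUpper rootUpper.snd.fst.snd.snd :=
  ⟨(.N (.N (.N (.N (.N (.N .L .L) (.N (.N .L .L) (.N .L .L))) (.N (.N .L .L) (.N .L .L))) (.N (.N (.N (.N .L .L) (.N .L .L)) (.N (.N .L .L) (.N .L .L))) (.N (.N (.N .L .L) (.N .L .L)) (.N (.N .L .L) (.N .L .L))))) (.N (.N (.N (.N .L .L) (.N .L .L)) (.N .L (.N .L .L))) (.N (.N (.N (.N .L .L) .L) (.N (.N .L .L) (.N .L .L))) (.N (.N .L .L) (.N .L .L))))) (.N (.N (.N (.N (.N (.N (.N .L .L) (.N .L .L)) (.N .L .L)) (.N (.N (.N .L .L) (.N .L .L)) (.N (.N .L .L) (.N .L .L)))) (.N (.N (.N .L .L) (.N .L .L)) (.N (.N .L .L) (.N .L .L)))) (.N (.N (.N (.N (.N .L .L) .L) .L) .L) .L)) (.N (.N (.N (.N (.N .L .L) (.N .L .L)) (.N (.N .L .L) .L)) (.N (.N .L .L) .L)) .L))), by decide +kernel⟩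

theorem checkedUpper_ss : Checked leafUpper rootUpper.snd.snd :=
  ⟨(.N (.N (.N (.N (.N .L (.N .L .L)) (.N .L (.N .L .L))) (.N (.N (.N (.N .L .L) (.N .L .L)) (.N (.N .L .L) (.N .L .L))) (.N (.N (.N .L .L) .L) (.N (.N .L .L) .L)))) .L) (.N (.N (.N (.N (.N (.N .L .L) (.N .L .L)) (.N (.N (.N .L .L) (.N .L .L)) (.N .L .L))) (.N (.N (.N .L .L) .L) (.N (.N .L .L) .L))) (.N (.N (.N (.N (.N .L .L) .L) .L) .L) .L)) .L)), by decide +kernel⟩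

end Vale.P154.AF
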