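import Mathlib

/-!
# The logarithmic potential of the three-state antiferromagnet

For likelihood ratios `1 + z` with `z₁ + z₂ + z₃ = 0` the potential is
`GG = 12 ∑ zᵢ lᵢ + ∑ (1 + zᵢ) (κ Dᵢ⁴ - Dᵢ²)`, `lᵢ = log (1 + zᵢ)`, `D₁ = l₂ - l₃` (cyclically).
-/

noncomputable section

namespace Vale.P154.AF

/-- The weight of the quartic moment. -/
def kap : ℝ := 213 / 10000

/-- The bound for `|lam|`. -/
def mu0 : ℝ := 3163 / 10000

/-- `κ D⁴ - D²`. -/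
def ps (D : ℝ) : ℝ := kap * D ^ 4 - D ^ 2

/-- The potential as a function of the ratios and their logarithms. -/
def gf (z1 z2 z3 l1 l2 l3 : ℝ) : ℝ :=
  12 * (z1 * l1 + z2 * l2 + z3 * l3) + (1 + z1) * ps (l2 - l3) + (1 + z2) * ps (l3 - l1)
    + (1 + z3) * ps (l1 - l2)

/-- The second moment of the log ratios. -/
def qf (z1 z2 z3 l1 l2 l3 : ℝ) : ℝ :=
  (1 + z1) * (l2 - l3) ^ 2 + (1 + z2) * (l3 - l1) ^ 2 + (1 + z3) * (l1 - l2) ^ 2

/-- The potential. -/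
def GG (z1 z2 z3 : ℝ) : ℝ :=
  gf z1 z2 z3 (Real.log (1 + z1)) (Real.log (1 + z2)) (Real.log (1 + z3))

/-- The exactly additive second moment. -/
def QQ (z1 z2 z3 : ℝ) : ℝ :=
  qf z1 z2 z3 (Real.log (1 + z1)) (Real.log (1 + z2)) (Real.log (1 + z3))

/-- The sum of squares. -/
def SS (z1 z2 z3 : ℝ) : ℝ := z1 ^ 2 + z2 ^ 2 + z3 ^ 2

/-- The bound for the second moment after one edge, divided by `lam ^ 2`. -/
def ff (S E m : ℝ) : ℝ := 3 * S + 18 * m * E + 57 / 25 * m ^ 2 * S ^ 2 + 14 * m ^ 3 * S * E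

/-- The two lower bounds required of the potential. -/
def LowerOK (z1 z2 z3 g : ℝ) : Prop :=
  0 ≤ g - 9 * SS z1 z2 z3 - (9 * kap + 1 / 1000) * SS z1 z2 z3 ^ 2 ∧
  0 ≤ g - 9 * SS z1 z2 z3 - (11 / 20 * mu0 ^ 2 + 1 / 1000) * SS z1 z2 z3 ^ 2
    - kap * ff (SS z1 z2 z3) (z1 * z2 * z3) mu0 ^ 2

/-- The two upper bounds required after one edge. -/
def UpperOK (z1 z2 z3 g w : ℝ) : Prop :=
  0 ≤ 11 / 20 * SS z1 z2 z3 ^ 2 - (g - 9 * SS z1 z2 z3) ∧
  0 ≤ 3 * SS z1 z2 z3 - 18 * (z1 * z2 * z3) + 57 / 25 * SS z1 z2 z3 ^ 2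
    - 14 * (SS z1 z2 z3 * (z1 * z2 * z3)) - w

theorem GG_swap (a b c : ℝ) : GG b a c = GG a b c := by unfold GG gf ps; ring

theorem GG_rot (a b c : ℝ) : GG b c a = GG a b c := by unfold GG gf ps; ring

theorem QQ_swap (a b c : ℝ) : QQ b a c = QQ a b c := by unfold QQ qf; ring

theorem QQ_rot (a b c : ℝ) : QQ b c a = QQ a b c := by unfold QQ qf; ring

theorem of_ordered {p : ℝ → ℝ → ℝ → Prop} (hs : ∀ a b c, p a b c → p b a c)
    (hr : ∀ a b c, p a b c → p b c a) (dom : ℝ → Prop)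
    (h : ∀ a b c, dom a → dom b → dom c → a + b + c = 0 → b ≤ a → c ≤ b → p a b c)
    (a b c : ℝ) (ha : dom a) (hb : dom b) (hc : dom c) (h0 : a + b + c = 0) : p a b c := by
  rcases le_total b a with h1 | h1
  · rcases le_total c b with h2 | h2
    · exact h a b c ha hb hc h0 h1 h2
    · rcases le_total c a with h3 | h3
      · exact hr _ _ _ (hs _ _ _ (h a c b ha hc hb (by linarith) h3 h2))
      · exact hr _ _ _ (h c a b hc ha hb (by linarith) h3 h1)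
  · rcases le_total c a with h2 | h2
    · exact hs _ _ _ (h b a c hb ha hc (by linarith) h1 h2)
    · rcases le_total c b with h3 | h3
      · exact hr _ _ _ (hr _ _ _ (h b c a hb hc ha (by linarith) h3 h2))
      · exact hs _ _ _ (hr _ _ _ (h c b a hc hb ha (by linarith) h3 h1))

/-! ### Raising the smallest logarithms -/

theorem ps_slope {D D' : ℝ} (h0 : 0 ≤ D') (h : D' ≤ D) : ps D' - ps D ≤ 15 / 4 * (D - D') := by
  have e : ps D' - ps D = (D - D') * ((D + D') * (1 - kap * (D ^ 2 + D' ^ 2))) := by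
    unfold ps; ring
  rw [e, mul_comm (15 / 4 : ℝ)]
  refine mul_le_mul_of_nonneg_left ?_ (by linarith)
  have hs : (D + D') ^ 2 / 2 ≤ D ^ 2 + D' ^ 2 := by nlinarith [sq_nonneg (D - D')]
  have h1 : (D + D') * (1 - kap * (D ^ 2 + D' ^ 2)) ≤
      (D + D') * (1 - kap * ((D + D') ^ 2 / 2)) := by
    refine mul_le_mul_of_nonneg_left ?_ (by linarith)
    unfold kap; linarith
  refine h1.trans ?_
  unfold kap
  nlinarith [mul_nonneg (add_nonneg h0 (h0.trans h)) (sq_nonneg (D + D' - 28 / 5)),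
    sq_nonneg (D + D' - 28 / 5)]

theorem ps_neg (D : ℝ) : ps (-D) = ps D := by unfold ps; ring

/-- Raising the smallest logarithm lowers the potential. -/
theorem gf_raise_one {z1 z2 z3 l1 l2 l3 L : ℝ} (hsum : z1 + z2 + z3 = 0) (h1 : -1 ≤ z1)
    (h2 : -1 ≤ z2) (h3' : z3 ≤ -15 / 16) (hL : l3 ≤ L) (hL1 : L ≤ l1) (hL2 : L ≤ l2) :
    gf z1 z2 z3 l1 l2 L ≤ gf z1 z2 z3 l1 l2 l3 := by
  have a1 := ps_slope (D := l2 - l3) (D' := l2 - L) (by linarith) (by linarith)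
  have a2 := ps_slope (D := l1 - l3) (D' := l1 - L) (by linarith) (by linarith)
  have e1 : ps (L - l1) = ps (l1 - L) := by rw [← ps_neg, neg_sub]
  have e2 : ps (l3 - l1) = ps (l1 - l3) := by rw [← ps_neg, neg_sub]
  have b1 := mul_le_mul_of_nonneg_left a1 (by linarith : (0 : ℝ) ≤ 1 + z1)
  have b2 := mul_le_mul_of_nonneg_left a2 (by linarith : (0 : ℝ) ≤ 1 + z2)
  unfold gf
  rw [e1, e2]
  nlinarith [mul_nonneg (sub_nonneg.2 hL) (by linarith : (0 : ℝ) ≤ -(12 * z3 + 15 / 4 * (2 - z3)))]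

/-- Raising the two smallest logarithms lowers the potential. -/
theorem gf_raise_two {z1 z2 z3 l1 l2 l3 L : ℝ} (hsum : z1 + z2 + z3 = 0) (h1 : -1 ≤ z1)
    (h2 : -1 ≤ z2) (h3 : -1 ≤ z3) (h2' : z2 ≤ -15 / 16) (h3' : z3 ≤ -15 / 16) (h32 : l3 ≤ l2)
    (hL : l2 ≤ L) (hL1 : L ≤ l1) :
    gf z1 z2 z3 l1 L L ≤ gf z1 z2 z3 l1 l2 l3 := by
  refine le_trans ?_ (gf_raise_one hsum h1 h2 h3' h32 (hL.trans hL1) le_rfl)
  have a := ps_slope (D := l1 - l2) (D' := l1 - L) (by linarith) (by linarith)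
  have e1 : ps (L - l1) = ps (l1 - L) := by rw [← ps_neg, neg_sub]
  have e2 : ps (l2 - l1) = ps (l1 - l2) := by rw [← ps_neg, neg_sub]
  have b := mul_le_mul_of_nonneg_left a (by linarith : (0 : ℝ) ≤ (1 + z2) + (1 + z3))
  unfold gf
  rw [e1, e2, sub_self, sub_self]
  nlinarith [mul_nonneg (sub_nonneg.2 hL)
    (by linarith : (0 : ℝ) ≤ -(12 * (z2 + z3) + 15 / 4 * (2 + z2 + z3)))]

/-! ### The neighbourhood of the uniform vector -/

/-- `log` of a ratio through the inverse hyperbolic tangent. -/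
theorem log_sub_log {z2 z3 δ : ℝ} (hδ : δ ≤ 1 / 32) (h2 : |z2| ≤ δ) (h3 : |z3| ≤ δ) :
    ∃ s B : ℝ, z2 - z3 = (2 + z2 + z3) * s ∧ s ^ 2 ≤ 1 / 900 ∧ 1 / 3 ≤ B ∧ B ≤ 1 / 3 + 9 / 8 * s ^ 2 ∧
      Real.log (1 + z2) - Real.log (1 + z3) = 2 * (s + B * s ^ 3) := by
  have a2 := abs_le.1 (h2.trans hδ)
  have a3 := abs_le.1 (h3.trans hδ)
  have hp : 0 < 2 + z2 + z3 := by linarith
  set s := (z2 - z3) / (2 + z2 + z3) with hs
  have hd : z2 - z3 = (2 + z2 + z3) * s := by rw [hs]; field_simp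
  have hsm : s ^ 2 ≤ 1 / 900 := by
    have : |s| ≤ 1 / 30 := by
      rw [hs, abs_div, abs_of_pos hp, div_le_iff₀ hp, abs_le]
      constructor <;> linarith
    have := pow_le_pow_left₀ (abs_nonneg s) this 2
    rw [sq_abs] at this
    norm_num at this ⊢
    linarith
  have hlog : Real.log (1 + z2) - Real.log (1 + z3) = Real.log ((1 + s) / (1 - s)) := by
    rw [← Real.log_div (by linarith) (by linarith)]
    congr 1
    rw [hs, one_add_div hp.ne', one_sub_div hp.ne', div_div_div_cancel_right₀ hp.ne']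
    rw [div_eq_div_iff (by linarith) (by linarith)]
    ring
  have bd : ∀ x : ℝ, 0 ≤ x → x ^ 2 ≤ 1 / 900 →
      x + x ^ 3 / 3 ≤ 1 / 2 * Real.log ((1 + x) / (1 - x)) ∧
      1 / 2 * Real.log ((1 + x) / (1 - x)) ≤ x + x ^ 3 * (1 / 3 + 9 / 8 * x ^ 2) := by
    intro x hx hx2
    have hx1 : x < 1 := by nlinarith
    have u1 := Real.sum_range_le_log_div hx hx1 2
    have u2 := Real.log_div_le_sum_range_add hx hx1 2
    norm_num [Finset.sum_range_succ] at u1 u2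
    refine ⟨by linarith, u2.trans ?_⟩
    have : x ^ 5 / (1 - x ^ 2) ≤ x ^ 3 * (9 / 8 * x ^ 2) := by
      rw [div_le_iff₀ (by linarith)]
      nlinarith [pow_nonneg hx 5]
    linarith
  have hodd : Real.log ((1 + -s) / (1 - -s)) = -Real.log ((1 + s) / (1 - s)) := by
    rw [← Real.log_inv, inv_div]
    ring_nf
  refine ⟨s, if s = 0 then 1 / 3 else (1 / 2 * Real.log ((1 + s) / (1 - s)) - s) / s ^ 3,
    hd, hsm, ?_, ?_, ?_⟩
  · split_ifs with h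
    · exact le_rfl
    rcases lt_or_gt_of_ne h with hn | hn
    · have := bd (-s) (by linarith) (by rwa [neg_sq])
      rw [hodd] at this
      rw [le_div_iff_of_neg (Odd.pow_neg (by decide) hn)]
      linarith [this.1, show (-s) ^ 3 = -(s ^ 3) by ring]
    · have := bd s hn.le hsm
      rw [le_div_iff₀ (pow_pos hn 3)]
      linarith [this.1]
  · split_ifs with h
    · simp [h]
    rcases lt_or_gt_of_ne h with hn | hn
    · have := bd (-s) (by linarith) (by rwa [neg_sq])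
      rw [hodd] at this
      rw [div_le_iff_of_neg (Odd.pow_neg (by decide) hn)]
      have := this.2
      rw [show (-s) ^ 3 = -(s ^ 3) by ring, show (-s) ^ 2 = s ^ 2 by ring] at this
      linarith
    · have := bd s hn.le hsm
      rw [div_le_iff₀ (pow_pos hn 3)]
      linarith [this.2]
  · rw [hlog]
    split_ifs with h
    · simp [h]
    · have : s ^ 3 ≠ 0 := pow_ne_zero 3 h
      field_simp
      ring

/-- One term of `GG - 9 S`. -/
def term (z s B : ℝ) : ℝ :=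
  -3 * z ^ 2 * s ^ 2 + 8 * (1 - 2 * z) * B * s ^ 4 - 4 * (1 + z) * B ^ 2 * s ^ 6
    + 16 * kap * (1 + z) * (1 + s ^ 2 * B) ^ 4 * s ^ 4

theorem term_eq {z d D s B : ℝ} (hd : d = (2 - z) * s) (hD : D = 2 * (s + B * s ^ 3)) :
    4 * d * D - 3 * d ^ 2 + (1 + z) * ps D = term z s B := by
  subst hd hD; unfold term ps; ring

theorem gf_eq_terms {z1 z2 z3 : ℝ} (h : z1 + z2 + z3 = 0) (l1 l2 l3 : ℝ) :
    gf z1 z2 z3 l1 l2 l3 - 9 * SS z1 z2 z3 =
      (4 * (z2 - z3) * (l2 - l3) - 3 * (z2 - z3) ^ 2 + (1 + z1) * ps (l2 - l3))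
      + (4 * (z3 - z1) * (l3 - l1) - 3 * (z3 - z1) ^ 2 + (1 + z2) * ps (l3 - l1))
      + (4 * (z1 - z2) * (l1 - l2) - 3 * (z1 - z2) ^ 2 + (1 + z3) * ps (l1 - l2)) := by
  obtain rfl : z3 = -z1 - z2 := by linarith
  unfold gf SS; ring

theorem term_lower {z d s B : ℝ} (hz : |z| ≤ 1 / 32) (hd : d = (2 - z) * s) (hs : s ^ 2 ≤ 1 / 900)
    (hB : 1 / 3 ≤ B) (hB' : B ≤ 1 / 3 + 9 / 8 * s ^ 2) :
    -(31 / 40) * (z ^ 2 * d ^ 2) + 165 / 1000 * d ^ 4 ≤ term z s B := by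
  obtain ⟨z0, z1⟩ := abs_le.1 hz
  have k2 : 4 * (1 + z) * B ^ 2 * s ^ 6 ≤ 1 / 1000 * s ^ 4 := by
    have : 4 * (1 + z) * B ^ 2 * s ^ 2 ≤ 1 / 1000 := by
      calc 4 * (1 + z) * B ^ 2 * s ^ 2 ≤ 4 * (33 / 32) * (336 / 1000) ^ 2 * (1 / 900) :=
            mul_le_mul (mul_le_mul (by linarith) (pow_le_pow_left₀ (by linarith) (by linarith) 2)
              (by positivity) (by norm_num)) hs (sq_nonneg s) (by norm_num)
        _ ≤ _ := by norm_num
    nlinarith [mul_le_mul_of_nonneg_right this (by positivity : (0 : ℝ) ≤ s ^ 4)]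
  have k3 : (5 / 2 : ℝ) ≤ 8 * (1 - 2 * z) * B := by nlinarith
  have k4 : 33 / 100 ≤ 16 * kap * (1 + z) * (1 + s ^ 2 * B) ^ 4 := by
    have : (1 : ℝ) ≤ (1 + s ^ 2 * B) ^ 4 :=
      one_le_pow₀ (by nlinarith [mul_nonneg (sq_nonneg s) (by linarith : (0 : ℝ) ≤ B)])
    have h1 : 33 / 100 ≤ 16 * kap * (1 + z) := by unfold kap; linarith
    calc (33 / 100 : ℝ) ≤ 16 * kap * (1 + z) * 1 := by linarith
      _ ≤ _ := mul_le_mul_of_nonneg_left this (by linarith)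
  have hlow : -3 * z ^ 2 * s ^ 2 + 2829 / 1000 * s ^ 4 ≤ term z s B := by
    unfold term
    nlinarith [mul_le_mul_of_nonneg_right k3 (by positivity : (0 : ℝ) ≤ s ^ 4),
      mul_le_mul_of_nonneg_right k4 (by positivity : (0 : ℝ) ≤ s ^ 4)]
  refine le_trans ?_ hlow
  subst hd
  have q1 : (2 - z) ^ 4 ≤ (65 / 32) ^ 4 := pow_le_pow_left₀ (by linarith) (by linarith) 4
  have q2 : (63 / 32) ^ 2 ≤ (2 - z) ^ 2 := pow_le_pow_left₀ (by norm_num) (by linarith) 2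
  have q3 := mul_le_mul_of_nonneg_right q1 (by positivity : (0 : ℝ) ≤ s ^ 4)
  have q4 := mul_le_mul_of_nonneg_right q2 (by positivity : (0 : ℝ) ≤ z ^ 2 * s ^ 2)
  have q5 : 0 ≤ z ^ 2 * s ^ 2 := by positivity
  have q6 : 0 ≤ s ^ 4 := by positivity
  rw [show ((2 - z) * s) ^ 4 = (2 - z) ^ 4 * s ^ 4 by ring,
    show z ^ 2 * ((2 - z) * s) ^ 2 = (2 - z) ^ 2 * (z ^ 2 * s ^ 2) by ring]
  norm_num at q3 q4
  linarith

theorem term_upper {z d s B : ℝ} (hz : |z| ≤ 1 / 64) (hd : d = (2 - z) * s) (hs : s ^ 2 ≤ 1 / 3600)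
    (hB : 1 / 3 ≤ B) (hB' : B ≤ 1 / 3 + 9 / 8 * s ^ 2) :
    term z s B ≤ -(738 / 1000) * (z ^ 2 * d ^ 2) + 201 / 1000 * d ^ 4 := by
  obtain ⟨z0, z1⟩ := abs_le.1 hz
  have k1 : 0 ≤ 4 * (1 + z) * B ^ 2 * s ^ 6 := mul_nonneg
    (mul_nonneg (by linarith) (sq_nonneg B)) (by positivity)
  have k3 : 8 * (1 - 2 * z) * B ≤ 2756 / 1000 := by nlinarith
  have k4 : 16 * kap * (1 + z) * (1 + s ^ 2 * B) ^ 4 ≤ 347 / 1000 := by
    have h1 : 1 + s ^ 2 * B ≤ 1 + 1 / 3600 * (334 / 1000) := by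
      have := mul_le_mul hs (by linarith : B ≤ 334 / 1000) (by linarith) (by norm_num)
      linarith
    calc 16 * kap * (1 + z) * (1 + s ^ 2 * B) ^ 4
        ≤ 16 * kap * (65 / 64) * (1 + 1 / 3600 * (334 / 1000)) ^ 4 :=
          mul_le_mul (by unfold kap; linarith) (pow_le_pow_left₀
            (add_nonneg zero_le_one (mul_nonneg (sq_nonneg s) (by linarith))) h1 4)
            (pow_nonneg (add_nonneg zero_le_one (mul_nonneg (sq_nonneg s) (by linarith))) 4)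
            (by unfold kap; norm_num)
      _ ≤ _ := by unfold kap; norm_num
  have hup : term z s B ≤ -3 * z ^ 2 * s ^ 2 + 3103 / 1000 * s ^ 4 := by
    unfold term
    nlinarith [mul_le_mul_of_nonneg_right k3 (by positivity : (0 : ℝ) ≤ s ^ 4),
      mul_le_mul_of_nonneg_right k4 (by positivity : (0 : ℝ) ≤ s ^ 4)]
  refine hup.trans ?_
  subst hd
  have q1 : (127 / 64) ^ 4 ≤ (2 - z) ^ 4 := pow_le_pow_left₀ (by norm_num) (by linarith) 4
  have q2 : (2 - z) ^ 2 ≤ (129 / 64) ^ 2 := pow_le_pow_left₀ (by linarith) (by linarith) 2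
  have q3 := mul_le_mul_of_nonneg_right q1 (by positivity : (0 : ℝ) ≤ s ^ 4)
  have q4 := mul_le_mul_of_nonneg_right q2 (by positivity : (0 : ℝ) ≤ z ^ 2 * s ^ 2)
  have q5 : 0 ≤ z ^ 2 * s ^ 2 := by positivity
  have q6 : 0 ≤ s ^ 4 := by positivity
  rw [show ((2 - z) * s) ^ 4 = (2 - z) ^ 4 * s ^ 4 by ring,
    show z ^ 2 * ((2 - z) * s) ^ 2 = (2 - z) ^ 2 * (z ^ 2 * s ^ 2) by ring]
  norm_num at q3 q4
  linarith

theorem qterm_upper {z d s B : ℝ} (hz : |z| ≤ 1 / 64) (hd : d = (2 - z) * s) (hs : s ^ 2 ≤ 1 / 3600)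
    (hB : 1 / 3 ≤ B) (hB' : B ≤ 1 / 3 + 9 / 8 * s ^ 2) :
    (1 + z) * (2 * (s + B * s ^ 3)) ^ 2 ≤
      d ^ 2 + 2 * (z * d ^ 2) + 19 / 10 * (z ^ 2 * d ^ 2) + 19 / 100 * d ^ 4 := by
  obtain ⟨z0, z1⟩ := abs_le.1 hz
  subst hd
  set A := (2 - z) ^ 2 * (1 + 2 * z + 19 / 10 * z ^ 2)
  have k1 : 4 * (1 + z) ≤ A := by
    have e : A - 4 * (1 + z) = z ^ 2 * ((4 * (19 / 10) - 7) + (2 - 4 * (19 / 10)) * z
        + 19 / 10 * z ^ 2) := by simp only [A]; ring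
    have : 0 ≤ A - 4 * (1 + z) := by
      rw [e]; exact mul_nonneg (sq_nonneg z) (by nlinarith)
    linarith
  have k2 : 4 * (1 + z) * (2 * B + B ^ 2 * s ^ 2) ≤ 19 / 100 * (2 - z) ^ 4 := by
    have h1 : 2 * B + B ^ 2 * s ^ 2 ≤ 669 / 1000 := by
      have := mul_le_mul (pow_le_pow_left₀ (by linarith) (by linarith : B ≤ 334 / 1000) 2) hs
        (sq_nonneg s) (by norm_num)
      linarith
    have h2 : (127 / 64) ^ 4 ≤ (2 - z) ^ 4 := pow_le_pow_left₀ (by norm_num) (by linarith) 4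
    have h3 : 4 * (1 + z) * (2 * B + B ^ 2 * s ^ 2) ≤ 4 * (65 / 64) * (669 / 1000) :=
      mul_le_mul (by linarith) h1 (by positivity) (by norm_num)
    norm_num at h2 h3 ⊢
    linarith
  calc (1 + z) * (2 * (s + B * s ^ 3)) ^ 2
      = 4 * (1 + z) * s ^ 2 + 4 * (1 + z) * (2 * B + B ^ 2 * s ^ 2) * s ^ 4 := by ring
    _ ≤ A * s ^ 2 + 19 / 100 * (2 - z) ^ 4 * s ^ 4 :=
        add_le_add (mul_le_mul_of_nonneg_right k1 (sq_nonneg s))
          (mul_le_mul_of_nonneg_right k2 (by positivity))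
    _ = _ := by simp only [A]; ring

theorem abs_prod_le {z1 z2 z3 δ : ℝ} (h : |z1| ≤ δ) :
    |z1 * z2 * z3| ≤ δ / 2 * SS z1 z2 z3 := by
  have h2 : |z2 * z3| ≤ SS z1 z2 z3 / 2 := by
    unfold SS; rw [abs_le]
    constructor <;> nlinarith [sq_nonneg (z2 + z3), sq_nonneg (z2 - z3), sq_nonneg z1]
  rw [mul_assoc, abs_mul]
  refine (mul_le_mul h h2 (abs_nonneg _) ((abs_nonneg _).trans h)).trans (le_of_eq ?_)
  ring

/-- The lower bounds near the uniform vector. -/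
theorem lower_origin {z1 z2 z3 : ℝ} (hsum : z1 + z2 + z3 = 0) (h1 : |z1| ≤ 1 / 32)
    (h2 : |z2| ≤ 1 / 32) (h3 : |z3| ≤ 1 / 32) : LowerOK z1 z2 z3 (GG z1 z2 z3) := by
  obtain ⟨s1, B1, d1, q1, b1, c1, e1⟩ := log_sub_log le_rfl h2 h3
  obtain ⟨s2, B2, d2, q2, b2, c2, e2⟩ := log_sub_log le_rfl h3 h1
  obtain ⟨s3, B3, d3, q3, b3, c3, e3⟩ := log_sub_log le_rfl h1 h2
  rw [show 2 + z2 + z3 = 2 - z1 by linarith] at d1
  rw [show 2 + z3 + z1 = 2 - z2 by linarith] at d2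
  rw [show 2 + z1 + z2 = 2 - z3 by linarith] at d3
  have hG := gf_eq_terms hsum (Real.log (1 + z1)) (Real.log (1 + z2)) (Real.log (1 + z3))
  rw [term_eq d1 e1, term_eq d2 e2, term_eq d3 e3] at hG
  have t1 := term_lower h1 d1 q1 b1 c1
  have t2 := term_lower h2 d2 q2 b2 c2
  have t3 := term_lower h3 d3 q3 b3 c3
  set S := SS z1 z2 z3 with hS
  have hE := abs_prod_le (z2 := z2) (z3 := z3) h1
  rw [← hS] at hE
  have i1 : z1 ^ 2 * (z2 - z3) ^ 2 + z2 ^ 2 * (z3 - z1) ^ 2 + z3 ^ 2 * (z1 - z2) ^ 2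
      = S ^ 2 / 2 := by
    obtain rfl : z3 = -z1 - z2 := by linarith
    rw [hS]; unfold SS; ring
  have i2 : (z2 - z3) ^ 4 + (z3 - z1) ^ 4 + (z1 - z2) ^ 4 = 9 / 2 * S ^ 2 := by
    obtain rfl : z3 = -z1 - z2 := by linarith
    rw [hS]; unfold SS; ring
  have hlow : 355 / 1000 * S ^ 2 ≤ GG z1 z2 z3 - 9 * S := by
    unfold GG; rw [hS, hG, ← hS]
    linarith [t1, t2, t3, i1, i2]
  have hS0 : 0 ≤ S := by rw [hS]; unfold SS; positivity
  have hS1 : S ≤ 3 / 1024 := by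
    have p : ∀ {x : ℝ}, |x| ≤ 1 / 32 → x ^ 2 ≤ 1 / 1024 := fun hx => by
      have := pow_le_pow_left₀ (abs_nonneg _) hx 2
      rw [sq_abs] at this; norm_num at this; linarith
    rw [hS]; unfold SS; linarith [p h1, p h2, p h3]
  constructor
  · unfold kap; nlinarith
  · have hE' := abs_le.1 hE
    have hf : |ff S (z1 * z2 * z3) mu0| ≤ 31 / 10 * S := by
      have u1 : S ^ 2 ≤ 3 / 1024 * S := by rw [sq]; exact mul_le_mul_of_nonneg_right hS1 hS0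
      have u2 : |S * (z1 * z2 * z3)| ≤ 3 / 1024 * (1 / 32 / 2 * S) := by
        rw [abs_mul, abs_of_nonneg hS0]
        exact mul_le_mul hS1 hE (abs_nonneg _) (by norm_num)
      have u2' := abs_le.1 u2
      have u0 : (0 : ℝ) ≤ S ^ 2 := sq_nonneg S
      simp only [ff, mu0]
      rw [abs_le]
      constructor <;> linarith [u1, u2'.1, u2'.2, hE'.1, hE'.2, hS0]
    have hsq := pow_le_pow_left₀ (abs_nonneg _) hf 2
    rw [sq_abs] at hsq
    have u0 : (0 : ℝ) ≤ S ^ 2 := sq_nonneg S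
    rw [mul_pow] at hsq
    simp only [kap, mu0] at hlow hsq ⊢
    linarith

/-- The upper bounds near the uniform vector. -/
theorem upper_origin {z1 z2 z3 : ℝ} (hsum : z1 + z2 + z3 = 0) (h1 : |z1| ≤ 1 / 64)
    (h2 : |z2| ≤ 1 / 64) (h3 : |z3| ≤ 1 / 64) :
    UpperOK z1 z2 z3 (GG z1 z2 z3) (QQ z1 z2 z3) := by
  have h64 : (1 : ℝ) / 64 ≤ 1 / 32 := by norm_num
  obtain ⟨s1, B1, d1, -, b1, c1, e1⟩ := log_sub_log h64 h2 h3
  obtain ⟨s2, B2, d2, -, b2, c2, e2⟩ := log_sub_log h64 h3 h1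
  obtain ⟨s3, B3, d3, -, b3, c3, e3⟩ := log_sub_log h64 h1 h2
  rw [show 2 + z2 + z3 = 2 - z1 by linarith] at d1
  rw [show 2 + z3 + z1 = 2 - z2 by linarith] at d2
  rw [show 2 + z1 + z2 = 2 - z3 by linarith] at d3
  have a1 := abs_le.1 h1
  have a2 := abs_le.1 h2
  have a3 := abs_le.1 h3
  have sm : ∀ {d z s : ℝ}, d = (2 - z) * s → |d| ≤ 1 / 32 → z ≤ 1 / 64 → s ^ 2 ≤ 1 / 3600 := by
    intro d z s hd hd' hz
    have : (127 / 64) * |s| ≤ 1 / 32 := by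
      rw [hd, abs_mul, abs_of_pos (by linarith : (0 : ℝ) < 2 - z)] at hd'
      exact le_trans (mul_le_mul_of_nonneg_right (by linarith) (abs_nonneg s)) hd'
    have h := pow_le_pow_left₀ (abs_nonneg s) (show |s| ≤ 1 / 60 by linarith) 2
    rw [sq_abs] at h; norm_num at h; linarith
  have q1 := sm d1 (abs_le.2 ⟨by linarith, by linarith⟩) a1.2
  have q2 := sm d2 (abs_le.2 ⟨by linarith, by linarith⟩) a2.2
  have q3 := sm d3 (abs_le.2 ⟨by linarith, by linarith⟩) a3.2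
  have hG := gf_eq_terms hsum (Real.log (1 + z1)) (Real.log (1 + z2)) (Real.log (1 + z3))
  rw [term_eq d1 e1, term_eq d2 e2, term_eq d3 e3] at hG
  set S := SS z1 z2 z3 with hS
  have i1 : z1 ^ 2 * (z2 - z3) ^ 2 + z2 ^ 2 * (z3 - z1) ^ 2 + z3 ^ 2 * (z1 - z2) ^ 2
      = S ^ 2 / 2 := by
    obtain rfl : z3 = -z1 - z2 := by linarith
    rw [hS]; unfold SS; ring
  have i2 : (z2 - z3) ^ 4 + (z3 - z1) ^ 4 + (z1 - z2) ^ 4 = 9 / 2 * S ^ 2 := by
    obtain rfl : z3 = -z1 - z2 := by linarith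
    rw [hS]; unfold SS; ring
  have i3 : (z2 - z3) ^ 2 + (z3 - z1) ^ 2 + (z1 - z2) ^ 2 = 3 * S := by
    obtain rfl : z3 = -z1 - z2 := by linarith
    rw [hS]; unfold SS; ring
  have i4 : z1 * (z2 - z3) ^ 2 + z2 * (z3 - z1) ^ 2 + z3 * (z1 - z2) ^ 2
      = -9 * (z1 * z2 * z3) := by
    obtain rfl : z3 = -z1 - z2 := by linarith
    ring
  have hS0 : 0 ≤ S := by rw [hS]; unfold SS; positivity
  constructor
  · have t1 := term_upper h1 d1 q1 b1 c1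
    have t2 := term_upper h2 d2 q2 b2 c2
    have t3 := term_upper h3 d3 q3 b3 c3
    have : GG z1 z2 z3 - 9 * S ≤ 5355 / 10000 * S ^ 2 := by
      unfold GG; rw [hS, hG, ← hS]
      linarith [t1, t2, t3, i1, i2]
    linarith [this, sq_nonneg S]
  · have t1 := qterm_upper h1 d1 q1 b1 c1
    have t2 := qterm_upper h2 d2 q2 b2 c2
    have t3 := qterm_upper h3 d3 q3 b3 c3
    have hE := abs_le.1 (abs_prod_le (z2 := z2) (z3 := z3) h1)
    rw [← hS] at hE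
    have hQ : QQ z1 z2 z3 ≤ 3 * S - 18 * (z1 * z2 * z3) + 1805 / 1000 * S ^ 2 := by
      unfold QQ qf; rw [e1, e2, e3]
      linarith [t1, t2, t3, i1, i2, i3, i4]
    have u := mul_le_mul_of_nonneg_left hE.2 hS0
    linarith [hQ, u, sq_nonneg S]

end Vale.P154.AF
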