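import Vale.Agent.P154.AFTM
import Vale.Agent.P154.AFDef

/-!
# Subdivision checker for the bounds on the potential
-/



namespace Vale.P154.AF

open TM

/-- A rectangle in the coordinates `(z₁, z₃)`, in units of `2^-48`. -/
structure Box where
  X0 : ℤ
  X1 : ℤ
  Y0 : ℤ
  Y1 : ℤ

/-- Membership. -/
def Box.Mem (B : Box) (z1 z3 : ℝ) : Prop :=
  (B.X0 : ℝ) ≤ (P : ℝ) * z1 ∧ (P : ℝ) * z1 ≤ B.X1 ∧ (B.Y0 : ℝ) ≤ (P : ℝ) * z3 ∧
    (P : ℝ) * z3 ≤ B.Y1

/-- Models of the three coordinates and of three logarithms. -/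
structure Pt where
  z1 : TM
  z2 : TM
  z3 : TM
  l1 : TM
  l2 : TM
  l3 : TM

/-- `1 + t`. -/
def onePlus (t : TM) : TM := add (int 1) t

/-- Squaring. -/
def sq' (t : TM) : TM := mul t t

/-- A model of `SS`. -/
def sT (p : Pt) : TM := add (add (sq' p.z1) (sq' p.z2)) (sq' p.z3)

/-- A model of the product. -/
def eT (p : Pt) : TM := mul (mul p.z1 p.z2) p.z3

/-- A model of one `(1 + z) * D ^ 2` with its quartic part. -/
def momT (z l l' : TM) : TM × TM :=
  let D2 := sq' (sub l l')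
  let vd := mul (onePlus z) D2
  (vd, sub (smul 213 10000 (mul vd D2)) vd)

/-- Models of the second moment and of the potential minus `9 S`. -/
def qgT (p : Pt) (S : TM) : TM × TM :=
  let a := momT p.z1 p.l2 p.l3
  let b := momT p.z2 p.l3 p.l1
  let c := momT p.z3 p.l1 p.l2
  let J := smul 12 1 (add (add (mul p.z1 p.l1) (mul p.z2 p.l2)) (mul p.z3 p.l3))
  (add (add a.1 b.1) c.1, sub (add (add (add J a.2) b.2) c.2) (smul 9 1 S))

/-- Verifies the two lower bounds. -/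
def lowerTest (p : Pt) : Bool :=
  let S := sT p
  let G := (qgT p S).2
  let E := eT p
  let S2 := sq' S
  decide (0 ≤ (sub G (smul 1927 10000 S2)).lower) &&
    let f := add (add (add (smul 3 1 S) (smul 56934 10000 E))
      (smul (57 * 3163 ^ 2) (25 * 10000 ^ 2) S2))
      (smul (14 * 3163 ^ 3) (10000 ^ 3) (mul S E))
    decide (0 ≤ (sub (sub G (smul (11 * 3163 ^ 2 + 20 * 100000) (20 * 10000 ^ 2) S2))
      (smul 213 10000 (sq' f))).lower)

/-- Verifies the two upper bounds. -/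
def upperTest (p : Pt) : Bool :=
  let S := sT p
  let qg := qgT p S
  let E := eT p
  let S2 := sq' S
  decide (0 ≤ (sub (smul 11 20 S2) qg.2).lower) &&
    decide (0 ≤ (sub (sub (add (sub (smul 3 1 S) (smul 18 1 E)) (smul 57 25 S2))
      (smul 14 1 (mul S E))) qg.1).lower)

/-- The first coordinate. -/
def Box.z1 (B : Box) : TM := varX B.X0 B.X1

/-- The last coordinate. -/
def Box.z3 (B : Box) : TM := varY B.Y0 B.Y1

/-- The middle coordinate. -/
def Box.z2 (B : Box) : TM := neg (add B.z1 B.z3)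

/-- Apply a test with the logarithms of the coordinates. -/
def withLogs (B : Box) (test : Pt → Bool) : Bool :=
  match TM.log (onePlus B.z1), TM.log (onePlus B.z2), TM.log (onePlus B.z3) with
  | some a, some b, some c => test ⟨B.z1, B.z2, B.z3, a, b, c⟩
  | _, _, _ => false

/-- Apply the lower test with the smallest logarithm raised. -/
def withOne (B : Box) : Bool :=
  match TM.log (onePlus B.z1), TM.log (onePlus B.z2), logConst (P + B.Y1) P with
  | some a, some b, some c => lowerTest ⟨B.z1, B.z2, B.z3, a, b, c⟩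
  | _, _, _ => false

/-- Apply the lower test with the two smallest logarithms raised. -/
def withTwo (B : Box) : Bool :=
  match TM.log (onePlus B.z1), logConst (max (P - B.X0 - B.Y0) (P + B.Y1)) P with
  | some a, some c => lowerTest ⟨B.z1, B.z2, B.z3, a, c, c⟩
  | _, _ => false

/-- Outside the ordered sector, or inside the neighbourhood of radius `r` of the origin. -/
def skip (r : ℤ) (B : Box) : Bool :=
  decide (2 * B.X1 + B.Y1 < 0) || decide (0 < B.X0 + 2 * B.Y0) ||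
    (decide (-r ≤ B.X0) && decide (B.X1 ≤ r) && decide (-r ≤ B.Y0) && decide (B.Y1 ≤ r) &&
      decide (-r ≤ -B.X1 - B.Y1) && decide (-B.X0 - B.Y0 ≤ r))

/-- A leaf for the lower bounds. -/
def leafLower (B : Box) : Bool :=
  skip (P / 32) B || decide (P + B.Y1 ≤ 0) ||
    if 16 * (P + B.Y1) ≤ P ∧ 2 * (P + B.Y0) ≤ P + B.Y1 ∧ P + B.Y1 ≤ P - B.X1 - B.Y1 then
      withOne B
    else if 16 * max (P - B.X0 - B.Y0) (P + B.Y1) ≤ P ∧
        2 * (P + B.Y0) ≤ max (P - B.X0 - B.Y0) (P + B.Y1) then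
      withTwo B
    else withLogs B lowerTest

/-- A leaf for the upper bounds. -/
def leafUpper (B : Box) : Bool :=
  skip (P / 64) B || decide (3163 * P < 10000 * B.X0) || withLogs B upperTest

/-- A subdivision. -/
inductive Tr
  | L
  | N (a b : Tr)

/-- The lower half of a box, halved along its longer side. -/
def Box.fst (B : Box) : Box :=
  if B.Y1 - B.Y0 ≤ B.X1 - B.X0 then { B with X1 := (B.X0 + B.X1) / 2 }
  else { B with Y1 := (B.Y0 + B.Y1) / 2 }

/-- The upper half of a box, halved along its longer side. -/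
def Box.snd (B : Box) : Box :=
  if B.Y1 - B.Y0 ≤ B.X1 - B.X0 then { B with X0 := (B.X0 + B.X1) / 2 }
  else { B with Y0 := (B.Y0 + B.Y1) / 2 }

/-- Checks the leaves of a subdivision. -/
def check (leaf : Box → Bool) : Tr → Box → Bool
  | .L, B => leaf B
  | .N a b, B => check leaf a B.fst && check leaf b B.snd

theorem mem_halves {B : Box} {z1 z3 : ℝ} (h : B.Mem z1 z3) :
    B.fst.Mem z1 z3 ∨ B.snd.Mem z1 z3 := by
  obtain ⟨x0, x1, y0, y1⟩ := h
  unfold Box.fst Box.snd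
  split_ifs
  · rcases le_total ((P : ℝ) * z1) (((B.X0 + B.X1) / 2 : ℤ) : ℝ) with hc | hc
    · exact Or.inl ⟨x0, hc, y0, y1⟩
    · exact Or.inr ⟨hc, x1, y0, y1⟩
  · rcases le_total ((P : ℝ) * z3) (((B.Y0 + B.Y1) / 2 : ℤ) : ℝ) with hc | hc
    · exact Or.inl ⟨x0, x1, y0, hc⟩
    · exact Or.inr ⟨x0, x1, hc, y1⟩

theorem check_sound {leaf : Box → Bool} {p : ℝ → ℝ → Prop}
    (h : ∀ B, leaf B = true → ∀ z1 z3, B.Mem z1 z3 → p z1 z3) :
    ∀ (t : Tr) (B : Box), check leaf t B = true → ∀ z1 z3, B.Mem z1 z3 → p z1 z3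
  | .L, B, hs, z1, z3, hm => h B hs z1 z3 hm
  | .N a b, B, hs, z1, z3, hm => by
      rw [check, Bool.and_eq_true] at hs
      rcases mem_halves hm with hc | hc
      · exact check_sound h a _ hs.1 z1 z3 hc
      · exact check_sound h b _ hs.2 z1 z3 hc

/-- Some subdivision of the box passes. -/
def Checked (leaf : Box → Bool) (B : Box) : Prop := ∃ t, check leaf t B = true

theorem Checked.node {leaf : Box → Bool} {B : Box} (ha : Checked leaf B.fst)
    (hb : Checked leaf B.snd) : Checked leaf B := by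
  obtain ⟨a, ha⟩ := ha
  obtain ⟨b, hb⟩ := hb
  exact ⟨.N a b, by rw [check, ha, hb]; rfl⟩

/-- The models of a point hold. -/
def Pt.Holds (p : Pt) (x y z1 z2 z3 l1 l2 l3 : ℝ) : Prop :=
  TM.Holds p.z1 x y z1 ∧ TM.Holds p.z2 x y z2 ∧ TM.Holds p.z3 x y z3 ∧ TM.Holds p.l1 x y l1 ∧
    TM.Holds p.l2 x y l2 ∧ TM.Holds p.l3 x y l3

theorem TM.Holds.congr {t : TM} {x y r s : ℝ} (h : TM.Holds t x y r) (e : r = s) :
    TM.Holds t x y s := e ▸ h

variable {x y z1 z2 z3 l1 l2 l3 : ℝ}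

theorem holds_onePlus {t : TM} {z : ℝ} (h : TM.Holds t x y z) :
    TM.Holds (onePlus t) x y (1 + z) :=
  ((holds_int (x := x) (y := y) 1).add h).congr (by norm_num)

theorem holds_sT (hx : |x| ≤ 1) (hy : |y| ≤ 1) {p : Pt} (h : p.Holds x y z1 z2 z3 l1 l2 l3) :
    TM.Holds (sT p) x y (SS z1 z2 z3) :=
  (((h.1.mul hx hy h.1).add (h.2.1.mul hx hy h.2.1)).add (h.2.2.1.mul hx hy h.2.2.1)).congr
    (by unfold SS; ring)

theorem holds_momT (hx : |x| ≤ 1) (hy : |y| ≤ 1) {a b c : TM} {z l l' : ℝ}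
    (ha : TM.Holds a x y z) (hb : TM.Holds b x y l) (hc : TM.Holds c x y l') :
    TM.Holds (momT a b c).1 x y ((1 + z) * (l - l') ^ 2) ∧
      TM.Holds (momT a b c).2 x y ((1 + z) * ps (l - l')) := by
  have hD := hb.sub hc
  have h2 := hD.mul hx hy hD
  have hv := (holds_onePlus ha).mul hx hy h2
  exact ⟨hv.congr (by ring),
    (((hv.mul hx hy h2).smul hx hy 213 (d := 10000) (by norm_num)).sub hv).congr
      (by unfold ps kap; push_cast; ring)⟩

theorem holds_qgT (hx : |x| ≤ 1) (hy : |y| ≤ 1) {p : Pt} (h : p.Holds x y z1 z2 z3 l1 l2 l3) :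
    TM.Holds (qgT p (sT p)).1 x y (qf z1 z2 z3 l1 l2 l3) ∧
      TM.Holds (qgT p (sT p)).2 x y (gf z1 z2 z3 l1 l2 l3 - 9 * SS z1 z2 z3) := by
  have hS := holds_sT hx hy h
  obtain ⟨a1, a2, a3, b1, b2, b3⟩ := h
  obtain ⟨u1, w1⟩ := holds_momT hx hy a1 b2 b3
  obtain ⟨u2, w2⟩ := holds_momT hx hy a2 b3 b1
  obtain ⟨u3, w3⟩ := holds_momT hx hy a3 b1 b2
  have hJ := (((a1.mul hx hy b1).add (a2.mul hx hy b2)).add (a3.mul hx hy b3)).smul hx hy 12
    (d := 1) one_pos
  exact ⟨((u1.add u2).add u3).congr (by unfold qf; ring),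
    ((((hJ.add w1).add w2).add w3).sub (hS.smul hx hy 9 (d := 1) one_pos)).congr
      (by unfold gf; push_cast; ring)⟩

theorem lowerTest_sound (hx : |x| ≤ 1) (hy : |y| ≤ 1) {p : Pt}
    (h : p.Holds x y z1 z2 z3 l1 l2 l3) (ht : lowerTest p = true) :
    LowerOK z1 z2 z3 (gf z1 z2 z3 l1 l2 l3) := by
  have hS := holds_sT hx hy h
  have hG := (holds_qgT hx hy h).2
  have hE : TM.Holds (eT p) x y (z1 * z2 * z3) := (h.1.mul hx hy h.2.1).mul hx hy h.2.2.1
  have hS2 := hS.mul hx hy hS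
  simp only [lowerTest, Bool.and_eq_true, decide_eq_true_eq] at ht
  constructor
  · have hk := ((hG.sub (hS2.smul hx hy 1927 (d := 10000) (by norm_num))).nonneg hx hy ht.1)
    unfold kap
    push_cast at hk
    linarith [hk]
  · have hf := (((hS.smul hx hy 3 (d := 1) one_pos).add
      (hE.smul hx hy 56934 (d := 10000) (by norm_num))).add
      (hS2.smul hx hy (57 * 3163 ^ 2) (d := 25 * 10000 ^ 2) (by norm_num))).add
      ((hS.mul hx hy hE).smul hx hy (14 * 3163 ^ 3) (d := 10000 ^ 3) (by norm_num))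
    have hk := ((hG.sub (hS2.smul hx hy (11 * 3163 ^ 2 + 20 * 100000) (d := 20 * 10000 ^ 2)
      (by norm_num))).sub ((hf.mul hx hy hf).smul hx hy 213 (d := 10000) (by norm_num))).nonneg
      hx hy ht.2
    push_cast at hk
    unfold kap ff mu0
    ring_nf at hk ⊢
    linarith [hk]

theorem upperTest_sound (hx : |x| ≤ 1) (hy : |y| ≤ 1) {p : Pt}
    (h : p.Holds x y z1 z2 z3 l1 l2 l3) (ht : upperTest p = true) :
    UpperOK z1 z2 z3 (gf z1 z2 z3 l1 l2 l3) (qf z1 z2 z3 l1 l2 l3) := by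
  have hS := holds_sT hx hy h
  have hG := holds_qgT hx hy h
  have hE : TM.Holds (eT p) x y (z1 * z2 * z3) := (h.1.mul hx hy h.2.1).mul hx hy h.2.2.1
  have hS2 := hS.mul hx hy hS
  simp only [upperTest, Bool.and_eq_true, decide_eq_true_eq] at ht
  constructor
  · have hk := ((hS2.smul hx hy 11 (d := 20) (by norm_num)).sub hG.2).nonneg hx hy ht.1
    push_cast at hk
    linarith [hk]
  · have hk := (((((hS.smul hx hy 3 (d := 1) one_pos).sub (hE.smul hx hy 18 (d := 1) one_pos)).add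
      (hS2.smul hx hy 57 (d := 25) (by norm_num))).sub
      ((hS.mul hx hy hE).smul hx hy 14 (d := 1) one_pos)).sub hG.1).nonneg hx hy ht.2
    push_cast at hk
    linarith [hk]

theorem Box.coords {B : Box} {z1 z2 z3 : ℝ} (hm : B.Mem z1 z3) (hsum : z1 + z2 + z3 = 0) :
    ∃ x y : ℝ, |x| ≤ 1 ∧ |y| ≤ 1 ∧ TM.Holds B.z1 x y z1 ∧ TM.Holds B.z2 x y z2 ∧
      TM.Holds B.z3 x y z3 := by
  obtain ⟨x0, x1, y0, y1⟩ := hm
  have h1 := holds_varX x0 x1 (coord B.Y0 B.Y1 z3)
  have h3 := holds_varY y0 y1 (coord B.X0 B.X1 z1)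
  exact ⟨_, _, (coord_spec x0 x1).1, (coord_spec y0 y1).1, h1,
    ((h1.add h3).neg).congr (by linarith), h3⟩

theorem withLogs_sound {B : Box} {test : Pt → Bool} {q : ℝ → ℝ → ℝ → Prop} {z1 z2 z3 : ℝ}
    (hq : ∀ (x y : ℝ) (p : Pt) (l1 l2 l3 : ℝ), |x| ≤ 1 → |y| ≤ 1 →
      p.Holds x y z1 z2 z3 l1 l2 l3 → test p = true → q l1 l2 l3)
    (hm : B.Mem z1 z3) (hsum : z1 + z2 + z3 = 0) (h : withLogs B test = true) :
    q (Real.log (1 + z1)) (Real.log (1 + z2)) (Real.log (1 + z3)) := by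
  obtain ⟨x, y, hx, hy, h1, h2, h3⟩ := B.coords hm hsum
  unfold withLogs at h
  split at h
  · rename_i a b c ha hb hc
    exact hq x y ⟨B.z1, B.z2, B.z3, a, b, c⟩ _ _ _ hx hy ⟨h1, h2, h3, (holds_log hx hy (holds_onePlus h1) ha).2,
      (holds_log hx hy (holds_onePlus h2) hb).2, (holds_log hx hy (holds_onePlus h3) hc).2⟩ h
  · exact absurd h (by simp)

theorem LowerOK.mono {g g' : ℝ} (h : LowerOK z1 z2 z3 g) (hg : g ≤ g') :
    LowerOK z1 z2 z3 g' :=
  ⟨by linarith [h.1], by linarith [h.2]⟩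

theorem skip_sound {r : ℤ} {B : Box} (h : skip r B = true) (hm : B.Mem z1 z3)
    (hsum : z1 + z2 + z3 = 0) (h12 : z2 ≤ z1) (h23 : z3 ≤ z2) :
    |z1| ≤ (r : ℝ) / P ∧ |z2| ≤ (r : ℝ) / P ∧ |z3| ≤ (r : ℝ) / P := by
  obtain ⟨x0, x1, y0, y1⟩ := hm
  have hP := P_pos
  simp only [skip, Bool.or_eq_true, Bool.and_eq_true, decide_eq_true_eq] at h
  rcases h with (h | h) | ⟨⟨⟨⟨⟨a, b⟩, c⟩, d⟩, e⟩, f⟩
  · have : (2 * B.X1 + B.Y1 : ℝ) < 0 := by exact_mod_cast h
    have : 0 ≤ (P : ℝ) * (2 * z1 + z3) := mul_nonneg hP.le (by linarith)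
    linarith
  · have : (0 : ℝ) < B.X0 + 2 * B.Y0 := by exact_mod_cast h
    have : (P : ℝ) * (z1 + 2 * z3) ≤ 0 := mul_nonpos_of_nonneg_of_nonpos hP.le (by linarith)
    linarith
  · have a' : -(r : ℝ) ≤ B.X0 := by exact_mod_cast a
    have b' : (B.X1 : ℝ) ≤ r := by exact_mod_cast b
    have c' : -(r : ℝ) ≤ B.Y0 := by exact_mod_cast c
    have d' : (B.Y1 : ℝ) ≤ r := by exact_mod_cast d
    have e' : -(r : ℝ) ≤ -B.X1 - B.Y1 := by exact_mod_cast e
    have f' : -(B.X0 : ℝ) - B.Y0 ≤ r := by exact_mod_cast f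
    obtain rfl : z2 = -z1 - z3 := by linarith
    refine ⟨?_, ?_, ?_⟩ <;>
    · rw [abs_le, ← neg_div, div_le_iff₀ hP, le_div_iff₀ hP]
      constructor <;> linarith

theorem leafLower_sound (B : Box) (h : leafLower B = true) (z1 z3 : ℝ) (hm : B.Mem z1 z3) :
    ∀ z2, z1 + z2 + z3 = 0 → z2 ≤ z1 → z3 ≤ z2 → -1 < z3 →
      LowerOK z1 z2 z3 (GG z1 z2 z3) := by
  intro z2 hsum h12 h23 h3
  have hP := P_pos
  obtain ⟨x0, x1, y0, y1⟩ := id hm
  simp only [leafLower, Bool.or_eq_true, decide_eq_true_eq] at h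
  rcases h with (h | h) | h
  · obtain ⟨a, b, c⟩ := skip_sound h hm hsum h12 h23
    have e : ((P / 32 : ℤ) : ℝ) / P = 1 / 32 := by norm_num [P]
    rw [e] at a b c
    exact lower_origin hsum a b c
  · exfalso
    have : ((P : ℤ) : ℝ) + B.Y1 ≤ 0 := by exact_mod_cast h
    have := mul_lt_mul_of_pos_left h3 hP
    linarith
  obtain ⟨x, y, hx, hy, m1, m2, m3⟩ := B.coords hm hsum
  have hv1 : (1 : ℝ) ≤ 1 + z1 := by linarith
  split_ifs at h with c1 c2
  · unfold withOne at h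
    split at h
    swap
    · exact absurd h (by simp)
    rename_i a b c ha hb hc
    obtain ⟨hL0, -, hL⟩ := holds_logConst (x := x) (y := y) hc
    have t := lowerTest_sound (p := ⟨B.z1, B.z2, B.z3, a, b, c⟩) hx hy ⟨m1, m2, m3,
      (holds_log hx hy (holds_onePlus m1) ha).2, (holds_log hx hy (holds_onePlus m2) hb).2, hL⟩ h
    have k1 : 16 * ((P : ℝ) + B.Y1) ≤ P := by exact_mod_cast c1.1
    have k3 : (P : ℝ) + B.Y1 ≤ (P : ℝ) - B.X1 - B.Y1 := by exact_mod_cast c1.2.2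
    set δ := ((P + B.Y1 : ℤ) : ℝ) / P with hδ
    have hδ0 : 0 < δ := div_pos (by exact_mod_cast hL0) hP
    have hδ1 : δ ≤ 1 / 16 := by rw [hδ, div_le_iff₀ hP]; push_cast; linarith
    have hδ3 : 1 + z3 ≤ δ := by rw [hδ, le_div_iff₀ hP]; push_cast; linarith
    have hδ2 : δ ≤ 1 + z2 := by
      obtain rfl : z2 = -z1 - z3 := by linarith
      rw [hδ, div_le_iff₀ hP]; push_cast; linarith
    exact t.mono (gf_raise_one hsum (by linarith) (by linarith) (by linarith)
      (Real.log_le_log (by linarith) hδ3) (Real.log_le_log hδ0 (by linarith))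
      (Real.log_le_log hδ0 hδ2))
  · unfold withTwo at h
    split at h
    swap
    · exact absurd h (by simp)
    rename_i a c ha hc
    obtain ⟨hL0, -, hL⟩ := holds_logConst (x := x) (y := y) hc
    have t := lowerTest_sound (p := ⟨B.z1, B.z2, B.z3, a, c, c⟩) hx hy ⟨m1, m2, m3,
      (holds_log hx hy (holds_onePlus m1) ha).2, hL, hL⟩ h
    set M : ℤ := max (P - B.X0 - B.Y0) (P + B.Y1) with hM
    have k1 : 16 * (M : ℝ) ≤ P := by exact_mod_cast c2.1
    have k2 : (P : ℝ) - B.X0 - B.Y0 ≤ M := by exact_mod_cast le_max_left _ _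
    set δ := (M : ℝ) / P with hδ
    have hδ0 : 0 < δ := div_pos (by exact_mod_cast hL0) hP
    have hδ1 : δ ≤ 1 / 16 := by rw [hδ, div_le_iff₀ hP]; linarith
    have hδ2 : 1 + z2 ≤ δ := by
      obtain rfl : z2 = -z1 - z3 := by linarith
      rw [hδ, le_div_iff₀ hP]; linarith
    exact t.mono (gf_raise_two hsum (by linarith) (by linarith) (by linarith) (by linarith)
      (by linarith) (Real.log_le_log (by linarith) (by linarith))
      (Real.log_le_log (by linarith) hδ2) (Real.log_le_log hδ0 (by linarith)))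
  · exact withLogs_sound (q := fun a b c => LowerOK z1 z2 z3 (gf z1 z2 z3 a b c))
      (fun x y p a b c hx hy hp ht => lowerTest_sound hx hy hp ht) hm hsum h

theorem leafUpper_sound (B : Box) (h : leafUpper B = true) (z1 z3 : ℝ) (hm : B.Mem z1 z3) :
    ∀ z2, z1 + z2 + z3 = 0 → z2 ≤ z1 → z3 ≤ z2 → z1 ≤ mu0 →
      UpperOK z1 z2 z3 (GG z1 z2 z3) (QQ z1 z2 z3) := by
  intro z2 hsum h12 h23 h1
  have hP := P_pos
  obtain ⟨x0, x1, y0, y1⟩ := id hm
  simp only [leafUpper, Bool.or_eq_true, decide_eq_true_eq] at h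
  rcases h with (h | h) | h
  · obtain ⟨a, b, c⟩ := skip_sound h hm hsum h12 h23
    have e : ((P / 64 : ℤ) : ℝ) / P = 1 / 64 := by norm_num [P]
    rw [e] at a b c
    exact upper_origin hsum a b c
  · exfalso
    have : 3163 * ((P : ℤ) : ℝ) < 10000 * B.X0 := by exact_mod_cast h
    have := mul_le_mul_of_nonneg_left h1 hP.le
    unfold mu0 at this
    linarith
  · exact withLogs_sound (q := fun a b c => UpperOK z1 z2 z3 (gf z1 z2 z3 a b c)
      (qf z1 z2 z3 a b c)) (fun x y p a b c hx hy hp ht => upperTest_sound hx hy hp ht) hm hsum h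

/-- The root box for the lower bounds: `z₁ ∈ [0, 2]`, `z₃ ∈ [-1, 0]`. -/
def rootLower : Box := ⟨0, 2 * P, -P, 0⟩

/-- The root box for the upper bounds: `z₁ ∈ [0, 1/2]`, `z₃ ∈ [-1, 0]`. -/
def rootUpper : Box := ⟨0, P / 2, -P, 0⟩

end Vale.P154.AF
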