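import Vale.Agent.P154.AFCertLower1
import Vale.Agent.P154.AFCertLower2
import Vale.Agent.P154.AFCertUpper1
import Vale.Agent.P154.AFCertUpper2

/-!
# The one-vector inequality for the logarithmic potential
-/

noncomputable section

namespace Vale.P154.AF

theorem checkedLower : Checked leafLower rootLower :=
  (Checked.node (Checked.node (Checked.node checkedLower_fff (Checked.node (Checked.node checkedLower_ffsff (Checked.node (Checked.node checkedLower_ffsfsff (Checked.node (Checked.node checkedLower_ffsfsfsff checkedLower_ffsfsfsfs) checkedLower_ffsfsfss)) checkedLower_ffsfss)) checkedLower_ffss)) (Checked.node (Checked.node checkedLower_fsff checkedLower_fsfs) checkedLower_fss)) (Checked.node checkedLower_sf checkedLower_ss))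
theorem checkedUpper : Checked leafUpper rootUpper :=
  (Checked.node checkedUpper_f (Checked.node (Checked.node checkedUpper_sff (Checked.node (Checked.node checkedUpper_sfsff (Checked.node (Checked.node checkedUpper_sfsfsff (Checked.node (Checked.node checkedUpper_sfsfsfsff (Checked.node checkedUpper_sfsfsfsfsf (Checked.node checkedUpper_sfsfsfsfssf checkedUpper_sfsfsfsfsss))) (Checked.node checkedUpper_sfsfsfssf checkedUpper_sfsfsfsss))) checkedUpper_sfsfss)) checkedUpper_sfss)) checkedUpper_ss))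
theorem Checked.sound {leaf : Box → Bool} {p : ℝ → ℝ → Prop} {B : Box} (hc : Checked leaf B)
    (h : ∀ B, leaf B = true → ∀ z1 z3, B.Mem z1 z3 → p z1 z3) :
    ∀ z1 z3, B.Mem z1 z3 → p z1 z3 := by
  obtain ⟨t, ht⟩ := hc
  exact check_sound h t B ht

/-- The lower bounds on the whole open simplex. -/
theorem lower_all {a b c : ℝ} (ha : -1 < a) (hb : -1 < b) (hc : -1 < c) (h0 : a + b + c = 0) :
    LowerOK a b c (GG a b c) := by
  refine of_ordered (p := fun a b c => LowerOK a b c (GG a b c)) ?_ ?_ (fun x => -1 < x) ?_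
    a b c ha hb hc h0
  · intro a b c h
    rw [GG_swap]
    unfold LowerOK at h ⊢
    rw [show SS b a c = SS a b c by unfold SS; ring, show b * a * c = a * b * c by ring]
    exact h
  · intro a b c h
    rw [GG_rot]
    unfold LowerOK at h ⊢
    rw [show SS b c a = SS a b c by unfold SS; ring, show b * c * a = a * b * c by ring]
    exact h
  · intro a b c ha hb hc h0 h12 h23
    have hP := P_pos
    refine (checkedLower.sound leafLower_sound a c ⟨?_, ?_, ?_, ?_⟩) b h0 h12 h23 hc
    all_goals simp only [rootLower]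
    all_goals push_cast
    · exact mul_nonneg hP.le (by linarith)
    · rw [mul_comm]; exact mul_le_mul_of_nonneg_right (by linarith) hP.le
    · linarith [mul_le_mul_of_nonneg_left hc.le hP.le]
    · exact mul_nonpos_of_nonneg_of_nonpos hP.le (by linarith)

/-- The upper bounds on the simplex scaled by `mu0`. -/
theorem upper_all {a b c : ℝ} (ha : a ≤ mu0) (hb : b ≤ mu0) (hc : c ≤ mu0) (h0 : a + b + c = 0) :
    UpperOK a b c (GG a b c) (QQ a b c) := by
  refine of_ordered (p := fun a b c => UpperOK a b c (GG a b c) (QQ a b c)) ?_ ?_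
    (fun x => x ≤ mu0) ?_ a b c ha hb hc h0
  · intro a b c h
    rw [GG_swap, QQ_swap]
    unfold UpperOK at h ⊢
    rw [show SS b a c = SS a b c by unfold SS; ring, show b * a * c = a * b * c by ring]
    exact h
  · intro a b c h
    rw [GG_rot, QQ_rot]
    unfold UpperOK at h ⊢
    rw [show SS b c a = SS a b c by unfold SS; ring, show b * c * a = a * b * c by ring]
    exact h
  · intro a b c ha hb hc h0 h12 h23
    have hP := P_pos
    have hm : mu0 = 3163 / 10000 := rfl
    refine (checkedUpper.sound leafUpper_sound a c ⟨?_, ?_, ?_, ?_⟩) b h0 h12 h23 ha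
    all_goals simp only [rootUpper]
    · simpa using mul_nonneg hP.le (show 0 ≤ a by linarith)
    · have e : ((P / 2 : ℤ) : ℝ) = (P : ℝ) * (1 / 2) := by norm_num [P]
      rw [e]; exact mul_le_mul_of_nonneg_left (by linarith) hP.le
    · push_cast
      linarith [mul_le_mul_of_nonneg_left (show (-1 : ℝ) ≤ c by linarith) hP.le]
    · simpa using mul_nonpos_of_nonneg_of_nonpos hP.le (show c ≤ 0 by linarith)

theorem prod_ge {a b c : ℝ} (ha : -1 ≤ a) (hb : -1 ≤ b) (hc : -1 ≤ c) (h0 : a + b + c = 0) :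
    -(SS a b c) / 6 ≤ a * b * c := by
  have key : ∀ x y z : ℝ, -1 ≤ z → x + y + z = 0 → 0 ≤ x → 0 ≤ y →
      -(SS x y z) / 6 ≤ x * y * z := by
    intro x y z hz h hx hy
    obtain rfl : z = -x - y := by linarith
    have h1 : x * y * (x + y) ≤ x * y * 1 := mul_le_mul_of_nonneg_left (by linarith) (mul_nonneg hx hy)
    unfold SS
    nlinarith [sq_nonneg (x - y)]
  have hS : 0 ≤ SS a b c := by unfold SS; positivity
  rcases le_total 0 a with p | p <;> rcases le_total 0 b with q | q <;>
    rcases le_total 0 c with r | r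
  all_goals first
    | exact key a b c hc h0 p q
    | (have := key a c b hb (by linarith) p r
       rw [show SS a c b = SS a b c by unfold SS; ring] at this; linarith)
    | (have := key b c a ha (by linarith) q r
       rw [show SS b c a = SS a b c by unfold SS; ring] at this; linarith)
    | linarith [mul_nonneg p (mul_nonneg_of_nonpos_of_nonpos q r)]
    | linarith [mul_nonneg q (mul_nonneg_of_nonpos_of_nonpos p r)]
    | linarith [mul_nonneg r (mul_nonneg_of_nonpos_of_nonpos p q)]
    | (have ha0 : a = 0 := by linarith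
       subst ha0; linarith [hS, mul_zero (0 : ℝ)])

/-- The inequality that drives the recursion, multiplied by `lam ^ 4`. -/
theorem pointwise {lam a b c : ℝ} (hl : -mu0 ≤ lam) (hl0 : lam < 0) (ha : -1 < a) (hb : -1 < b)
    (hc : -1 < c) (h0 : a + b + c = 0) :
    lam ^ 2 * GG (lam * a) (lam * b) (lam * c) + kap * QQ (lam * a) (lam * b) (lam * c) ^ 2
      + lam ^ 4 / 1000 * SS a b c ^ 2 ≤ lam ^ 4 * GG a b c := by
  have hm : mu0 = 3163 / 10000 := rfl
  have hmem : ∀ x, -1 < x → lam * x ≤ mu0 := fun x hx => by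
    nlinarith [mul_le_mul_of_nonpos_left hx.le hl0.le]
  obtain ⟨u1, u2⟩ := upper_all (hmem a ha) (hmem b hb) (hmem c hc) (by linear_combination lam * h0)
  obtain ⟨l0, l1⟩ := lower_all ha hb hc h0
  have hQ0 : 0 ≤ QQ (lam * a) (lam * b) (lam * c) := by
    have e : ∀ x, x ≤ 2 → 0 ≤ 1 + lam * x := by
      intro x hx
      nlinarith [mul_le_mul_of_nonpos_left hx hl0.le]
    unfold QQ qf
    exact add_nonneg (add_nonneg (mul_nonneg (e a (by linarith)) (sq_nonneg _))
      (mul_nonneg (e b (by linarith)) (sq_nonneg _))) (mul_nonneg (e c (by linarith)) (sq_nonneg _))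
  set S := SS a b c with hS
  set E := a * b * c with hE
  have hEge := prod_ge ha.le hb.le hc.le h0
  rw [← hS, ← hE] at hEge
  have hS0 : 0 ≤ S := by rw [hS]; unfold SS; positivity
  rw [show SS (lam * a) (lam * b) (lam * c) = lam ^ 2 * S by rw [hS]; unfold SS; ring] at u1 u2
  rw [show lam * a * (lam * b) * (lam * c) = lam ^ 3 * E by rw [hE]; ring] at u2
  obtain ⟨m, rfl⟩ : ∃ m, lam = -m := ⟨-lam, by ring⟩
  have hm0 : 0 ≤ m := by linarith
  have hm1 : m ≤ mu0 := by linarith
  have hQle : QQ (-m * a) (-m * b) (-m * c) ≤ m ^ 2 * ff S E m := by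
    unfold ff; linarith
  -- chord of the cubic
  set t := m / mu0 with ht
  have ht0 : 0 ≤ t := div_nonneg hm0 (by rw [hm]; norm_num)
  have ht1 : t ≤ 1 := (div_le_one (by rw [hm]; norm_num)).2 hm1
  have hmt : m = t * mu0 := by rw [ht, div_mul_cancel₀ _ (by rw [hm]; norm_num)]
  have hchord : ff S E m ≤ (1 - t) * (3 * S) + t * ff S E mu0 := by
    have hb' : 0 ≤ 57 / 25 * S + 14 * E * (m + mu0) := by
      rcases le_total 0 E with h | h
      · have := mul_nonneg h (add_nonneg hm0 (hm0.trans hm1))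
        linarith
      · have := mul_le_mul_of_nonpos_left (show m + mu0 ≤ 2 * mu0 by linarith) h
        rw [hm] at this ⊢
        linarith
    have hneg : m * (m - mu0) * (S * (57 / 25 * S + 14 * E * (m + mu0))) ≤ 0 :=
      mul_nonpos_of_nonpos_of_nonneg (mul_nonpos_of_nonneg_of_nonpos hm0 (by linarith))
        (mul_nonneg hS0 hb')
    have e : ff S E m - ((1 - t) * (3 * S) + t * ff S E mu0)
        = m * (m - mu0) * (S * (57 / 25 * S + 14 * E * (m + mu0))) := by
      rw [hmt]; unfold ff; ring
    linarith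
  have hm4 : 0 ≤ m ^ 4 := by positivity
  have hQsq : QQ (-m * a) (-m * b) (-m * c) ^ 2 ≤
      m ^ 4 * ((1 - t) * (3 * S) ^ 2 + t * ff S E mu0 ^ 2) := by
    have h1 : QQ (-m * a) (-m * b) (-m * c) ≤ m ^ 2 * ((1 - t) * (3 * S) + t * ff S E mu0) :=
      hQle.trans (mul_le_mul_of_nonneg_left hchord (sq_nonneg m))
    refine (pow_le_pow_left₀ hQ0 h1 2).trans ?_
    rw [mul_pow, ← pow_mul]
    refine mul_le_mul_of_nonneg_left ?_ hm4
    nlinarith [mul_nonneg (mul_nonneg ht0 (sub_nonneg.2 ht1)) (sq_nonneg (3 * S - ff S E mu0))]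
  have hG : m ^ 2 * GG (-m * a) (-m * b) (-m * c) ≤
      m ^ 4 * (9 * S + 11 / 20 * m ^ 2 * S ^ 2) := by
    nlinarith [mul_le_mul_of_nonneg_left (show GG (-m * a) (-m * b) (-m * c) ≤
      m ^ 2 * (9 * S) + 11 / 20 * (m ^ 2 * S) ^ 2 by linarith) (sq_nonneg m)]
  have hm2 : m ^ 2 ≤ t * mu0 ^ 2 := by
    rw [hmt, mul_pow]
    exact mul_le_mul_of_nonneg_right (by nlinarith) (sq_nonneg _)
  have hkap : 0 ≤ kap := by unfold kap; norm_num
  have w0 := mul_nonneg (mul_nonneg hm4 (sub_nonneg.2 ht1)) l0
  have w1 := mul_nonneg (mul_nonneg hm4 ht0) l1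
  have w2 := mul_le_mul_of_nonneg_left hQsq hkap
  have w3 := mul_le_mul_of_nonneg_left hm2
    (mul_nonneg (mul_nonneg hm4 (sq_nonneg S)) (by norm_num : (0 : ℝ) ≤ 11 / 20))
  linarith

/-- The potential is nonnegative. -/
theorem GG_nonneg {a b c : ℝ} (ha : -1 < a) (hb : -1 < b) (hc : -1 < c) (h0 : a + b + c = 0) :
    0 ≤ GG a b c := by
  have h := (lower_all ha hb hc h0).1
  have : 0 ≤ (9 * kap + 1 / 1000) * SS a b c ^ 2 := by unfold kap; positivity
  have : 0 ≤ SS a b c := by unfold SS; positivity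
  linarith

end Vale.P154.AF
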