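import Vale.Agent.P154.AFMoments
import Vale.Agent.P154.AFPointwise
import Vale.Agent.P154.KS

/-!
# Three-state antiferromagnet with `lam ^ 2 ≤ 1 / 10`: no reconstruction up to the Kesten-Stigum
bound

The potential `GG` is additive over the children of a node up to `kap` times the products of the
second moments after one edge, so its expectation decreases along the recursion.
-/

noncomputable section

namespace Vale.P154.AF

open Finset Filter Topology
open scoped ENNReal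

variable {lam : ℝ}

/-- The expected square of the magnetisation. -/
def x2T (lam : ℝ) (n : ℕ) (t : PTree n) : ℝ :=
  ev (lik (q := 3) lam n t) fun y => chi y ^ 2

theorem rel_gt {l : Fin 3 → ℝ} (hl : ∀ i, 0 < l i) (i : Fin 3) : -1 < rel l i := by
  have hs : 0 < ∑ j, l j := Finset.sum_pos (fun j _ => hl j) ⟨0, Finset.mem_univ 0⟩
  have : (0 : ℝ) < ((3 : ℕ) : ℝ) * l i / ∑ j, l j := div_pos (mul_pos (by norm_num) (hl i)) hs
  simp only [rel]
  linarith

theorem rel_sum {l : Fin 3 → ℝ} (hl : ∀ i, 0 < l i) : rel l 0 + rel l 1 + rel l 2 = 0 := by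
  have hs : 0 < ∑ j, l j := Finset.sum_pos (fun j _ => hl j) ⟨0, Finset.mem_univ 0⟩
  have h := (rel_simp (fun i => (hl i).le) hs).2
  rwa [Fin.sum_univ_three] at h

theorem psi_nonneg {l : Fin 3 → ℝ} (hl : ∀ i, 0 < l i) : 0 ≤ psi l := by
  have hs : 0 < ∑ j, l j := Finset.sum_pos (fun j _ => hl j) ⟨0, Finset.mem_univ 0⟩
  rw [(psi_eq hl).1]
  exact mul_nonneg (by positivity) (GG_nonneg (rel_gt hl 0) (rel_gt hl 1) (rel_gt hl 2) (rel_sum hl))

theorem qh_nonneg {l : Fin 3 → ℝ} (hl : ∀ i, 0 < l i) : 0 ≤ qh l :=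
  Finset.sum_nonneg fun i _ => mul_nonneg (hl i).le (sq_nonneg _)

theorem glT_nonneg (h0 : -(1 / 2) < lam) (h1 : lam < 1) (n : ℕ) (t : PTree n) :
    0 ≤ glT lam n t :=
  Finset.sum_nonneg fun s _ => psi_nonneg (upv_pos h0 h1 n t s)

theorem qlT_nonneg (h0 : -(1 / 2) < lam) (h1 : lam < 1) (n : ℕ) (t : PTree n) :
    0 ≤ qlT lam n t :=
  Finset.sum_nonneg fun s _ => qh_nonneg (upv_pos h0 h1 n t s)

theorem lik_pos (h0 : -(1 / 2) < lam) (h1 : lam < 1) (n : ℕ) (t : PTree (n + 1))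
    (s : Cfg 3 (n + 1) t) (i : Fin 3) : 0 < lik (q := 3) lam (n + 1) t s i :=
  Finset.prod_pos fun c _ => upv_pos h0 h1 n (t.2 c) (s c) i

theorem gT_nonneg (h0 : -(1 / 2) < lam) (h1 : lam < 1) (n : ℕ) (t : PTree (n + 1)) :
    0 ≤ gT lam (n + 1) t :=
  Finset.sum_nonneg fun s _ => psi_nonneg (lik_pos h0 h1 n t s)

theorem x2T_nonneg (h0 : -(1 / 2) < lam) (h1 : lam < 1) (n : ℕ) (t : PTree n) : 0 ≤ x2T lam n t :=
  ev_nonneg (lik_nonneg (q := 3) (by norm_num) (by norm_num; linarith) h1.le n t) fun _ _ => sq_nonneg _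

/-- The pointwise inequality summed over a tree. -/
theorem tree_step (hl : -mu0 ≤ lam) (hl0 : lam < 0) (n : ℕ) (t : PTree (n + 1)) {a : ℝ}
    (ha : 0 ≤ a) :
    lam ^ 2 * glT lam (n + 1) t + 2 * kap * a * qlT lam (n + 1) t
      + 9 * lam ^ 4 / 1000 * x2T lam (n + 1) t ≤ lam ^ 4 * gT lam (n + 1) t + kap * a ^ 2 := by
  have h0 : -(1 / 2) < lam := by unfold mu0 at hl; linarith
  have h1 : lam < 1 := by linarith
  have key : ∀ s : Cfg 3 (n + 1) t,
      lam ^ 2 * psi (upv lam (n + 1) t s) + 2 * kap * a * qh (upv lam (n + 1) t s)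
        + 9 * lam ^ 4 / 1000 * (((∑ i, lik lam (n + 1) t s i) / 3) *
            chi (rel (lik lam (n + 1) t s)) ^ 2)
      ≤ lam ^ 4 * psi (lik lam (n + 1) t s)
        + kap * a ^ 2 * ((∑ i, lik lam (n + 1) t s i) / 3) := by
    intro s
    have hl' := lik_pos h0 h1 n t s
    have hu := upv_pos h0 h1 (n + 1) t s
    set l := lik lam (n + 1) t s with hldef
    have hs : 0 < ∑ i, l i := Finset.sum_pos (fun j _ => hl' j) ⟨0, Finset.mem_univ 0⟩
    have hsum : ∑ i, upv lam (n + 1) t s i = ∑ i, l i := by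
      simp only [upv, chan, potts_mul, Finset.sum_add_distrib, ← Finset.mul_sum]
      simp [← hldef]
      ring
    have hrel : ∀ i, rel (upv lam (n + 1) t s) i = lam * rel l i := by
      intro i
      simp only [rel, hsum]
      simp only [upv, chan, potts_mul, ← hldef]
      push_cast
      field_simp
      ring
    rw [(psi_eq hu).1, (psi_eq hu).2, (psi_eq hl').1, hsum]
    simp only [Gy, Qy, hrel]
    have p := pointwise hl hl0 (rel_gt hl' 0) (rel_gt hl' 1) (rel_gt hl' 2) (rel_sum hl')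
    have hchi : SS (rel l 0) (rel l 1) (rel l 2) = 3 * chi (rel l) := by
      simp [SS, chi, Fin.sum_univ_three]
      ring
    rw [hchi] at p
    have hk : 0 ≤ kap := by unfold kap; norm_num
    set Q := QQ (lam * rel l 0) (lam * rel l 1) (lam * rel l 2)
    have hQ : kap * (2 * a * Q - a ^ 2) ≤ kap * Q ^ 2 :=
      mul_le_mul_of_nonneg_left (by nlinarith [sq_nonneg (Q - a)]) hk
    have hm : 0 ≤ (∑ i, l i) / 3 := by positivity
    nlinarith [mul_le_mul_of_nonneg_left p hm, mul_le_mul_of_nonneg_left hQ hm]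
  have h := Finset.sum_le_sum fun s (_ : s ∈ (Finset.univ : Finset (Cfg 3 (n + 1) t))) => key s
  simp only [Finset.sum_add_distrib, ← Finset.mul_sum] at h
  have h1' := sum_mass (q := 3) lam (n + 1) t
  simp only [Nat.cast_ofNat] at h1'
  rw [h1', mul_one] at h
  simpa [glT, qlT, gT, x2T, ev] using h

/-- The recursion for the expected potential. -/
theorem gwE_gT_succ (h0 : -(1 / 2) < lam) (h1 : lam < 1) {p : ℕ → ℝ} (hp : ∀ k, 0 ≤ p k)
    (hp1 : ∑' k, ENNReal.ofReal (p k) = 1) (n : ℕ) :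
    gwE p (n + 1) (fun t => ENNReal.ofReal (gT lam (n + 1) t)) =
      (∑' k, ENNReal.ofReal (p k) * k) * gwE p n (fun t => ENNReal.ofReal (glT lam n t)) +
      ENNReal.ofReal kap * (∑' k, ENNReal.ofReal (p k) * ((k * k - k : ℕ) : ℝ≥0∞)) *
        gwE p n (fun t => ENNReal.ofReal (qlT lam n t)) ^ 2 := by
  rw [gwE_succ hp, ← ENNReal.tsum_mul_right, ← ENNReal.tsum_mul_left, ← ENNReal.tsum_mul_right,
    ← ENNReal.tsum_add]
  refine tsum_congr fun k => ?_
  have hk : 0 ≤ kap := by unfold kap; norm_num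
  have e : ∀ ch : Fin k → PTree n, ENNReal.ofReal (gT lam (n + 1) ⟨k, ch⟩) =
      (∑ c, ENNReal.ofReal (glT lam n (ch c))) + ENNReal.ofReal kap *
        ∑ e ∈ (univ : Finset (Fin k)).offDiag,
          ENNReal.ofReal (qlT lam n (ch e.1)) * ENNReal.ofReal (qlT lam n (ch e.2)) := by
    intro ch
    have hq := qlT_nonneg h0 h1 n
    rw [gT_succ h0 h1, ENNReal.ofReal_add (Finset.sum_nonneg fun c _ => glT_nonneg h0 h1 n _)
      (mul_nonneg hk (Finset.sum_nonneg fun e _ => mul_nonneg (hq _) (hq _))),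
      ENNReal.ofReal_sum_of_nonneg fun c _ => glT_nonneg h0 h1 n _, ENNReal.ofReal_mul hk,
      ENNReal.ofReal_sum_of_nonneg fun e _ => mul_nonneg (hq _) (hq _)]
    simp only [ENNReal.ofReal_mul (hq _)]
  have e2 : ∀ ch : Fin k → PTree n,
      (∏ c, ENNReal.ofReal (gwWeight p n (ch c))) * (ENNReal.ofReal kap *
        ∑ e ∈ (univ : Finset (Fin k)).offDiag,
          ENNReal.ofReal (qlT lam n (ch e.1)) * ENNReal.ofReal (qlT lam n (ch e.2))) =
      ENNReal.ofReal kap * ((∏ c, ENNReal.ofReal (gwWeight p n (ch c))) *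
        ∑ e ∈ (univ : Finset (Fin k)).offDiag,
          ENNReal.ofReal (qlT lam n (ch e.1)) * ENNReal.ofReal (qlT lam n (ch e.2))) :=
    fun ch => mul_left_comm _ _ _
  simp only [e, mul_add, ENNReal.tsum_add, e2, ENNReal.tsum_mul_left]
  rw [node_sum hp hp1 n k (fun t => ENNReal.ofReal (glT lam n t)),
    node_offDiag hp hp1 n k (fun t => ENNReal.ofReal (qlT lam n t))]
  ring

/-- Nonreconstruction for three colours when `-0.3163 ≤ lam < 0`, for every offspring law with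
`lam² E k ≤ 1` and `lam⁴ E k(k-1) ≤ 1`. -/
theorem aGW_zero_of_log (hl : -mu0 ≤ lam) (hl0 : lam < 0) {p : ℕ → ℝ} (hp : ∀ k, 0 ≤ p k)
    (hp1 : ∑' k, ENNReal.ofReal (p k) = 1)
    (hmean : ENNReal.ofReal (lam ^ 2) * ∑' k, ENNReal.ofReal (p k) * k ≤ 1)
    (hfac : ENNReal.ofReal (lam ^ 4) *
      ∑' k, ENNReal.ofReal (p k) * ((k * k - k : ℕ) : ℝ≥0∞) ≤ 1) :
    Tendsto (fun n => aGW 3 p lam n) atTop (𝓝 0) := by
  have h0 : -(1 / 2) < lam := by unfold mu0 at hl; linarith
  have h1 : lam < 1 := by linarith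
  have h0' : -1 / (((3 : ℕ) : ℝ) - 1) ≤ lam := by norm_num; linarith
  have hk : 0 < kap := by unfold kap; norm_num
  have hl2 : 0 < lam ^ 2 := sq_pos_of_neg hl0
  have hl4 : 0 < lam ^ 4 := by
    rw [show lam ^ 4 = lam ^ 2 * lam ^ 2 by ring]; exact mul_pos hl2 hl2
  set A := fun n => gwE p n fun t => ENNReal.ofReal (glT lam n t) with hA
  set B := fun n => gwE p n fun t => ENNReal.ofReal (qlT lam n t) with hB
  set X := fun n => gwE p n fun t => ENNReal.ofReal (x2T lam n t) with hX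
  set F := fun n => ENNReal.ofReal (lam ^ 4) * gwE p n fun t => ENNReal.ofReal (gT lam n t) with hF
  set c2 := ENNReal.ofReal (lam ^ 2)
  set η := ENNReal.ofReal (9 * lam ^ 4 / 1000)
  set κ := ENNReal.ofReal kap
  have hrec : ∀ n, F (n + 1) ≤ c2 * A n + κ * B n ^ 2 := by
    intro n
    have h4 : ENNReal.ofReal (lam ^ 4) = c2 * c2 := by
      rw [← ENNReal.ofReal_mul hl2.le]; ring_nf
    simp only [hF]
    rw [gwE_gT_succ h0 h1 hp hp1 n, mul_add]
    refine add_le_add ?_ ?_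
    · rw [h4, ← mul_assoc, mul_assoc c2 c2]
      exact mul_le_mul_left (mul_le_of_le_one_right zero_le hmean) _
    · rw [← mul_assoc, ← mul_assoc, mul_comm _ κ, mul_assoc κ]
      exact mul_le_mul_left (mul_le_of_le_one_right zero_le hfac) _
  have hstep : ∀ (n : ℕ) (a : ℝ), 0 ≤ a →
      c2 * A (n + 1) + ENNReal.ofReal (2 * kap * a) * B (n + 1) + η * X (n + 1)
        ≤ F (n + 1) + ENNReal.ofReal (kap * a ^ 2) := by
    intro n a ha
    have one := gwE_one hp hp1 (n + 1)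
    simp only [gwE, mul_one] at one
    have e : ENNReal.ofReal (kap * a ^ 2) = ∑' t : PTree (n + 1),
        ENNReal.ofReal (gwWeight p (n + 1) t) * ENNReal.ofReal (kap * a ^ 2) := by
      rw [ENNReal.tsum_mul_right, one, one_mul]
    simp only [hA, hB, hX, hF, gwE]
    rw [e, ← ENNReal.tsum_mul_left, ← ENNReal.tsum_mul_left, ← ENNReal.tsum_mul_left,
      ← ENNReal.tsum_mul_left, ← ENNReal.tsum_add, ← ENNReal.tsum_add, ← ENNReal.tsum_add]
    refine ENNReal.tsum_le_tsum fun t => ?_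
    have n1 := glT_nonneg h0 h1 (n + 1) t
    have n2 := qlT_nonneg h0 h1 (n + 1) t
    have n3 := x2T_nonneg h0 h1 (n + 1) t
    have n4 := gT_nonneg h0 h1 n t
    have h := ENNReal.ofReal_le_ofReal (tree_step hl hl0 n t ha)
    rw [ENNReal.ofReal_add (add_nonneg (mul_nonneg hl2.le n1)
        (mul_nonneg (mul_nonneg (by linarith) ha) n2)) (mul_nonneg (by positivity) n3),
      ENNReal.ofReal_add (mul_nonneg hl2.le n1) (mul_nonneg (mul_nonneg (by linarith) ha) n2),
      ENNReal.ofReal_add (mul_nonneg hl4.le n4) (mul_nonneg hk.le (sq_nonneg a)),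
      ENNReal.ofReal_mul hl2.le, ENNReal.ofReal_mul (mul_nonneg (by linarith) ha),
      ENNReal.ofReal_mul (by positivity : (0 : ℝ) ≤ 9 * lam ^ 4 / 1000),
      ENNReal.ofReal_mul hl4.le] at h
    refine le_trans (le_of_eq ?_) ((mul_le_mul_right h
      (ENNReal.ofReal (gwWeight p (n + 1) t))).trans (le_of_eq ?_))
    · ring
    · ring
  have hA0 : A 0 ≠ ∞ := by simp [hA, gwE_zero_eq]
  have hB0 : B 0 ≠ ∞ := by simp [hB, gwE_zero_eq]
  have hfin : ∀ n, F (n + 1) ≠ ∞ → A (n + 1) ≠ ∞ ∧ B (n + 1) ≠ ∞ := by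
    intro n hn
    have h := hstep n 1 zero_le_one
    have htop : F (n + 1) + ENNReal.ofReal (kap * 1 ^ 2) ≠ ∞ :=
      ENNReal.add_ne_top.2 ⟨hn, ENNReal.ofReal_ne_top⟩
    have h' := ne_top_of_le_ne_top htop h
    rw [ENNReal.add_ne_top, ENNReal.add_ne_top] at h'
    refine ⟨fun hh => h'.1.1 ?_, fun hh => h'.1.2 ?_⟩
    · rw [hh, ENNReal.mul_top (by simpa [c2] using hl0.ne)]
    · rw [hh, ENNReal.mul_top (by simp; positivity)]
  have hFfin : ∀ n, F (n + 1) ≠ ∞ := by
    intro n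
    induction n with
    | zero =>
      exact ne_top_of_le_ne_top (ENNReal.add_ne_top.2 ⟨ENNReal.mul_ne_top ENNReal.ofReal_ne_top hA0,
        ENNReal.mul_ne_top ENNReal.ofReal_ne_top (ENNReal.pow_ne_top hB0)⟩) (hrec 0)
    | succ n ih =>
      obtain ⟨a1, a2⟩ := hfin n ih
      exact ne_top_of_le_ne_top (ENNReal.add_ne_top.2 ⟨ENNReal.mul_ne_top ENNReal.ofReal_ne_top a1,
        ENNReal.mul_ne_top ENNReal.ofReal_ne_top (ENNReal.pow_ne_top a2)⟩) (hrec (n + 1))
  have hdec : ∀ n, F (n + 2) + η * X (n + 1) ≤ F (n + 1) := by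
    intro n
    obtain ⟨a1, a2⟩ := hfin n (hFfin n)
    have h := hstep n (B (n + 1)).toReal ENNReal.toReal_nonneg
    rw [ENNReal.ofReal_mul (by linarith : (0 : ℝ) ≤ 2 * kap), ENNReal.ofReal_mul zero_le_two,
      ENNReal.ofReal_mul hk.le, ENNReal.ofReal_pow ENNReal.toReal_nonneg,
      ENNReal.ofReal_toReal a2] at h
    have h2 : (ENNReal.ofReal 2 : ℝ≥0∞) = 2 := by norm_num
    rw [h2] at h
    have hc : κ * B (n + 1) ^ 2 ≠ ∞ :=
      ENNReal.mul_ne_top ENNReal.ofReal_ne_top (ENNReal.pow_ne_top a2)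
    refine ENNReal.le_of_add_le_add_right hc (le_trans ?_ h)
    calc F (n + 2) + η * X (n + 1) + κ * B (n + 1) ^ 2
        ≤ c2 * A (n + 1) + κ * B (n + 1) ^ 2 + η * X (n + 1) + κ * B (n + 1) ^ 2 :=
          add_le_add (add_le_add (hrec (n + 1)) le_rfl) le_rfl
      _ = _ := by ring
  have tele : ∀ N, (∑ n ∈ Finset.range N, η * X (n + 1)) + F (N + 1) ≤ F 1 := by
    intro N
    induction N with
    | zero => simp
    | succ N ih =>
      rw [Finset.sum_range_succ, add_assoc]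
      exact le_trans (add_le_add le_rfl ((add_comm _ _).trans_le (hdec N))) ih
  have hsum : ∑' n, η * X (n + 1) ≠ ∞ := by
    refine ne_top_of_le_ne_top (hFfin 0) ?_
    rw [ENNReal.tsum_eq_iSup_nat]
    exact iSup_le fun N => le_trans le_self_add (tele N)
  have hX0 : Tendsto (fun n => X (n + 1)) atTop (𝓝 0) := by
    have hne : η ≠ 0 := by simp [η]; positivity
    rw [ENNReal.tsum_mul_left] at hsum
    exact ENNReal.tendsto_atTop_zero_of_tsum_ne_top fun h => hsum (by rw [h, ENNReal.mul_top hne])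
  refine aGW_tendsto_zero (by norm_num) h0' h1.le hp hp1 ?_
  rw [← tendsto_add_atTop_iff_nat 1, ENNReal.tendsto_nhds_zero]
  intro δ hδ
  obtain ⟨r, hr, hrδ⟩ : ∃ r : ℝ, 0 < r ∧ ENNReal.ofReal r ≤ δ := by
    rcases eq_or_ne δ ∞ with rfl | hne
    · exact ⟨1, one_pos, le_top⟩
    · exact ⟨δ.toReal, ENNReal.toReal_pos hδ.ne' hne, ENNReal.ofReal_toReal_le⟩
  have h2 := ENNReal.Tendsto.const_mul hX0 (a := ENNReal.ofReal (1 / (2 * r)))
    (Or.inr ENNReal.ofReal_ne_top)
  rw [mul_zero, ENNReal.tendsto_nhds_zero] at h2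
  filter_upwards [h2 (ENNReal.ofReal (r / 2)) (by simp; positivity)] with n hn
  have one := gwE_one hp hp1 (n + 1)
  simp only [gwE, mul_one] at one
  calc gwE p (n + 1) (fun t => ENNReal.ofReal (xTree 3 lam (n + 1) t))
      ≤ ∑' t, ENNReal.ofReal (gwWeight p (n + 1) t) * (ENNReal.ofReal (r / 2)
          + ENNReal.ofReal (1 / (2 * r)) * ENNReal.ofReal (x2T lam (n + 1) t)) := by
        refine ENNReal.tsum_le_tsum fun t => mul_le_mul_right ?_ _
        rw [← ENNReal.ofReal_mul (by positivity), ← ENNReal.ofReal_add (by positivity)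
          (mul_nonneg (by positivity) (x2T_nonneg h0 h1 _ t))]
        refine ENNReal.ofReal_le_ofReal ?_
        have hb : ∀ x : ℝ, x ≤ r / 2 + 1 / (2 * r) * x ^ 2 := fun x => by
          rw [show r / 2 + 1 / (2 * r) * x ^ 2 = (r ^ 2 + x ^ 2) / (2 * r) by field_simp,
            le_div_iff₀ (by positivity)]
          nlinarith [sq_nonneg (x - r)]
        calc xTree 3 lam (n + 1) t = ev (lik (q := 3) lam (n + 1) t) chi := rfl
          _ ≤ ev (lik (q := 3) lam (n + 1) t) (fun y => r / 2 + 1 / (2 * r) * chi y ^ 2) :=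
            Finset.sum_le_sum fun s _ => mul_le_mul_of_nonneg_left (hb _)
              (mass_nonneg (q := 3) (by norm_num) h0' h1.le _ t s)
          _ = _ := by
            simp only [ev, x2T, mul_add, Finset.sum_add_distrib, ← Finset.sum_mul, sum_mass,
              one_mul, Finset.mul_sum]
            congr 1
            exact Finset.sum_congr rfl fun s _ => by ring
    _ ≤ ENNReal.ofReal (r / 2) + ENNReal.ofReal (r / 2) := by
        simp only [mul_add, ENNReal.tsum_add, ENNReal.tsum_mul_right, one, one_mul]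
        refine add_le_add le_rfl (le_trans (le_of_eq ?_) hn)
        simp only [hX, gwE, ← ENNReal.tsum_mul_left]
        exact tsum_congr fun t => by ring
    _ ≤ δ := by
        rw [← ENNReal.ofReal_add (by positivity) (by positivity), add_halves]
        exact hrδ

theorem mu0_le {lam : ℝ} (h : lam ^ 2 ≤ 1 / 10) : -mu0 ≤ lam := by
  unfold mu0
  nlinarith [sq_nonneg (lam + 3163 / 10000)]

/-- Critical nonreconstruction on the `d`-ary tree for `d ≥ 10`. -/
theorem aReg_crit {d : ℕ} (hd : 10 ≤ d) :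
    Tendsto (fun n => aReg 3 d (-(1 / Real.sqrt d)) n) atTop (𝓝 0) := by
  have hd' : (10 : ℝ) ≤ d := by exact_mod_cast hd
  have hs : 0 < Real.sqrt d := Real.sqrt_pos.2 (by linarith)
  have e2 : (-(1 / Real.sqrt d)) ^ 2 = 1 / (d : ℝ) := by
    rw [neg_sq, div_pow, one_pow, Real.sq_sqrt (by linarith)]
  have hsum : ∀ g : ℕ → ℝ≥0∞, ∑' k, ENNReal.ofReal (dirac d k) * g k = g d := by
    intro g
    rw [tsum_eq_single d fun k hk => by simp [dirac, hk]]
    simp [dirac]
  have hlam : -(1 / Real.sqrt d) < 0 := neg_neg_of_pos (by positivity)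
  simp only [← aGW_dirac]
  refine aGW_zero_of_log (mu0_le ?_) hlam (fun k => by unfold dirac; split_ifs <;> norm_num)
    (by simpa using hsum fun _ => 1) ?_ ?_
  · rw [e2]; exact one_div_le_one_div_of_le (by norm_num) hd'
  · rw [hsum, e2, ← ENNReal.ofReal_natCast, ← ENNReal.ofReal_mul (by positivity)]
    refine ENNReal.ofReal_le_one.2 (le_of_eq ?_)
    field_simp
  · rw [hsum, show (-(1 / Real.sqrt d)) ^ 4 = ((-(1 / Real.sqrt d)) ^ 2) ^ 2 by ring, e2,
      ← ENNReal.ofReal_natCast, ← ENNReal.ofReal_mul (by positivity)]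
    refine ENNReal.ofReal_le_one.2 ?_
    have : ((d * d - d : ℕ) : ℝ) ≤ (d : ℝ) ^ 2 := by
      rw [sq]; exact_mod_cast Nat.sub_le _ _
    calc (1 / (d : ℝ)) ^ 2 * ((d * d - d : ℕ) : ℝ) ≤ (1 / (d : ℝ)) ^ 2 * (d : ℝ) ^ 2 :=
          mul_le_mul_of_nonneg_left this (sq_nonneg _)
      _ = 1 := by field_simp

/-- Critical nonreconstruction on Poisson trees for real `d ≥ 10`. -/
theorem aPois_crit {d : ℝ} (hd : 10 ≤ d) :
    Tendsto (fun n => aGW 3 (poisWeight d) (-(1 / Real.sqrt d)) n) atTop (𝓝 0) := by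
  have hd0 : 0 ≤ d := by linarith
  have hs : 0 < Real.sqrt d := Real.sqrt_pos.2 (by linarith)
  have e2 : (-(1 / Real.sqrt d)) ^ 2 = 1 / d := by
    rw [neg_sq, div_pow, one_pow, Real.sq_sqrt hd0]
  have hlam : -(1 / Real.sqrt d) < 0 := neg_neg_of_pos (by positivity)
  refine aGW_zero_of_log (mu0_le ?_) hlam (poisWeight_nonneg hd0) (tsum_poisWeight hd0) ?_ ?_
  · rw [e2]; exact one_div_le_one_div_of_le (by norm_num) hd
  · rw [tsum_poisWeight_mul hd0, e2, ← ENNReal.ofReal_mul (by positivity)]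
    refine ENNReal.ofReal_le_one.2 (le_of_eq ?_)
    field_simp
  · rw [tsum_poisWeight_fac hd0, show (-(1 / Real.sqrt d)) ^ 4 = ((-(1 / Real.sqrt d)) ^ 2) ^ 2
      by ring, e2, ← ENNReal.ofReal_mul (by positivity)]
    refine ENNReal.ofReal_le_one.2 (le_of_eq ?_)
    field_simp

end Vale.P154.AF
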