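import Vale.Agent.P154.Fold
import Vale.Agent.P154.AFDef

/-!
# Additivity of the logarithmic moments on trees with three colours

Given the root colour `i`, the difference of the two other log likelihoods has mean zero and
vanishing third moment, and it is a sum over the children. So its second moment is additive and
its fourth moment is additive up to the products of second moments; the symmetrised divergence is
additive.
-/

noncomputable section

namespace Vale.P154.AF

open Finset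

/-- The first colour after `i`. -/
def nx (i : Fin 3) : Fin 3 := i + 1

/-- The second colour after `i`. -/
def nx2 (i : Fin 3) : Fin 3 := i + 2

/-- The difference of the other two log likelihoods. -/
def Dl (l : Fin 3 → ℝ) (i : Fin 3) : ℝ := Real.log (l (nx i)) - Real.log (l (nx2 i))

/-- The log likelihood of `i` against the other two. -/
def Ll (l : Fin 3 → ℝ) (i : Fin 3) : ℝ :=
  2 * Real.log (l i) - Real.log (l (nx i)) - Real.log (l (nx2 i))

/-- The homogeneous form of the potential. -/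
def psi (l : Fin 3 → ℝ) : ℝ :=
  4 * (∑ i, l i * Ll l i) - (∑ i, l i * Dl l i ^ 2) + kap * ∑ i, l i * Dl l i ^ 4

/-- The homogeneous form of the second moment. -/
def qh (l : Fin 3 → ℝ) : ℝ := ∑ i, l i * Dl l i ^ 2

/-- The potential of a centred likelihood ratio. -/
def Gy (y : Fin 3 → ℝ) : ℝ := GG (y 0) (y 1) (y 2)

/-- The second moment of a centred likelihood ratio. -/
def Qy (y : Fin 3 → ℝ) : ℝ := QQ (y 0) (y 1) (y 2)

theorem rel_pos_eq {l : Fin 3 → ℝ} (hl : ∀ i, 0 < l i) (i : Fin 3) :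
    Real.log (1 + rel l i) = Real.log (l i) - Real.log ((∑ j, l j) / 3) := by
  have hs : 0 < ∑ j, l j := Finset.sum_pos (fun j _ => hl j) ⟨0, Finset.mem_univ 0⟩
  rw [← Real.log_div (hl i).ne' (by positivity)]
  congr 1
  simp only [rel]
  push_cast
  field_simp
  ring

theorem psi_eq {l : Fin 3 → ℝ} (hl : ∀ i, 0 < l i) :
    psi l = ((∑ i, l i) / 3) * Gy (rel l) ∧ qh l = ((∑ i, l i) / 3) * Qy (rel l) := by
  have hs : 0 < ∑ j, l j := Finset.sum_pos (fun j _ => hl j) ⟨0, Finset.mem_univ 0⟩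
  have hv : ∀ i, 1 + rel l i = 3 * l i / ∑ j, l j := fun i => by
    simp only [rel]; push_cast; ring
  have hz : ∀ i, rel l i = 3 * l i / (∑ j, l j) - 1 := fun i => by simp [rel]
  constructor
  · simp only [psi, Gy, GG, gf, rel_pos_eq hl]
    simp only [hv, hz, Fin.sum_univ_three, Ll, Dl, nx, nx2, ps, Fin.reduceAdd] at hs ⊢
    field_simp
    ring
  · simp only [qh, Qy, QQ, qf, rel_pos_eq hl]
    simp only [hv, Fin.sum_univ_three, Dl, nx, nx2, Fin.reduceAdd] at hs ⊢
    field_simp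
    ring

/-- Moments of a sum of independent terms with zero first and third moments. -/
theorem moments : ∀ {k : ℕ} {S : Fin k → Type} [∀ c, Fintype (S c)] (w a : ∀ c, S c → ℝ),
    (∀ c, ∑ x, w c x = 1) → (∀ c, ∑ x, w c x * a c x = 0) → (∀ c, ∑ x, w c x * a c x ^ 3 = 0) →
    (∑ s : (∀ c, S c), (∏ c, w c (s c)) * (∑ c, a c (s c)) = 0) ∧
    (∑ s : (∀ c, S c), (∏ c, w c (s c)) * (∑ c, a c (s c)) ^ 2 = ∑ c, ∑ x, w c x * a c x ^ 2) ∧
    (∑ s : (∀ c, S c), (∏ c, w c (s c)) * (∑ c, a c (s c)) ^ 4 =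
      (∑ c, ∑ x, w c x * a c x ^ 4) + 3 * ((∑ c, ∑ x, w c x * a c x ^ 2) ^ 2
        - ∑ c, (∑ x, w c x * a c x ^ 2) ^ 2))
  | 0, S, _, w, a, _, _, _ => by simp
  | k + 1, S, _, w, a, h1, ha, ha3 => by
      obtain ⟨i1, i2, i4⟩ := moments (fun c => w c.succ) (fun c => a c.succ) (fun c => h1 _)
        (fun c => ha _) (fun c => ha3 _)
      have hP : ∑ r : (∀ c : Fin k, S c.succ), ∏ c, w c.succ (r c) = 1 := by
        rw [← Fintype.prod_sum]
        simp [h1]
      have split : ∀ F : ℝ → ℝ → ℝ,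
          ∑ s : (∀ c, S c), (∏ c, w c (s c)) * F (a 0 (s 0)) (∑ c : Fin k, a c.succ (s c.succ)) =
          ∑ x, ∑ r : (∀ c : Fin k, S c.succ),
            w 0 x * (∏ c, w c.succ (r c)) * F (a 0 x) (∑ c, a c.succ (r c)) := by
        intro F
        rw [← Equiv.sum_comp (Fin.consEquiv S), Fintype.sum_prod_type]
        simp [Fin.consEquiv, Fin.prod_univ_succ]
      have fac : ∀ f g : ℝ → ℝ,
          ∑ x, ∑ r : (∀ c : Fin k, S c.succ),
            w 0 x * (∏ c, w c.succ (r c)) * (f (a 0 x) * g (∑ c, a c.succ (r c))) =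
          (∑ x, w 0 x * f (a 0 x)) *
            ∑ r : (∀ c : Fin k, S c.succ), (∏ c, w c.succ (r c)) * g (∑ c, a c.succ (r c)) := by
        intro f g
        rw [Finset.sum_mul_sum]
        exact Finset.sum_congr rfl fun x _ => Finset.sum_congr rfl fun r _ => by ring
      simp only [Fin.sum_univ_succ]
      refine ⟨?_, ?_, ?_⟩
      · rw [split fun u v => u + v]
        have e : ∀ (x : S 0) (r : ∀ c : Fin k, S c.succ),
            w 0 x * (∏ c, w c.succ (r c)) * (a 0 x + ∑ c, a c.succ (r c)) =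
            w 0 x * (∏ c, w c.succ (r c)) * (a 0 x * 1) +
              w 0 x * (∏ c, w c.succ (r c)) * (1 * ∑ c, a c.succ (r c)) := fun x r => by ring
        simp only [e, Finset.sum_add_distrib]
        rw [fac (fun u => u) fun _ => 1, fac (fun _ => 1) fun v => v]
        simp [ha, h1, hP, i1]
      · rw [split fun u v => (u + v) ^ 2]
        have e : ∀ u v : ℝ, (u + v) ^ 2 = u ^ 2 * 1 + u * (2 * v) + 1 * v ^ 2 := fun u v => by ring
        simp only [e, mul_add, Finset.sum_add_distrib]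
        rw [fac (fun u => u ^ 2) fun _ => 1, fac (fun u => u) fun v => 2 * v,
          fac (fun _ => 1) fun v => v ^ 2]
        simp [ha, h1, hP, i2]
      · rw [split fun u v => (u + v) ^ 4]
        have e : ∀ u v : ℝ, (u + v) ^ 4 = u ^ 4 * 1 + u ^ 3 * (4 * v) + u ^ 2 * (6 * v ^ 2)
            + u * (4 * v ^ 3) + 1 * v ^ 4 := fun u v => by ring
        simp only [e, mul_add, Finset.sum_add_distrib]
        rw [fac (fun u => u ^ 4) fun _ => 1, fac (fun u => u ^ 3) fun v => 4 * v,
          fac (fun u => u ^ 2) fun v => 6 * v ^ 2, fac (fun u => u) fun v => 4 * v ^ 3,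
          fac (fun _ => 1) fun v => v ^ 4]
        have e6 : ∑ r : (∀ c : Fin k, S c.succ),
            (∏ c, w c.succ (r c)) * (6 * (∑ c, a c.succ (r c)) ^ 2)
            = 6 * ∑ c : Fin k, ∑ x, w c.succ x * a c.succ x ^ 2 := by
          rw [← i2, Finset.mul_sum]
          exact Finset.sum_congr rfl fun r _ => by ring
        simp [ha, ha3, h1, hP, i4, e6]
        ring

/-- Sum of the terms of independent families. -/
theorem mean_sum {k : ℕ} {S : Fin k → Type} [∀ c, Fintype (S c)] (w b : ∀ c, S c → ℝ)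
    (h1 : ∀ c, ∑ x, w c x = 1) :
    ∑ s : (∀ c, S c), (∏ c, w c (s c)) * (∑ c, b c (s c)) = ∑ c, ∑ x, w c x * b c x := by
  simp only [Finset.mul_sum]
  rw [Finset.sum_comm]
  refine Finset.sum_congr rfl fun c₀ _ => ?_
  have e : ∀ s : (∀ c, S c), (∏ c, w c (s c)) * b c₀ (s c₀) =
      ∏ c, w c (s c) * if c = c₀ then b c (s c) else 1 := by
    intro s
    rw [Finset.prod_mul_distrib, Finset.prod_ite_eq' Finset.univ c₀ fun c => b c (s c)]
    simp
  simp only [e, ← Fintype.prod_sum (fun c x => w c x * if c = c₀ then b c x else 1)]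
  rw [Finset.prod_eq_single c₀]
  · simp
  · intro c _ hc; simp [hc, h1]
  · simp

variable {lam : ℝ}

/-- Positivity after one edge. -/
theorem chan_pos (h0 : -(1 / 2) < lam) (h1 : lam < 1) {l : Fin 3 → ℝ} (hl : ∀ i, 0 ≤ l i)
    (hs : 0 < ∑ i, l i) (i : Fin 3) : 0 < chan lam l i := by
  simp only [chan, potts_mul]
  push_cast
  have : l i ≤ ∑ j, l j := Finset.single_le_sum (fun j _ => hl j) (Finset.mem_univ i)
  rcases le_total 0 lam with h | h
  · nlinarith [mul_nonneg h (hl i), mul_pos (sub_pos.2 h1) hs]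
  · nlinarith [mul_le_mul_of_nonpos_left this h, mul_pos (by linarith : (0 : ℝ) < 1 + 2 * lam) hs]

theorem lik_sum_pos (h0 : -(1 / 2) < lam) (h1 : lam < 1) : ∀ (n : ℕ) (t : PTree n)
    (s : Cfg 3 n t), 0 < ∑ i, lik (q := 3) lam n t s i
  | 0, t, s => by
      show 0 < ∑ i, (if id (α := Fin 3) s = i then (1 : ℝ) else 0)
      simp
  | n + 1, t, s => by
      refine Finset.sum_pos (fun i _ => Finset.prod_pos fun c _ => ?_) ⟨0, Finset.mem_univ 0⟩
      exact chan_pos h0 h1 (lik_nonneg (q := 3) (by norm_num) (by norm_num; linarith) h1.le n _ _)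
        (lik_sum_pos h0 h1 n (t.2 c) (s c)) i

/-- The likelihood of the observations below a child given the colour of the parent. -/
def upv (lam : ℝ) (n : ℕ) (t : PTree n) (s : Cfg 3 n t) : Fin 3 → ℝ :=
  chan lam (lik lam n t s)

theorem upv_pos (h0 : -(1 / 2) < lam) (h1 : lam < 1) (n : ℕ) (t : PTree n) (s : Cfg 3 n t)
    (i : Fin 3) : 0 < upv lam n t s i :=
  chan_pos h0 h1 (lik_nonneg (q := 3) (by norm_num) (by norm_num; linarith) h1.le n t s)
    (lik_sum_pos h0 h1 n t s) i

theorem sum_upv (lam : ℝ) (n : ℕ) (t : PTree n) (i : Fin 3) :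
    ∑ s, upv lam n t s i = 1 := by
  simp only [upv, chan]
  rw [Finset.sum_comm]
  simp [← Finset.mul_sum, sum_lik, sum_potts]

theorem sum_upv_perm (lam : ℝ) (n : ℕ) (t : PTree n) (π : Equiv.Perm (Fin 3))
    (f : (Fin 3 → ℝ) → ℝ) :
    ∑ s, f (fun i => upv lam n t s (π i)) = ∑ s, f (upv lam n t s) := by
  refine Eq.trans ?_ (sum_lik_perm lam π n t fun l => f (chan lam l))
  refine Finset.sum_congr rfl fun s _ => congrArg f (funext fun i => ?_)
  simp only [upv, chan]
  rw [← Equiv.sum_comp π fun j => potts 3 lam (π i) j * lik lam n t s j]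
  simp [potts_perm]

/-- The conditional moment of the difference of the other two log likelihoods. -/
def mom (lam : ℝ) (n : ℕ) (t : PTree n) (j : ℕ) (i : Fin 3) : ℝ :=
  ∑ s, upv lam n t s i * Dl (upv lam n t s) i ^ j

theorem nx_swap (i : Fin 3) : Equiv.swap (nx i) (nx2 i) i = i := by revert i; decide

theorem mom_odd (lam : ℝ) (n : ℕ) (t : PTree n) (i : Fin 3) {j : ℕ} (hj : Odd j) :
    mom lam n t j i = 0 := by
  have h := sum_upv_perm lam n t (Equiv.swap (nx i) (nx2 i)) fun l => l i * Dl l i ^ j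
  have e : ∀ s, upv lam n t s (Equiv.swap (nx i) (nx2 i) i) *
      Dl (fun a => upv lam n t s (Equiv.swap (nx i) (nx2 i) a)) i ^ j
      = -(upv lam n t s i * Dl (upv lam n t s) i ^ j) := by
    intro s
    rw [nx_swap]
    simp only [Dl, Equiv.swap_apply_left, Equiv.swap_apply_right]
    rw [← neg_sub (Real.log (upv lam n t s (nx i))), hj.neg_pow, mul_neg]
  simp only [e, Finset.sum_neg_distrib] at h
  unfold mom
  linarith

theorem mom_const (lam : ℝ) (n : ℕ) (t : PTree n) (j : ℕ) (i : Fin 3) :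
    mom lam n t j i = mom lam n t j 0 := by
  have h := sum_upv_perm lam n t (Equiv.addRight i) fun l => l 0 * Dl l 0 ^ j
  unfold mom
  rw [← h]
  refine Finset.sum_congr rfl fun s _ => ?_
  simp only [Dl, Equiv.coe_addRight, nx, nx2, zero_add]
  rw [add_comm 1 i, add_comm 2 i]

/-- The expected potential of a tree. -/
def gT (lam : ℝ) (n : ℕ) (t : PTree n) : ℝ := ∑ s : Cfg 3 n t, psi (lik lam n t s)

/-- The expected potential of a tree after one edge. -/
def glT (lam : ℝ) (n : ℕ) (t : PTree n) : ℝ := ∑ s, psi (upv lam n t s)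

/-- The expected second moment of a tree after one edge. -/
def qlT (lam : ℝ) (n : ℕ) (t : PTree n) : ℝ := ∑ s, qh (upv lam n t s)

theorem qlT_eq (lam : ℝ) (n : ℕ) (t : PTree n) : qlT lam n t = 3 * mom lam n t 2 0 := by
  simp only [qlT, qh]
  rw [Finset.sum_comm]
  show ∑ i, mom lam n t 2 i = _
  rw [Fin.sum_univ_three, mom_const lam n t 2 1, mom_const lam n t 2 2]
  ring

theorem sq_sum_sub {α : Type} [Fintype α] [DecidableEq α] (f : α → ℝ) :
    (∑ c, f c) ^ 2 - ∑ c, f c ^ 2 = ∑ e ∈ (univ : Finset α).offDiag, f e.1 * f e.2 := by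
  rw [sq, Finset.sum_mul_sum, ← Finset.sum_product', ← Finset.diag_union_offDiag,
    Finset.sum_union (Finset.disjoint_diag_offDiag _), Finset.sum_diag]
  simp [sq]

/-- Additivity at a node. -/
theorem gT_succ (h0 : -(1 / 2) < lam) (h1 : lam < 1) (n k : ℕ) (ch : Fin k → PTree n) :
    gT lam (n + 1) ⟨k, ch⟩ = (∑ c, glT lam n (ch c)) +
      kap * ∑ e ∈ (univ : Finset (Fin k)).offDiag, qlT lam n (ch e.1) * qlT lam n (ch e.2) := by
  let S := fun c => Cfg 3 n (ch c)
  let U : (∀ c, S c) → Fin 3 → ℝ := fun s i => ∏ c, upv lam n (ch c) (s c) i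
  have hlog : ∀ (s : ∀ c, S c) i, Real.log (U s i) = ∑ c, Real.log (upv lam n (ch c) (s c) i) :=
    fun s i => Real.log_prod fun c _ => (upv_pos h0 h1 n _ _ i).ne'
  have hD : ∀ (s : ∀ c, S c) i, Dl (U s) i = ∑ c, Dl (upv lam n (ch c) (s c)) i := by
    intro s i; simp only [Dl, hlog, Finset.sum_sub_distrib]
  have hL : ∀ (s : ∀ c, S c) i, Ll (U s) i = ∑ c, Ll (upv lam n (ch c) (s c)) i := by
    intro s i; simp only [Ll, hlog, Finset.sum_sub_distrib, Finset.mul_sum]
  have m := fun i => moments (fun c x => upv lam n (ch c) x i) (fun c x => Dl (upv lam n (ch c) x) i)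
    (fun c => sum_upv lam n (ch c) i)
    (fun c => by simpa [mom] using mom_odd lam n (ch c) i (j := 1) odd_one)
    (fun c => mom_odd lam n (ch c) i (j := 3) (by decide))
  show ∑ s : (∀ c, S c), psi (U s) = _
  simp only [psi, Finset.sum_add_distrib, Finset.sum_sub_distrib, ← Finset.mul_sum]
  rw [Finset.sum_comm (f := fun (s : ∀ c, S c) i => U s i * Ll (U s) i),
    Finset.sum_comm (f := fun (s : ∀ c, S c) i => U s i * Dl (U s) i ^ 2),
    Finset.sum_comm (f := fun (s : ∀ c, S c) i => U s i * Dl (U s) i ^ 4)]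
  simp only [hD, hL, U]
  have e1 : ∀ i, ∑ s : (∀ c, S c), (∏ c, upv lam n (ch c) (s c) i) *
      (∑ c, Ll (upv lam n (ch c) (s c)) i) = ∑ c, ∑ x, upv lam n (ch c) x i *
        Ll (upv lam n (ch c) x) i := fun i =>
    mean_sum (fun c x => upv lam n (ch c) x i) (fun c x => Ll (upv lam n (ch c) x) i)
      fun c => sum_upv lam n (ch c) i
  have e2 : ∀ i, ∑ s : (∀ c, S c), (∏ c, upv lam n (ch c) (s c) i) *
      (∑ c, Dl (upv lam n (ch c) (s c)) i) ^ 2 = ∑ c, ∑ x, upv lam n (ch c) x i *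
        Dl (upv lam n (ch c) x) i ^ 2 := fun i => (m i).2.1
  have e4 : ∀ i, ∑ s : (∀ c, S c), (∏ c, upv lam n (ch c) (s c) i) *
      (∑ c, Dl (upv lam n (ch c) (s c)) i) ^ 4 = (∑ c, ∑ x, upv lam n (ch c) x i *
        Dl (upv lam n (ch c) x) i ^ 4) + 3 * ((∑ c, ∑ x, upv lam n (ch c) x i *
        Dl (upv lam n (ch c) x) i ^ 2) ^ 2 - ∑ c, (∑ x, upv lam n (ch c) x i *
        Dl (upv lam n (ch c) x) i ^ 2) ^ 2) := fun i => (m i).2.2
  simp only [e1, e2, e4]
  simp only [glT, psi, Finset.sum_add_distrib, Finset.sum_sub_distrib, ← Finset.mul_sum]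
  rw [← sq_sum_sub fun c => qlT lam n (ch c)]
  have hq : ∀ c i, ∑ x, upv lam n (ch c) x i * Dl (upv lam n (ch c) x) i ^ 2
      = qlT lam n (ch c) / 3 := by
    intro c i
    show mom lam n (ch c) 2 i = _
    rw [qlT_eq, mom_const]; ring
  simp only [hq, Fin.sum_univ_three]
  simp only [← Finset.sum_div, div_pow, Finset.sum_add_distrib, hq]
  ring

end Vale.P154.AF
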