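import Mathlib

/-!
# Fixed point second order Taylor models in two variables

A model encloses a real number `r` at a point `(x, y)` of the square `|x|, |y| ≤ 1`:
`|2^48 * r - polynomial (x, y)| ≤ e`.
-/



namespace Vale.P154.AF

/-- The scale. -/
def P : ℤ := Int.ofNat 281474976710656

theorem P_pos : (0 : ℝ) < (P : ℝ) := by norm_num [P]

/-- A second order model. -/
structure TM where
  c0 : ℤ
  c1 : ℤ
  c2 : ℤ
  c11 : ℤ
  c12 : ℤ
  c22 : ℤ
  e : ℤ

namespace TM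

/-- The polynomial part. -/
noncomputable def val (t : TM) (x y : ℝ) : ℝ :=
  t.c0 + t.c1 * x + t.c2 * y + t.c11 * x ^ 2 + t.c12 * (x * y) + t.c22 * y ^ 2

/-- The enclosure predicate. -/
def Holds (t : TM) (x y r : ℝ) : Prop := |(P : ℝ) * r - t.val x y| ≤ t.e

variable {x y r s : ℝ} {t u : TM}

/-- An integer. -/
def int (n : ℤ) : TM := ⟨n * P, 0, 0, 0, 0, 0, 0⟩

theorem holds_int (n : ℤ) : Holds (int n) x y n := by
  simp [Holds, val, int, mul_comm]

/-- Sum. -/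
def add (t u : TM) : TM :=
  ⟨t.c0 + u.c0, t.c1 + u.c1, t.c2 + u.c2, t.c11 + u.c11, t.c12 + u.c12, t.c22 + u.c22, t.e + u.e⟩

theorem Holds.add (ht : Holds t x y r) (hu : Holds u x y s) :
    Holds (TM.add t u) x y (r + s) := by
  simp only [Holds, val, TM.add] at *
  push_cast
  rw [abs_le] at *
  constructor <;> linarith

/-- Negation. -/
def neg (t : TM) : TM := ⟨-t.c0, -t.c1, -t.c2, -t.c11, -t.c12, -t.c22, t.e⟩

theorem Holds.neg (ht : Holds t x y r) : Holds (TM.neg t) x y (-r) := by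
  simp only [Holds, val, TM.neg] at *
  push_cast
  rw [abs_le] at *
  constructor <;> linarith

/-- Difference. -/
def sub (t u : TM) : TM :=
  ⟨t.c0 - u.c0, t.c1 - u.c1, t.c2 - u.c2, t.c11 - u.c11, t.c12 - u.c12, t.c22 - u.c22, t.e + u.e⟩

theorem Holds.sub (ht : Holds t x y r) (hu : Holds u x y s) :
    Holds (TM.sub t u) x y (r - s) := by
  simp only [Holds, val, TM.sub] at *
  push_cast
  rw [abs_le] at *
  constructor <;> linarith

/-- Absolute value, in a form the kernel evaluates quickly. -/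
def ab (a : ℤ) : ℤ := Int.ofNat a.natAbs

@[simp] theorem ab_eq (a : ℤ) : ab a = |a| := by simp [ab]

/-- Ceiling of a quotient. -/
def cdiv (a b : ℤ) : ℤ := a / b + 1

theorem floor_div (a : ℤ) {b : ℤ} (hb : 0 < b) :
    (a : ℝ) / b - 1 ≤ ((a / b : ℤ) : ℝ) ∧ ((a / b : ℤ) : ℝ) ≤ (a : ℝ) / b := by
  have h1 := Int.emod_nonneg a hb.ne'
  have h2 := Int.emod_lt_of_pos a hb
  have h3 : b * (a / b) + a % b = a := Int.mul_ediv_add_emod a b
  have hb' : (0 : ℝ) < b := by exact_mod_cast hb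
  have h1' : (0 : ℝ) ≤ ((a % b : ℤ) : ℝ) := by exact_mod_cast h1
  have h2' : ((a % b : ℤ) : ℝ) ≤ b := by exact_mod_cast h2.le
  have h3' : (b : ℝ) * ((a / b : ℤ) : ℝ) + ((a % b : ℤ) : ℝ) = a := by exact_mod_cast h3
  constructor
  · rw [sub_le_iff_le_add, div_le_iff₀ hb']; linarith
  · rw [le_div_iff₀ hb']; linarith

theorem le_cdiv (a : ℤ) {b : ℤ} (hb : 0 < b) : (a : ℝ) / b ≤ ((cdiv a b : ℤ) : ℝ) := by
  have := (floor_div a hb).1
  unfold cdiv
  push_cast
  linarith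

/-- Multiplication by `n / d`. -/
def smul (n d : ℤ) (t : TM) : TM :=
  ⟨n * t.c0 / d, n * t.c1 / d, n * t.c2 / d, n * t.c11 / d, n * t.c12 / d, n * t.c22 / d,
    cdiv (ab n * t.e) d + 6⟩

theorem abs_mono (hx : |x| ≤ 1) (hy : |y| ≤ 1) :
    |x ^ 2| ≤ 1 ∧ |x * y| ≤ 1 ∧ |y ^ 2| ≤ 1 := by
  refine ⟨?_, ?_, ?_⟩
  · rw [abs_pow]; exact pow_le_one₀ (abs_nonneg _) hx
  · rw [abs_mul]; exact mul_le_one₀ hx (abs_nonneg _) hy
  · rw [abs_pow]; exact pow_le_one₀ (abs_nonneg _) hy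

theorem round_err (hx : |x| ≤ 1) (hy : |y| ≤ 1) {a0 a1 a2 a3 a4 a5 : ℝ}
    (h0 : |a0| ≤ 1) (h1 : |a1| ≤ 1) (h2 : |a2| ≤ 1) (h3 : |a3| ≤ 1) (h4 : |a4| ≤ 1)
    (h5 : |a5| ≤ 1) :
    |a0 + a1 * x + a2 * y + a3 * x ^ 2 + a4 * (x * y) + a5 * y ^ 2| ≤ 6 := by
  obtain ⟨m1, m2, m3⟩ := abs_mono hx hy
  have k1 : |a1 * x| ≤ 1 := by rw [abs_mul]; exact mul_le_one₀ h1 (abs_nonneg _) hx
  have k2 : |a2 * y| ≤ 1 := by rw [abs_mul]; exact mul_le_one₀ h2 (abs_nonneg _) hy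
  have k3 : |a3 * x ^ 2| ≤ 1 := by rw [abs_mul]; exact mul_le_one₀ h3 (abs_nonneg _) m1
  have k4 : |a4 * (x * y)| ≤ 1 := by rw [abs_mul]; exact mul_le_one₀ h4 (abs_nonneg _) m2
  have k5 : |a5 * y ^ 2| ≤ 1 := by rw [abs_mul]; exact mul_le_one₀ h5 (abs_nonneg _) m3
  rw [abs_le] at *
  constructor <;> linarith

theorem div_err (a : ℤ) {b : ℤ} (hb : 0 < b) : |(a : ℝ) / b - ((a / b : ℤ) : ℝ)| ≤ 1 := by
  obtain ⟨h1, h2⟩ := floor_div a hb
  rw [abs_le]; constructor <;> linarith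

theorem Holds.smul (hx : |x| ≤ 1) (hy : |y| ≤ 1) (ht : Holds t x y r) (n : ℤ) {d : ℤ}
    (hd : 0 < d) : Holds (TM.smul n d t) x y ((n : ℝ) / d * r) := by
  have hd' : (0 : ℝ) < d := by exact_mod_cast hd
  have key := round_err hx hy (div_err (n * t.c0) hd) (div_err (n * t.c1) hd)
    (div_err (n * t.c2) hd) (div_err (n * t.c11) hd) (div_err (n * t.c12) hd)
    (div_err (n * t.c22) hd)
  have he : |(n : ℝ) / d * ((P : ℝ) * r - t.val x y)| ≤ ((cdiv (|n| * t.e) d : ℤ) : ℝ) := by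
    refine le_trans (le_of_eq ?_) (le_trans (mul_le_mul_of_nonneg_left ht
      (by positivity : (0 : ℝ) ≤ |(n : ℝ)| / d)) ?_)
    · rw [abs_mul, abs_div, abs_of_pos hd']
    · refine le_trans (le_of_eq ?_) (le_cdiv _ hd)
      push_cast
      ring
  simp only [Holds, val, TM.smul, ab_eq] at *
  push_cast at key ⊢
  rw [abs_le] at *
  constructor <;> ring_nf at key he ⊢ <;> linarith

/-- Sum of the absolute values of the coefficients. -/
def mag (t : TM) : ℤ := ab t.c0 + ab t.c1 + ab t.c2 + ab t.c11 + ab t.c12 + ab t.c22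

/-- The linear part of `mag`. -/
def magL (t : TM) : ℤ := ab t.c1 + ab t.c2

/-- The quadratic part of `mag`. -/
def magQ (t : TM) : ℤ := ab t.c11 + ab t.c12 + ab t.c22

theorem abs_lin (hx : |x| ≤ 1) (hy : |y| ≤ 1) (t : TM) :
    |(t.c1 : ℝ) * x + t.c2 * y| ≤ t.magL := by
  refine (abs_add_le _ _).trans ?_
  simp only [magL, ab_eq, abs_mul]
  push_cast
  exact add_le_add (mul_le_of_le_one_right (abs_nonneg _) hx)
    (mul_le_of_le_one_right (abs_nonneg _) hy)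

theorem abs_quad (hx : |x| ≤ 1) (hy : |y| ≤ 1) (t : TM) :
    |(t.c11 : ℝ) * x ^ 2 + t.c12 * (x * y) + t.c22 * y ^ 2| ≤ t.magQ := by
  obtain ⟨m1, m2, m3⟩ := abs_mono hx hy
  refine (abs_add_three _ _ _).trans ?_
  simp only [magQ, ab_eq, abs_mul _ (x ^ 2), abs_mul _ (x * y), abs_mul _ (y ^ 2)]
  push_cast
  exact add_le_add (add_le_add (mul_le_of_le_one_right (abs_nonneg _) m1)
    (mul_le_of_le_one_right (abs_nonneg _) m2)) (mul_le_of_le_one_right (abs_nonneg _) m3)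

theorem abs_val (hx : |x| ≤ 1) (hy : |y| ≤ 1) (t : TM) : |t.val x y| ≤ t.mag := by
  have h1 := abs_lin hx hy t
  have h2 := abs_quad hx hy t
  simp only [val, mag, magL, magQ, ab_eq] at *
  push_cast at *
  rw [abs_le] at h1 h2 ⊢
  have := abs_le.1 (le_refl |(t.c0 : ℝ)|)
  constructor <;> linarith

/-- Product. -/
def mul (t u : TM) : TM :=
  ⟨t.c0 * u.c0 / P, (t.c0 * u.c1 + t.c1 * u.c0) / P, (t.c0 * u.c2 + t.c2 * u.c0) / P,
    (t.c0 * u.c11 + t.c11 * u.c0 + t.c1 * u.c1) / P,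
    (t.c0 * u.c12 + t.c12 * u.c0 + (t.c1 * u.c2 + t.c2 * u.c1)) / P,
    (t.c0 * u.c22 + t.c22 * u.c0 + t.c2 * u.c2) / P,
    cdiv (t.magL * u.magQ + t.magQ * u.magL + t.magQ * u.magQ + t.e * u.mag + u.e * t.mag
      + t.e * u.e) P + 6⟩

theorem e_nonneg (ht : Holds t x y r) : (0 : ℝ) ≤ t.e := (abs_nonneg _).trans ht

theorem Holds.mul (hx : |x| ≤ 1) (hy : |y| ≤ 1) (ht : Holds t x y r) (hu : Holds u x y s) :
    Holds (TM.mul t u) x y (r * s) := by
  have hP : (0 : ℤ) < P := by norm_num [P]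
  have hP' : (0 : ℝ) < (P : ℝ) := P_pos
  have key := round_err hx hy (div_err (t.c0 * u.c0) hP)
    (div_err (t.c0 * u.c1 + t.c1 * u.c0) hP) (div_err (t.c0 * u.c2 + t.c2 * u.c0) hP)
    (div_err (t.c0 * u.c11 + t.c11 * u.c0 + t.c1 * u.c1) hP)
    (div_err (t.c0 * u.c12 + t.c12 * u.c0 + (t.c1 * u.c2 + t.c2 * u.c1)) hP)
    (div_err (t.c0 * u.c22 + t.c22 * u.c0 + t.c2 * u.c2) hP)
  set a := (P : ℝ) * r - t.val x y with ha
  set b := (P : ℝ) * s - u.val x y with hb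
  set Lt := (t.c1 : ℝ) * x + t.c2 * y
  set Qt := (t.c11 : ℝ) * x ^ 2 + t.c12 * (x * y) + t.c22 * y ^ 2
  set Lu := (u.c1 : ℝ) * x + u.c2 * y
  set Qu := (u.c11 : ℝ) * x ^ 2 + u.c12 * (x * y) + u.c22 * y ^ 2
  have bd : ∀ {p q A B : ℝ}, |p| ≤ A → |q| ≤ B → |p * q| ≤ A * B := fun h1 h2 => by
    rw [abs_mul]; exact mul_le_mul h1 h2 (abs_nonneg _) ((abs_nonneg _).trans h1)
  have k1 : |Lt * Qu| ≤ (t.magL : ℝ) * u.magQ := bd (abs_lin hx hy t) (abs_quad hx hy u)
  have k2 : |Qt * Lu| ≤ (t.magQ : ℝ) * u.magL := bd (abs_quad hx hy t) (abs_lin hx hy u)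
  have k3 : |Qt * Qu| ≤ (t.magQ : ℝ) * u.magQ := bd (abs_quad hx hy t) (abs_quad hx hy u)
  have k4 : |a * u.val x y| ≤ (t.e : ℝ) * u.mag := bd ht (abs_val hx hy u)
  have k5 : |b * t.val x y| ≤ (u.e : ℝ) * t.mag := bd hu (abs_val hx hy t)
  have k6 : |a * b| ≤ (t.e : ℝ) * u.e := bd ht hu
  set N : ℤ := t.magL * u.magQ + t.magQ * u.magL + t.magQ * u.magQ + t.e * u.mag + u.e * t.mag
      + t.e * u.e
  have hN : |(Lt * Qu + Qt * Lu + Qt * Qu + a * u.val x y + b * t.val x y + a * b) / (P : ℝ)|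
      ≤ ((cdiv N P : ℤ) : ℝ) := by
    rw [abs_div, abs_of_pos hP']
    refine le_trans (div_le_div_of_nonneg_right ?_ hP'.le) (le_cdiv _ hP)
    rw [abs_le] at k1 k2 k3 k4 k5 k6 ⊢
    simp only [N]
    push_cast
    constructor <;> linarith
  have e : (P : ℝ) * (r * s) - (TM.mul t u).val x y =
      (Lt * Qu + Qt * Lu + Qt * Qu + a * u.val x y + b * t.val x y + a * b) / (P : ℝ) +
      ((((t.c0 * u.c0 : ℤ) : ℝ) / P - ((t.c0 * u.c0 / P : ℤ) : ℝ))
      + (((t.c0 * u.c1 + t.c1 * u.c0 : ℤ) : ℝ) / P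
          - (((t.c0 * u.c1 + t.c1 * u.c0) / P : ℤ) : ℝ)) * x
      + (((t.c0 * u.c2 + t.c2 * u.c0 : ℤ) : ℝ) / P
          - (((t.c0 * u.c2 + t.c2 * u.c0) / P : ℤ) : ℝ)) * y
      + (((t.c0 * u.c11 + t.c11 * u.c0 + t.c1 * u.c1 : ℤ) : ℝ) / P
          - (((t.c0 * u.c11 + t.c11 * u.c0 + t.c1 * u.c1) / P : ℤ) : ℝ)) * x ^ 2
      + (((t.c0 * u.c12 + t.c12 * u.c0 + (t.c1 * u.c2 + t.c2 * u.c1) : ℤ) : ℝ) / P
          - (((t.c0 * u.c12 + t.c12 * u.c0 + (t.c1 * u.c2 + t.c2 * u.c1)) / P : ℤ) : ℝ)) * (x * y)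
      + (((t.c0 * u.c22 + t.c22 * u.c0 + t.c2 * u.c2 : ℤ) : ℝ) / P
          - (((t.c0 * u.c22 + t.c22 * u.c0 + t.c2 * u.c2) / P : ℤ) : ℝ)) * y ^ 2) := by
    simp only [TM.mul, val, ha, hb, Lt, Qt, Lu, Qu]
    push_cast
    field_simp
    ring
  show |(P : ℝ) * (r * s) - (TM.mul t u).val x y| ≤ (((TM.mul t u).e : ℤ) : ℝ)
  rw [e]
  refine (abs_add_le _ _).trans ((add_le_add hN key).trans (le_of_eq ?_))
  simp [TM.mul, N]

/-- A lower bound. -/
def lower (t : TM) : ℤ :=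
  t.c0 - t.e - ab t.c1 - ab t.c2 + min 0 t.c11 - ab t.c12 + min 0 t.c22

theorem Holds.nonneg (hx : |x| ≤ 1) (hy : |y| ≤ 1) (ht : Holds t x y r) (h : 0 ≤ t.lower) :
    0 ≤ r := by
  obtain ⟨m1, m2, m3⟩ := abs_mono hx hy
  have hh : (0 : ℝ) ≤ (t.lower : ℝ) := by exact_mod_cast h
  simp only [lower, ab_eq] at hh
  push_cast at hh
  have a1 : -|(t.c1 : ℝ)| ≤ t.c1 * x :=
    le_trans (neg_le_neg (by rw [abs_mul]; exact mul_le_of_le_one_right (abs_nonneg _) hx))
      (neg_abs_le _)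
  have a2 : -|(t.c2 : ℝ)| ≤ t.c2 * y :=
    le_trans (neg_le_neg (by rw [abs_mul]; exact mul_le_of_le_one_right (abs_nonneg _) hy))
      (neg_abs_le _)
  have a3 : -|(t.c12 : ℝ)| ≤ t.c12 * (x * y) :=
    le_trans (neg_le_neg (by rw [abs_mul (t.c12 : ℝ)]; exact mul_le_of_le_one_right (abs_nonneg _) m2))
      (neg_abs_le _)
  have sq : ∀ (c z : ℝ), 0 ≤ z → z ≤ 1 → min 0 c ≤ c * z := by
    intro c z z0 z1
    rcases le_total 0 c with hc | hc
    · exact (min_le_left _ _).trans (mul_nonneg hc z0)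
    · exact (min_le_right _ _).trans (by nlinarith)
  have a4 := sq (t.c11 : ℝ) (x ^ 2) (sq_nonneg x) (abs_le.1 m1).2
  have a5 := sq (t.c22 : ℝ) (y ^ 2) (sq_nonneg y) (abs_le.1 m3).2
  have := (abs_le.1 ht).1
  simp only [val] at this
  have hP := P_pos
  nlinarith

/-- The first coordinate of the interval `[a, b]`, in units of `2^-48`. -/
def varX (a b : ℤ) : TM := ⟨(a + b) / 2, b - (a + b) / 2, 0, 0, 0, 0, 0⟩

/-- The second coordinate of the interval `[a, b]`, in units of `2^-48`. -/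
def varY (a b : ℤ) : TM := ⟨(a + b) / 2, 0, b - (a + b) / 2, 0, 0, 0, 0⟩

/-- Position of a point in an interval. -/
noncomputable def coord (a b : ℤ) (z : ℝ) : ℝ :=
  if b - (a + b) / 2 = 0 then 0
  else ((P : ℝ) * z - (((a + b) / 2 : ℤ) : ℝ)) / ((b - (a + b) / 2 : ℤ) : ℝ)

theorem coord_spec {a b : ℤ} {z : ℝ} (h0 : (a : ℝ) ≤ (P : ℝ) * z) (h1 : (P : ℝ) * z ≤ b) :
    |coord a b z| ≤ 1 ∧
      (P : ℝ) * z = (((a + b) / 2 : ℤ) : ℝ) + ((b - (a + b) / 2 : ℤ) : ℝ) * coord a b z := by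
  have hab : a ≤ b := by exact_mod_cast h0.trans h1
  have hm : (((a + b) / 2 : ℤ) : ℝ) - a ≤ ((b - (a + b) / 2 : ℤ) : ℝ) := by
    have : (a + b) / 2 - a ≤ b - (a + b) / 2 := by omega
    exact_mod_cast this
  unfold coord
  split_ifs with h
  · refine ⟨by simp, ?_⟩
    have hb : (((b - (a + b) / 2 : ℤ)) : ℝ) = 0 := by exact_mod_cast h
    push_cast at hb hm ⊢
    nlinarith
  · have hw : (0 : ℝ) < ((b - (a + b) / 2 : ℤ) : ℝ) := by
      have : 0 < b - (a + b) / 2 := by omega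
      exact_mod_cast this
    refine ⟨?_, by rw [mul_div_cancel₀ _ hw.ne']; ring⟩
    rw [abs_div, abs_of_pos hw, div_le_one hw, abs_le]
    push_cast at hm ⊢
    constructor <;> linarith

theorem holds_varX {a b : ℤ} {z : ℝ} (h0 : (a : ℝ) ≤ (P : ℝ) * z) (h1 : (P : ℝ) * z ≤ b)
    (y : ℝ) : Holds (varX a b) (coord a b z) y z := by
  obtain ⟨-, e⟩ := coord_spec h0 h1
  simp [Holds, val, varX, e]

theorem holds_varY {a b : ℤ} {z : ℝ} (h0 : (a : ℝ) ≤ (P : ℝ) * z) (h1 : (P : ℝ) * z ≤ b)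
    (x : ℝ) : Holds (varY a b) x (coord a b z) z := by
  obtain ⟨-, e⟩ := coord_spec h0 h1
  simp [Holds, val, varY, e]

/-! ### Logarithms -/

/-- `2^48 * ∑_{i<n} u^i/(k+i)` for `u = a / b`, by Horner's rule, rounded. -/
def horner (a b : ℤ) : ℕ → ℕ → ℤ
  | _, 0 => 0
  | k, n + 1 => P / (Int.ofNat k) + a * horner a b (Nat.succ k) n / b

/-- `2^48 * ∑_{i<n} u^(i+1)/(i+1)` for `u = a / b`, rounded. -/
def logSum (a b : ℤ) (n : ℕ) : ℤ := a * horner a b 1 n / b

theorem horner_err (a : ℤ) {b : ℤ} (hb : 0 < b) (hu : |a| ≤ b) : ∀ (n k : ℕ), 0 < k →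
    |(P : ℝ) * (∑ i ∈ Finset.range n, ((a : ℝ) / b) ^ i / ((k : ℝ) + i)) - (horner a b k n : ℝ)|
      ≤ 2 * n
  | 0, k, _ => by simp [horner]
  | n + 1, k, hk => by
      have hb' : (0 : ℝ) < b := by exact_mod_cast hb
      have hu1 : |(a : ℝ) / b| ≤ 1 := by
        rw [abs_div, abs_of_pos hb', div_le_one hb']; exact_mod_cast hu
      have ih := horner_err a hb hu n (k + 1) (by omega)
      have h1 := div_err P (show (0 : ℤ) < (k : ℤ) by omega)
      have h2 := div_err (a * horner a b (k + 1) n) hb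
      set Z := ∑ i ∈ Finset.range n, ((a : ℝ) / b) ^ i / (((k + 1 : ℕ) : ℝ) + i) with hZ
      have e : ∑ i ∈ Finset.range (n + 1), ((a : ℝ) / b) ^ i / ((k : ℝ) + i) =
          1 / (k : ℝ) + (a : ℝ) / b * Z := by
        rw [Finset.sum_range_succ', hZ, Finset.mul_sum, add_comm]
        congr 1
        · simp
        · refine Finset.sum_congr rfl fun i _ => ?_
          push_cast
          rw [pow_succ]
          ring_nf
      have h3 : |(a : ℝ) / b * ((P : ℝ) * Z - (horner a b (k + 1) n : ℝ))| ≤ 2 * n := by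
        rw [abs_mul]
        exact (mul_le_of_le_one_left (abs_nonneg _) hu1).trans ih
      rw [e]
      simp only [horner, Int.ofNat_eq_natCast, Nat.succ_eq_add_one]
      push_cast at h1 h2 ⊢
      rw [abs_le] at h1 h2 h3 ⊢
      ring_nf at h1 h2 h3 ⊢
      constructor <;> linarith

theorem logSum_err (a : ℤ) {b : ℤ} (hb : 0 < b) (hu : |a| ≤ b) (n : ℕ) :
    |(P : ℝ) * (∑ i ∈ Finset.range n, ((a : ℝ) / b) ^ (i + 1) / (i + 1)) - (logSum a b n : ℝ)|
      ≤ 2 * n + 1 := by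
  have hb' : (0 : ℝ) < b := by exact_mod_cast hb
  have hu1 : |(a : ℝ) / b| ≤ 1 := by
    rw [abs_div, abs_of_pos hb', div_le_one hb']; exact_mod_cast hu
  have ih := horner_err a hb hu n 1 one_pos
  have h2 := div_err (a * horner a b 1 n) hb
  set Z := ∑ i ∈ Finset.range n, ((a : ℝ) / b) ^ i / (((1 : ℕ) : ℝ) + i) with hZ
  have e : ∑ i ∈ Finset.range n, ((a : ℝ) / b) ^ (i + 1) / (i + 1) = (a : ℝ) / b * Z := by
    rw [hZ, Finset.mul_sum]
    refine Finset.sum_congr rfl fun i _ => ?_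
    push_cast
    rw [pow_succ]
    ring
  have h3 : |(a : ℝ) / b * ((P : ℝ) * Z - (horner a b 1 n : ℝ))| ≤ 2 * n := by
    rw [abs_mul]
    exact (mul_le_of_le_one_left (abs_nonneg _) hu1).trans ih
  rw [e]
  simp only [logSum]
  push_cast at h2 ⊢
  rw [abs_le] at h2 h3 ⊢
  ring_nf at h2 h3 ⊢
  constructor <;> linarith

/-- `2^48 * log 2`, rounded. -/
def log2C : ℤ := P * 287209 / 414355

theorem log2C_err : |(P : ℝ) * Real.log 2 - (log2C : ℝ)| ≤ 30000 := by
  have h := abs_le.1 Real.log_two_near_10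
  have e : log2C = 195103586504545 := by norm_num [log2C, P]
  rw [e, abs_le]
  norm_num [P] at h ⊢
  constructor <;> linarith

/-- Bring `a / b` near one by powers of two: `a / b = 2^j * a' / b'`. -/
def normPair : ℕ → ℤ → ℤ → ℤ × ℤ × ℤ
  | 0, a, b => (0, a, b)
  | n + 1, a, b =>
      if 3 * a < 2 * b then
        let r := normPair n (2 * a) b
        (r.1 - 1, r.2.1, r.2.2)
      else if 4 * b < 3 * a then
        let r := normPair n a (2 * b)
        (r.1 + 1, r.2.1, r.2.2)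
      else (0, a, b)

theorem normPair_spec : ∀ (n : ℕ) (a b : ℤ), 0 < a → 0 < b →
    0 < (normPair n a b).2.1 ∧ 0 < (normPair n a b).2.2 ∧
      Real.log ((a : ℝ) / b) = ((normPair n a b).1 : ℝ) * Real.log 2
        + Real.log (((normPair n a b).2.1 : ℝ) / ((normPair n a b).2.2 : ℝ))
  | 0, a, b, ha, hb => by simp [normPair, ha, hb]
  | n + 1, a, b, ha, hb => by
      have ha' : (a : ℝ) ≠ 0 := by exact_mod_cast ha.ne'
      have hb' : (b : ℝ) ≠ 0 := by exact_mod_cast hb.ne'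
      unfold normPair
      split_ifs
      · obtain ⟨h1, h2, h3⟩ := normPair_spec n (2 * a) b (by linarith) hb
        refine ⟨h1, h2, ?_⟩
        push_cast at h3 ⊢
        rw [mul_div_assoc, Real.log_mul two_ne_zero (div_ne_zero ha' hb')] at h3
        linarith
      · obtain ⟨h1, h2, h3⟩ := normPair_spec n a (2 * b) ha (by linarith)
        refine ⟨h1, h2, ?_⟩
        push_cast at h3 ⊢
        rw [mul_comm (2 : ℝ), ← div_div, Real.log_div (div_ne_zero ha' hb') two_ne_zero] at h3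
        linarith
      · simp [ha, hb]

/-- Enclosure of the logarithm of `a / b`. -/
def logConst (a b : ℤ) : Option TM :=
  if 0 < a ∧ 0 < b then
    let r := normPair 20 a b
    let n := r.2.2 - r.2.1
    if ab n < r.2.2 then
      some ⟨r.1 * log2C - logSum n r.2.2 12, 0, 0, 0, 0, 0,
        25 + 30000 * ab r.1 + cdiv (P * ab n ^ 13) (r.2.2 ^ 12 * (r.2.2 - ab n))⟩
    else none
  else none

theorem holds_logConst {a b : ℤ} {t : TM} (h : logConst a b = some t) :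
    0 < a ∧ 0 < b ∧ Holds t x y (Real.log ((a : ℝ) / b)) := by
  unfold logConst at h
  by_cases hab : 0 < a ∧ 0 < b
  swap
  · simp [hab] at h
  simp only [hab, if_true, and_self] at h
  simp only [ab_eq] at h
  by_cases hn : |(normPair 20 a b).2.2 - (normPair 20 a b).2.1| < (normPair 20 a b).2.2
  swap
  · simp [hn] at h
  simp only [hn, if_true] at h
  obtain ⟨hj1, hj2, hj3⟩ := normPair_spec 20 a b hab.1 hab.2
  set r := normPair 20 a b
  simp only [Option.some.injEq] at h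
  subst h
  refine ⟨hab.1, hab.2, ?_⟩
  set n := r.2.2 - r.2.1 with hnd
  have hb' : (0 : ℝ) < (r.2.2 : ℝ) := by exact_mod_cast hj2
  have hu : |(n : ℝ) / r.2.2| < 1 := by
    rw [abs_div, abs_of_pos hb', div_lt_one hb']
    exact_mod_cast hn
  have hm := Real.abs_log_sub_add_sum_range_le hu 12
  have e1 : (1 : ℝ) - (n : ℝ) / r.2.2 = (r.2.1 : ℝ) / r.2.2 := by
    rw [hnd]; push_cast; field_simp; ring
  rw [e1] at hm
  have hs := logSum_err n hj2 hn.le 12
  have hd : 0 < r.2.2 ^ 12 * (r.2.2 - |n|) := mul_pos (pow_pos hj2 _) (by linarith)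
  have hr : (P : ℝ) * (|(n : ℝ) / r.2.2| ^ (12 + 1) / (1 - |(n : ℝ) / r.2.2|)) ≤
      ((cdiv (P * |n| ^ 13) (r.2.2 ^ 12 * (r.2.2 - |n|)) : ℤ) : ℝ) := by
    refine le_trans (le_of_eq ?_) (le_cdiv _ hd)
    have hn' : |(n : ℝ)| < (r.2.2 : ℝ) := by exact_mod_cast hn
    push_cast
    rw [abs_div, abs_of_pos hb', div_pow]
    have : (r.2.2 : ℝ) - |(n : ℝ)| ≠ 0 := by linarith
    field_simp
  have hP := P_pos
  have hm' := mul_le_mul_of_nonneg_left hm hP.le
  have hl := mul_le_mul_of_nonneg_left log2C_err (abs_nonneg (r.1 : ℝ))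
  rw [← abs_mul] at hl
  rw [← abs_of_pos hP, ← abs_mul, abs_of_pos hP] at hm'
  simp only [Holds, val, hj3]
  push_cast at hs ⊢
  rw [abs_le] at hm' hs hl ⊢
  constructor <;> nlinarith

/-- Enclosure of the logarithm of the number enclosed by a model. -/
def log (t : TM) : Option TM :=
  if 0 < t.c0 then
    let h : TM := ⟨0, t.c1 * P / t.c0, t.c2 * P / t.c0, t.c11 * P / t.c0, t.c12 * P / t.c0,
      t.c22 * P / t.c0, cdiv (t.e * P) t.c0 + 6⟩
    let m := h.mag + h.e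
    if m < P then
      match logConst t.c0 P with
      | some L =>
          let s := smul 1 2 (mul h h)
          let R := sub (add L h) s
          some { R with e := R.e + cdiv (m ^ 3) (P * (P - m)) }
      | none => none
    else none
  else none

theorem holds_log (hx : |x| ≤ 1) (hy : |y| ≤ 1) (ht : Holds t x y r) {v : TM}
    (hv : log t = some v) : 0 < r ∧ Holds v x y (Real.log r) := by
  unfold log at hv
  by_cases hc : 0 < t.c0
  swap
  · simp [hc] at hv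
  simp only [hc, if_true] at hv
  split at hv
  rotate_left
  · exact absurd hv (by simp)
  rename_i hm
  set h : TM := ⟨0, t.c1 * P / t.c0, t.c2 * P / t.c0, t.c11 * P / t.c0, t.c12 * P / t.c0,
      t.c22 * P / t.c0, cdiv (t.e * P) t.c0 + 6⟩ with hh
  set m := h.mag + h.e with hmd
  split at hv
  · rename_i L hL
    simp only [Option.some.injEq] at hv
    obtain ⟨-, -, hLc⟩ := holds_logConst (x := x) (y := y) hL
    have hP := P_pos
    have hc' : (0 : ℝ) < t.c0 := by exact_mod_cast hc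
    set w := (P : ℝ) * r / t.c0 - 1 with hw
    have hwh : Holds h x y w := by
      have k := round_err hx hy (abs_zero.le.trans zero_le_one) (div_err (t.c1 * P) hc)
        (div_err (t.c2 * P) hc) (div_err (t.c11 * P) hc) (div_err (t.c12 * P) hc)
        (div_err (t.c22 * P) hc)
      have he : |((P : ℝ) * r - t.val x y) * P / t.c0| ≤ ((cdiv (t.e * P) t.c0 : ℤ) : ℝ) := by
        refine le_trans ?_ (le_cdiv _ hc)
        rw [abs_div, abs_mul, abs_of_pos hc', abs_of_pos hP]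
        push_cast
        exact div_le_div_of_nonneg_right (mul_le_mul_of_nonneg_right ht hP.le) hc'.le
      have e : (P : ℝ) * w - h.val x y = ((P : ℝ) * r - t.val x y) * P / t.c0 +
          (0 + (((t.c1 * P : ℤ) : ℝ) / t.c0 - ((t.c1 * P / t.c0 : ℤ) : ℝ)) * x
          + (((t.c2 * P : ℤ) : ℝ) / t.c0 - ((t.c2 * P / t.c0 : ℤ) : ℝ)) * y
          + (((t.c11 * P : ℤ) : ℝ) / t.c0 - ((t.c11 * P / t.c0 : ℤ) : ℝ)) * x ^ 2
          + (((t.c12 * P : ℤ) : ℝ) / t.c0 - ((t.c12 * P / t.c0 : ℤ) : ℝ)) * (x * y)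
          + (((t.c22 * P : ℤ) : ℝ) / t.c0 - ((t.c22 * P / t.c0 : ℤ) : ℝ)) * y ^ 2) := by
        simp only [hw, val, hh]
        push_cast
        field_simp
        ring
      show |(P : ℝ) * w - h.val x y| ≤ _
      rw [e]
      refine (abs_add_le _ _).trans ((add_le_add he k).trans (le_of_eq ?_))
      simp [hh]
    have hm' : (m : ℝ) < P := by exact_mod_cast hm
    have hwm : |(P : ℝ) * w| ≤ m := by
      have h1 := abs_le.1 hwh
      have h2 := abs_le.1 (abs_val hx hy h)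
      rw [hmd]; push_cast
      exact abs_le.2 ⟨by linarith, by linarith⟩
    have hw1 : |w| < 1 := by
      rw [abs_mul, abs_of_pos hP] at hwm
      nlinarith
    have hr : 0 < r := by
      have := (abs_lt.1 hw1).1
      rw [hw] at this
      have h2 : 0 < (P : ℝ) * r / t.c0 := by linarith
      have h3 := mul_pos h2 hc'
      rw [div_mul_cancel₀ _ hc'.ne'] at h3
      exact pos_of_mul_pos_right h3 hP.le
    refine ⟨hr, ?_⟩
    have hlog : Real.log r = Real.log ((t.c0 : ℝ) / P) + Real.log (1 + w) := by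
      rw [← Real.log_mul (by positivity) (by linarith [(abs_lt.1 hw1).1]), hw]
      congr 1
      field_simp
      ring
    have hser := Real.abs_log_sub_add_sum_range_le (x := -w) (by rwa [abs_neg]) 2
    rw [Finset.sum_range_succ, Finset.sum_range_one, sub_neg_eq_add, abs_neg] at hser
    norm_num at hser
    have hrem : (P : ℝ) * (|w| ^ 3 / (1 - |w|)) ≤ ((cdiv (m ^ 3) (P * (P - m)) : ℤ) : ℝ) := by
      have hd : 0 < P * (P - m) := mul_pos (by norm_num [P]) (by linarith)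
      refine le_trans ?_ (le_cdiv _ hd)
      push_cast
      rw [abs_mul, abs_of_pos hP] at hwm
      have hb : (0 : ℝ) < (P : ℝ) - m := by linarith
      calc (P : ℝ) * (|w| ^ 3 / (1 - |w|))
          = ((P : ℝ) * |w|) ^ 3 / ((P : ℝ) * ((P : ℝ) - (P : ℝ) * |w|)) := by
            have : 1 - |w| ≠ 0 := by linarith
            field_simp
        _ ≤ (m : ℝ) ^ 3 / ((P : ℝ) * ((P : ℝ) - m)) :=
            div_le_div₀ (pow_nonneg ((mul_nonneg hP.le (abs_nonneg w)).trans hwm) 3)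
              (pow_le_pow_left₀ (mul_nonneg hP.le (abs_nonneg _)) hwm 3) (mul_pos hP hb)
              (mul_le_mul_of_nonneg_left (by linarith) hP.le)
    have hh2 := (Holds.mul hx hy hwh hwh).smul hx hy 1 (d := 2) (by norm_num)
    have hR := (hLc.add hwh).sub hh2
    subst hv
    have hser' := mul_le_mul_of_nonneg_left hser hP.le
    rw [← abs_of_pos hP, ← abs_mul, abs_of_pos hP] at hser'
    simp only [Holds, val] at hR ⊢
    rw [hlog]
    push_cast at hR ⊢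
    have h4 := hser'.trans hrem
    rw [abs_le] at hR h4 ⊢
    constructor <;> ring_nf at hR h4 ⊢ <;> linarith
  · exact absurd hv (by simp)

end TM

end Vale.P154.AF
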