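import Vale.Agent.P154.AFLog
import Vale.Agent.P154.Q3Critical

/-!
# Three-state antiferromagnet: the threshold for `d ≥ 10` or `lam ^ 2 ≤ 1 / 10`
-/

noncomputable section

namespace Vale.P154.AF

open Filter Topology

/-- Regular trees: `d * lam ^ 2 = 1` is the threshold when `d ≥ 10` or `lam ^ 2 ≤ 1 / 10`. -/
theorem reg_threshold_ten {lam : ℝ} (h0 : -(1 / 2) ≤ lam) (h1 : lam ≤ 0) {d : ℕ} (hd : 2 ≤ d)
    (hor : 10 ≤ d ∨ lam ^ 2 ≤ 1 / 10) :
    Tendsto (fun n => aReg 3 d lam n) atTop (𝓝 0) ↔ (d : ℝ) * lam ^ 2 ≤ 1 := by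
  have hq : 2 ≤ 3 := by norm_num
  have hl : -1 / (((3 : ℕ) : ℝ) - 1) ≤ lam := by norm_num at *; linarith
  refine ⟨fun h => not_lt.1 fun hks =>
    not_tendsto_zero_of_ge (aReg_ge_of_ks hq hl (by linarith) hks) h, fun h => ?_⟩
  set D : ℕ := max d 10
  have hD : 10 ≤ D := le_max_right _ _
  have hD' : (10 : ℝ) ≤ D := by exact_mod_cast hD
  have hDl : (D : ℝ) * lam ^ 2 ≤ 1 := by
    rcases le_total 10 d with h4 | h4
    · rwa [show D = d from max_eq_left h4]
    · rw [show D = 10 from max_eq_right h4]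
      rcases hor with h5 | h5
      · rwa [show (10 : ℕ) = d from le_antisymm h5 h4]
      · push_cast; nlinarith
  obtain ⟨r, hr0, hr1, rfl⟩ :=
    neg_scale_critical (by positivity) h1 (neg_le_inv_sqrt (by linarith) hDl)
  exact aReg_tendsto_zero_mono hq (inv_sqrt_admissible (by linarith)).1
    (inv_sqrt_admissible (by linarith)).2 hr0 hr1 (le_max_left _ _) (aReg_crit hD)

/-- Poisson trees: `d * lam ^ 2 = 1` is the threshold when `d ≥ 10` or `lam ^ 2 ≤ 1 / 10`. -/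
theorem pois_threshold_ten {lam : ℝ} (h0 : -(1 / 2) ≤ lam) (h1 : lam ≤ 0) {d : ℝ} (hd : 0 < d)
    (hor : 10 ≤ d ∨ lam ^ 2 ≤ 1 / 10) :
    Tendsto (fun n => aGW 3 (poisWeight d) lam n) atTop (𝓝 0) ↔ d * lam ^ 2 ≤ 1 := by
  have hq : 2 ≤ 3 := by norm_num
  have hl : -1 / (((3 : ℕ) : ℝ) - 1) ≤ lam := by norm_num at *; linarith
  refine ⟨fun h => not_lt.1 fun hks =>
    not_tendsto_zero_of_ge (aPois_ge_of_ks hq hl (by linarith) hd hks) h, fun h => ?_⟩
  set D : ℝ := max d 10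
  have hD : 10 ≤ D := le_max_right _ _
  have hDl : D * lam ^ 2 ≤ 1 := by
    rcases le_total 10 d with h4 | h4
    · rwa [show D = d from max_eq_left h4]
    · rw [show D = 10 from max_eq_right h4]
      rcases hor with h5 | h5
      · rwa [show (10 : ℝ) = d from le_antisymm h5 h4]
      · nlinarith
  obtain ⟨r, hr0, hr1, rfl⟩ :=
    neg_scale_critical (by positivity) h1 (neg_le_inv_sqrt (by linarith) hDl)
  exact aPois_tendsto_zero_mono hq (inv_sqrt_admissible (by linarith)).1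
    (inv_sqrt_admissible (by linarith)).2 hr0 hr1 hd.le (le_max_left _ _) (aPois_crit hD)

end Vale.P154.AF
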