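import Vale.Agent.P154.GW

/-!
# Folding the children of a node one at a time
-/

noncomputable section

namespace Vale.P154

open Finset Filter Topology
open scoped ENNReal

variable {q : ℕ}

/-- The centred relative likelihood of a vector. -/
def rel (l : Fin q → ℝ) (i : Fin q) : ℝ := q * l i / (∑ j, l j) - 1

/-- The chi-square function. -/
def chi (y : Fin q → ℝ) : ℝ := (∑ i, y i ^ 2) / q

/-- The simplex of centred relative likelihoods. -/
def Simp (y : Fin q → ℝ) : Prop := (∀ i, -1 ≤ y i) ∧ ∑ i, y i = 0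

/-- The likelihood ratio after one more child. -/
def tilt (lam : ℝ) (w y : Fin q → ℝ) (i : Fin q) : ℝ := (1 + w i) * (1 + lam * y i)

/-- `f` after one more child, averaged over relabellings of its colours. -/
def mix (lam : ℝ) (f : (Fin q → ℝ) → ℝ) (w y : Fin q → ℝ) : ℝ :=
  (∑ π : Equiv.Perm (Fin q), ((∑ i, tilt lam w (fun j => y (π j)) i) / q) *
    f (rel (tilt lam w (fun j => y (π j))))) / Fintype.card (Equiv.Perm (Fin q))

/-- The two-point inequalities: `E K` is preserved and `chi` is subadditive. -/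
structure TwoPoint (q : ℕ) (lam η : ℝ) where
  /-- the invariant -/
  K : (Fin q → ℝ) → ℝ
  /-- first coefficient -/
  a : (Fin q → ℝ) → ℝ
  /-- second coefficient -/
  b : (Fin q → ℝ) → ℝ
  /-- gain of the invariant -/
  kap : (Fin q → ℝ) → ℝ
  /-- retention of the invariant -/
  kaw : (Fin q → ℝ) → ℝ
  hkaw : ∀ y, Simp y → 0 ≤ kaw y
  ha : ∀ y, Simp y → 0 ≤ a y
  hb : ∀ w, Simp w → 0 ≤ b w
  hkap : ∀ w, Simp w → 0 ≤ kap w
  K_zero : 0 ≤ K 0
  K_leaf : ∀ s : Fin q, 0 ≤ K (rel fun i => if s = i then 1 else 0)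
  gain : ∀ w y, Simp w → Simp y → kaw y * K w + kap w * K y ≤ mix lam K w y
  sub : ∀ w y, Simp w → Simp y →
    mix lam chi w y ≤ chi w + lam ^ 2 * chi y - K w * a y - b w * K y - η * chi w * chi y

/-- The expectation of `f` over a finite family of likelihood vectors. -/
def ev {α : Type*} [Fintype α] (l : α → Fin q → ℝ) (f : (Fin q → ℝ) → ℝ) : ℝ :=
  ∑ a, ((∑ i, l a i) / q) * f (rel (l a))

/-- The likelihood vector passed through one edge. -/
def chan (lam : ℝ) (l : Fin q → ℝ) (i : Fin q) : ℝ := ∑ j, potts q lam i j * l j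

theorem rel_simp [NeZero q] {l : Fin q → ℝ} (h : ∀ i, 0 ≤ l i) (hs : 0 < ∑ i, l i) :
    Simp (rel l) := by
  refine ⟨fun i => ?_, ?_⟩
  · have : 0 ≤ q * l i / ∑ j, l j := div_nonneg (mul_nonneg (Nat.cast_nonneg q) (h i)) hs.le
    unfold rel; linarith
  · simp only [rel, Finset.sum_sub_distrib, ← Finset.sum_div, ← Finset.mul_sum]
    simp
    field_simp
    ring

theorem rel_smul {c : ℝ} (hc : c ≠ 0) (l : Fin q → ℝ) : rel (fun i => c * l i) = rel l := by
  funext i
  simp only [rel, ← Finset.mul_sum]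
  rw [mul_left_comm, mul_div_mul_left _ _ hc]

theorem rel_const [NeZero q] (c : ℝ) (hc : c ≠ 0) : rel (fun _ : Fin q => c) = 0 := by
  funext i
  have : (q : ℝ) ≠ 0 := by exact_mod_cast NeZero.ne q
  simp [rel]; field_simp; ring

theorem mul_chan_eq [NeZero q] (lam : ℝ) {L l : Fin q → ℝ} (hL : ∑ i, L i ≠ 0)
    (hl : ∑ i, l i ≠ 0) (i : Fin q) :
    L i * chan lam l i = ((∑ j, L j) / q) * ((∑ j, l j) / q) * tilt lam (rel L) (rel l) i := by
  have hq : (q : ℝ) ≠ 0 := by exact_mod_cast NeZero.ne q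
  simp only [tilt, rel, chan, potts_mul]
  field_simp
  ring

/-- One more child: the expectation over the product family, averaged. -/
theorem ev_cons [NeZero q] (lam : ℝ) {α β : Type*} [Fintype α] [Fintype β]
    (L : α → Fin q → ℝ) (l : β → Fin q → ℝ) (hL : ∀ a i, 0 ≤ L a i) (hl : ∀ b i, 0 ≤ l b i)
    (hsym : ∀ (π : Equiv.Perm (Fin q)) (f : (Fin q → ℝ) → ℝ),
      ∑ b, f (fun i => l b (π i)) = ∑ b, f (l b))
    (f : (Fin q → ℝ) → ℝ) :
    ev (fun x : α × β => fun i => L x.1 i * chan lam (l x.2) i) f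
      = ∑ a, ∑ b, ((∑ i, L a i) / q) * ((∑ i, l b i) / q) * mix lam f (rel (L a)) (rel (l b)) := by
  have hq : (q : ℝ) ≠ 0 := by exact_mod_cast NeZero.ne q
  rw [ev, Fintype.sum_prod_type]
  refine Finset.sum_congr rfl fun a _ => ?_
  set G : (Fin q → ℝ) → ℝ := fun v =>
    ((∑ i, L a i * chan lam v i) / q) * f (rel fun i => L a i * chan lam v i) with hG
  show ∑ b, G (l b) = _
  have hcard : (Fintype.card (Equiv.Perm (Fin q)) : ℝ) ≠ 0 := by
    exact_mod_cast Fintype.card_ne_zero
  have avg : ∑ b, G (l b) =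
      ∑ b, (∑ π : Equiv.Perm (Fin q), G (fun i => l b (π i)))
        / Fintype.card (Equiv.Perm (Fin q)) := by
    rw [← Finset.sum_div, Finset.sum_comm]
    simp only [hsym, Finset.sum_const, Finset.card_univ, nsmul_eq_mul]
    field_simp
  rw [avg]
  refine Finset.sum_congr rfl fun b _ => ?_
  have hsum : ∀ π : Equiv.Perm (Fin q), ∑ i, l b (π i) = ∑ i, l b i := fun π =>
    Equiv.sum_comp π (l b)
  by_cases h : (∑ i, L a i) = 0 ∨ (∑ i, l b i) = 0
  · have e : ∀ π : Equiv.Perm (Fin q), G (fun i => l b (π i)) = 0 := by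
      intro π
      have : ∀ i, L a i * chan lam (fun i => l b (π i)) i = 0 := by
        intro i
        rcases h with h | h
        · rw [(Finset.sum_eq_zero_iff_of_nonneg fun i _ => hL a i).1 h i (Finset.mem_univ i),
            zero_mul]
        · have h' := (Finset.sum_eq_zero_iff_of_nonneg fun i _ => hl b i).1 h
          simp [chan, h']
      simp [hG, this]
    rcases h with h | h <;> simp [e, h]
  · push Not at h
    rw [mix, ← mul_div_assoc, Finset.mul_sum]
    congr 1
    refine Finset.sum_congr rfl fun π _ => ?_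
    have hne : ∑ i, l b (π i) ≠ 0 := by rw [hsum]; exact h.2
    have hrel : rel (fun i => l b (π i)) = fun j => rel (l b) (π j) := by
      funext j; simp [rel, hsum]
    simp only [hG, mul_chan_eq lam h.1 hne, hsum, hrel]
    rw [rel_smul (mul_ne_zero (div_ne_zero h.1 hq) (div_ne_zero h.2 hq)), ← Finset.mul_sum]
    ring

theorem ev_const {α : Type*} [Fintype α] (l : α → Fin q → ℝ) (c : ℝ) :
    ev l (fun _ => c) = (∑ a, (∑ i, l a i) / q) * c := by simp [ev, Finset.sum_mul]

theorem ev_nonneg [NeZero q] {α : Type*} [Fintype α] {l : α → Fin q → ℝ} (hl : ∀ a i, 0 ≤ l a i)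
    {f : (Fin q → ℝ) → ℝ} (hf : ∀ y, Simp y → 0 ≤ f y) : 0 ≤ ev l f := by
  refine Finset.sum_nonneg fun a _ => ?_
  have h0 : 0 ≤ ∑ i, l a i := Finset.sum_nonneg fun i _ => hl a i
  rcases h0.eq_or_lt with h | h
  · simp [← h]
  · exact mul_nonneg (div_nonneg h.le (Nat.cast_nonneg q)) (hf _ (rel_simp (hl a) h))

theorem mass_simp [NeZero q] {γ : Type*} (v : γ → Fin q → ℝ) (hv : ∀ c i, 0 ≤ v c i) (c : γ) :
    0 ≤ (∑ i, v c i) / (q : ℝ) ∧ ((∑ i, v c i) / (q : ℝ) ≠ 0 → Simp (rel (v c))) := by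
  have h0 : 0 ≤ ∑ i, v c i := Finset.sum_nonneg fun i _ => hv c i
  refine ⟨div_nonneg h0 (Nat.cast_nonneg q), fun h => rel_simp (hv c) ?_⟩
  exact lt_of_le_of_ne h0 fun e => h (by rw [← e, zero_div])

theorem ev_one {γ : Type*} [Fintype γ] (v : γ → Fin q → ℝ)
    (hv : ∑ c, (∑ i, v c i) / (q : ℝ) = 1) : ev v (fun _ => 1) = 1 := by
  rw [ev_const, hv, mul_one]

variable {lam η : ℝ}

/-- The effect of one more child on the two expectations. -/
theorem step_bounds [NeZero q] (T : TwoPoint q lam η) {α β : Type*} [Fintype α] [Fintype β]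
    (L : α → Fin q → ℝ) (l : β → Fin q → ℝ) (hL : ∀ a i, 0 ≤ L a i) (hl : ∀ b i, 0 ≤ l b i)
    (hsym : ∀ (π : Equiv.Perm (Fin q)) (f : (Fin q → ℝ) → ℝ),
      ∑ b, f (fun i => l b (π i)) = ∑ b, f (l b))
    (hL1 : ∑ a, (∑ i, L a i) / q = 1) (hl1 : ∑ b, (∑ i, l b i) / q = 1)
    (hKL : 0 ≤ ev L T.K) (hKl : 0 ≤ ev l T.K) :
    0 ≤ ev (fun x : α × β => fun i => L x.1 i * chan lam (l x.2) i) T.K ∧
      ev (fun x : α × β => fun i => L x.1 i * chan lam (l x.2) i) chi
        + η * ev L chi * ev l chi ≤ ev L chi + lam ^ 2 * ev l chi := by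
  -- pointwise comparison inside the double sum
  have cmp : ∀ f g : (Fin q → ℝ) → (Fin q → ℝ) → ℝ,
      (∀ w y, Simp w → Simp y → f w y ≤ g w y) →
      ∑ a, ∑ b, ((∑ i, L a i) / q) * ((∑ i, l b i) / q) * f (rel (L a)) (rel (l b)) ≤
      ∑ a, ∑ b, ((∑ i, L a i) / q) * ((∑ i, l b i) / q) * g (rel (L a)) (rel (l b)) := by
    intro f g h
    refine Finset.sum_le_sum fun a _ => Finset.sum_le_sum fun b _ => ?_
    obtain ⟨ha, ha'⟩ := mass_simp L hL a
    obtain ⟨hb, hb'⟩ := mass_simp l hl b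
    rcases eq_or_ne (((∑ i, L a i) / q) * ((∑ i, l b i) / q)) 0 with e | e
    · simp [e]
    · exact mul_le_mul_of_nonneg_left
        (h _ _ (ha' (left_ne_zero_of_mul e)) (hb' (right_ne_zero_of_mul e))) (mul_nonneg ha hb)
  have split : ∀ u v : (Fin q → ℝ) → ℝ,
      ∑ a, ∑ b, ((∑ i, L a i) / q) * ((∑ i, l b i) / q) * (u (rel (L a)) * v (rel (l b)))
        = ev L u * ev l v := by
    intro u v
    simp only [ev, Finset.sum_mul_sum]
    exact Finset.sum_congr rfl fun a _ => Finset.sum_congr rfl fun b _ => by ring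
  constructor
  · rw [ev_cons lam L l hL hl hsym]
    refine le_trans ?_ (cmp (fun w y => T.K w * T.kaw y + T.kap w * T.K y) (fun w y => mix lam T.K w y)
      (fun w y hw hy => by linarith [T.gain w y hw hy]))
    have e : ∑ a, ∑ b, ((∑ i, L a i) / q) * ((∑ i, l b i) / q) *
        (T.K (rel (L a)) * T.kaw (rel (l b)) + T.kap (rel (L a)) * T.K (rel (l b)))
        = ev L T.K * ev l T.kaw + ev L T.kap * ev l T.K := by
      simp only [← split, ← Finset.sum_add_distrib]
      exact Finset.sum_congr rfl fun a _ => Finset.sum_congr rfl fun b _ => by ring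
    rw [e]
    exact add_nonneg (mul_nonneg hKL (ev_nonneg hl T.hkaw))
      (mul_nonneg (ev_nonneg hL T.hkap) hKl)
  · rw [ev_cons lam L l hL hl hsym]
    have h := cmp (fun w y => mix lam chi w y)
      (fun w y => chi w * 1 + lam ^ 2 * (1 * chi y) - T.K w * T.a y - T.b w * T.K y
        - η * (chi w * chi y))
      (fun w y hw hy => by have := T.sub w y hw hy; linarith)
    have e : ∑ a, ∑ b, ((∑ i, L a i) / q) * ((∑ i, l b i) / q) *
        (chi (rel (L a)) * 1 + lam ^ 2 * (1 * chi (rel (l b))) - T.K (rel (L a)) * T.a (rel (l b))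
          - T.b (rel (L a)) * T.K (rel (l b)) - η * (chi (rel (L a)) * chi (rel (l b))))
        = ev L chi * ev l (fun _ => 1) + lam ^ 2 * (ev L (fun _ => 1) * ev l chi)
          - ev L T.K * ev l T.a - ev L T.b * ev l T.K - η * (ev L chi * ev l chi) := by
      simp only [← split, Finset.mul_sum, ← Finset.sum_add_distrib, ← Finset.sum_sub_distrib]
      exact Finset.sum_congr rfl fun a _ => Finset.sum_congr rfl fun b _ => by ring
    rw [e, ev_one l hl1, ev_one L hL1, mul_one, one_mul] at h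
    have := mul_nonneg hKL (ev_nonneg hl T.ha)
    have := mul_nonneg (ev_nonneg hL T.hb) hKl
    linarith

/-- The likelihood family of a node with children `ch`. -/
def nodeVec (lam : ℝ) {n k : ℕ} (ch : Fin k → PTree n) (s : (c : Fin k) → Cfg q n (ch c))
    (i : Fin q) : ℝ :=
  ∏ c, chan lam (lik lam n (ch c) (s c)) i

theorem chi_zero : chi (0 : Fin q → ℝ) = 0 := by simp [chi]

theorem ev_snoc (lam : ℝ) {n k : ℕ} (ch : Fin (k + 1) → PTree n) (f : (Fin q → ℝ) → ℝ) :
    ev (fun s => nodeVec (q := q) lam ch s) f =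
      ev (fun x : ((c : Fin k) → Cfg q n (ch c.castSucc)) × Cfg q n (ch (Fin.last k)) => fun i =>
        nodeVec lam (fun c => ch c.castSucc) x.1 i *
          chan lam (lik lam n (ch (Fin.last k)) x.2) i) f := by
  have key : ∀ s : (c : Fin (k + 1)) → Cfg q n (ch c), nodeVec lam ch s = fun i =>
      nodeVec lam (fun c => ch c.castSucc) (fun c => s c.castSucc) i *
        chan lam (lik lam n (ch (Fin.last k)) (s (Fin.last k))) i := by
    intro s; funext i; simp [nodeVec, Fin.prod_univ_castSucc]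
  unfold ev
  simp only [key]
  refine Fintype.sum_equiv ((Fin.snocEquiv fun c => Cfg q n (ch c)).symm.trans (Equiv.prodComm _ _))
    _ _ fun s => ?_
  rfl

theorem nodeVec_nonneg (hq : 2 ≤ q) (h0 : -1 / ((q : ℝ) - 1) ≤ lam) (h1 : lam ≤ 1) {n k : ℕ}
    (ch : Fin k → PTree n) (s : (c : Fin k) → Cfg q n (ch c)) (i : Fin q) :
    0 ≤ nodeVec lam ch s i :=
  Finset.prod_nonneg fun c _ => Finset.sum_nonneg fun j _ =>
    mul_nonneg (potts_nonneg hq h0 h1 i j) (lik_nonneg hq h0 h1 n (ch c) (s c) j)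

theorem sum_nodeVec [NeZero q] (lam : ℝ) {n k : ℕ} (ch : Fin k → PTree n) :
    ∑ s : (c : Fin k) → Cfg q n (ch c), (∑ i, nodeVec lam ch s i) / q = 1 :=
  sum_mass lam (n + 1) ⟨k, ch⟩

/-- Sum of the child magnetisations minus the pair gain. -/
def pairX (lam : ℝ) {n k : ℕ} (ch : Fin k → PTree n) : ℝ :=
  if h : 2 ≤ k then xTree q lam n (ch ⟨0, by omega⟩) * xTree q lam n (ch ⟨1, by omega⟩) else 0

theorem node_bounds [NeZero q] (hq : 2 ≤ q) (h0 : -1 / ((q : ℝ) - 1) ≤ lam) (h1 : lam ≤ 1)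
    (T : TwoPoint q lam η) (hη : 0 ≤ η) (n : ℕ)
    (hK : ∀ t : PTree n, 0 ≤ ev (lik (q := q) lam n t) T.K) :
    ∀ (k : ℕ) (ch : Fin k → PTree n),
      0 ≤ ev (fun s => nodeVec (q := q) lam ch s) T.K ∧
        ev (fun s => nodeVec (q := q) lam ch s) chi + η * lam ^ 2 * pairX (q := q) lam ch
          ≤ lam ^ 2 * ∑ c, xTree q lam n (ch c)
  | 0, ch => by
      have e : ∀ f : (Fin q → ℝ) → ℝ, ev (fun s => nodeVec (q := q) lam ch s) f = f 0 := by
        intro f
        have hv : ∀ s, nodeVec (q := q) lam ch s = fun _ => 1 := fun s => by funext i; simp [nodeVec]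
        simp only [ev, hv, rel_const 1 one_ne_zero]
        have := sum_nodeVec (q := q) lam ch
        simp only [hv] at this
        rw [← Finset.sum_mul, this, one_mul]
      rw [e, e]
      simp [chi_zero, T.K_zero, pairX]
  | k + 1, ch => by
      obtain ⟨ihK, ihC⟩ := node_bounds hq h0 h1 T hη n hK k (fun c => ch c.castSucc)
      obtain ⟨sK, sC⟩ := step_bounds T (fun s => nodeVec (q := q) lam (fun c => ch c.castSucc) s)
        (lik lam n (ch (Fin.last k))) (fun s i => nodeVec_nonneg hq h0 h1 _ s i)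
        (fun s i => lik_nonneg hq h0 h1 n _ s i)
        (fun π f => sum_lik_perm lam π n (ch (Fin.last k)) f) (sum_nodeVec lam _) (sum_mass lam n _)
        ihK (hK _)
      rw [ev_snoc, ev_snoc]
      refine ⟨sK, ?_⟩
      have hx : ev (lik (q := q) lam n (ch (Fin.last k))) chi = xTree q lam n (ch (Fin.last k)) :=
        rfl
      rw [hx] at sC
      rw [Fin.sum_univ_castSucc, mul_add]
      have hx0 := xTree_nonneg hq h0 h1 n (ch (Fin.last k))
      match k, ch, ihC, sC, hx0 with
      | 0, ch, ihC, sC, hx0 =>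
        simp [pairX] at ihC sC hx0 ⊢
        have hc := ev_nonneg (q := q) (l := fun s => nodeVec lam (fun c : Fin 0 => ch c.castSucc) s)
          (fun s i => nodeVec_nonneg hq h0 h1 _ s i)
          (f := chi) (fun y _ => by unfold chi; positivity)
        have := mul_nonneg (mul_nonneg hη hc) hx0
        linarith
      | 1, ch, ihC, sC, hx0 =>
        -- a single child is exact
        have hone : ev (fun s => nodeVec (q := q) lam (fun c : Fin 1 => ch c.castSucc) s) chi
            = lam ^ 2 * xTree q lam n (ch 0) := by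
          rw [ev, xTree]
          refine (Fintype.sum_equiv (Equiv.piUnique _) _
            (fun s => ((∑ i, chan lam (lik lam n (ch 0) s) i) / q) *
              chi (rel (chan lam (lik lam n (ch 0) s)))) fun s => ?_).trans ?_
          · have : nodeVec (q := q) lam (fun c : Fin 1 => ch c.castSucc) s
                = chan lam (lik lam n (ch 0) (s 0)) := by funext i; simp [nodeVec]
            rw [this]; rfl
          · rw [Finset.mul_sum]
            refine Finset.sum_congr rfl fun s _ => ?_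
            set v := lik (q := q) lam n (ch 0) s
            have hsum : ∑ i, chan lam v i = ∑ i, v i := by
              simp only [chan, potts_mul]
              rw [Finset.sum_add_distrib, ← Finset.mul_sum]
              simp
              field_simp
              ring
            by_cases hv : (∑ i, v i) = 0
            · simp [hsum, hv]
            · have hrel : rel (chan lam v) = fun i => lam * rel v i := by
                funext i
                simp only [rel, hsum]
                simp only [chan, potts_mul]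
                field_simp
                ring
              rw [hsum, hrel]
              simp only [chi, rel, mul_pow, ← Finset.mul_sum]
              ring
        rw [hone] at sC ihC
        simp [pairX] at ihC sC ⊢
        have : η * lam ^ 2 * (xTree q lam n (ch 0) * xTree q lam n (ch 1))
            = η * (lam ^ 2 * xTree q lam n (ch 0)) * xTree q lam n (ch (Fin.last 1)) := by
          rw [show (Fin.last 1) = (1 : Fin 2) from rfl]; ring
        linarith
      | k + 2, ch, ihC, sC, hx0 =>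
        have hp : pairX (q := q) lam ch = pairX (q := q) lam (fun c : Fin (k + 2) => ch c.castSucc) := by
          simp [pairX]
        rw [hp]
        have hc := ev_nonneg (q := q)
          (l := fun s => nodeVec lam (fun c : Fin (k + 2) => ch c.castSucc) s)
          (fun s i => nodeVec_nonneg hq h0 h1 _ s i)
          (f := chi) (fun y _ => by unfold chi; positivity)
        have := mul_nonneg (mul_nonneg hη hc) hx0
        linarith

theorem evK_nonneg [NeZero q] (hq : 2 ≤ q) (h0 : -1 / ((q : ℝ) - 1) ≤ lam) (h1 : lam ≤ 1)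
    (T : TwoPoint q lam η) (hη : 0 ≤ η) :
    ∀ (n : ℕ) (t : PTree n), 0 ≤ ev (lik (q := q) lam n t) T.K
  | 0, t => Finset.sum_nonneg fun (s : Fin q) _ => by
      show 0 ≤ ((∑ i, if s = i then (1 : ℝ) else 0) / q) * T.K (rel fun i => if s = i then 1 else 0)
      simp only [Finset.sum_ite_eq, Finset.mem_univ, if_true]
      exact mul_nonneg (by positivity) (T.K_leaf s)
  | n + 1, t => (node_bounds hq h0 h1 T hη n (evK_nonneg hq h0 h1 T hη n) t.1 t.2).1

theorem xTree_step [NeZero q] (hq : 2 ≤ q) (h0 : -1 / ((q : ℝ) - 1) ≤ lam) (h1 : lam ≤ 1)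
    (T : TwoPoint q lam η) (hη : 0 ≤ η) (n k : ℕ) (ch : Fin k → PTree n) :
    xTree q lam (n + 1) ⟨k, ch⟩ + η * lam ^ 2 * pairX (q := q) lam ch
      ≤ lam ^ 2 * ∑ c, xTree q lam n (ch c) :=
  (node_bounds hq h0 h1 T hη n (evK_nonneg hq h0 h1 T hη n) k ch).2

/-- Nonreconstruction on Galton-Watson trees at and below the Kesten-Stigum bound. -/
theorem aGW_zero_of_twoPoint (hq : 2 ≤ q) (h0 : -1 / ((q : ℝ) - 1) ≤ lam) (h1 : lam ≤ 1)
    (hη0 : 0 ≤ η) (hη : lam ≠ 0 → 0 < η) (T : TwoPoint q lam η) {p : ℕ → ℝ} (hp : ∀ k, 0 ≤ p k)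
    (hp1 : ∑' k, ENNReal.ofReal (p k) = 1) (hp2 : ∃ k, 2 ≤ k ∧ 0 < p k)
    (hmean : ENNReal.ofReal (lam ^ 2) * ∑' k, ENNReal.ofReal (p k) * k ≤ 1) :
    Tendsto (fun n => aGW q p lam n) atTop (𝓝 0) := by
  have : NeZero q := ⟨by omega⟩
  refine aGW_tendsto_zero hq h0 h1 hp hp1 ?_
  rcases eq_or_ne lam 0 with hl | hl
  · refine Tendsto.congr' ?_ tendsto_const_nhds
    filter_upwards [eventually_ge_atTop 1] with n hn
    obtain ⟨m, rfl⟩ : ∃ m, n = m + 1 := ⟨n - 1, by omega⟩
    symm
    refine ENNReal.tsum_eq_zero.2 fun t => ?_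
    have h := xTree_step hq h0 h1 T hη0 m t.1 t.2
    simp only [hl, ne_eq, OfNat.ofNat_ne_zero, not_false_eq_true, zero_pow, mul_zero, zero_mul,
      add_zero] at h
    have hx : xTree q lam (m + 1) t ≤ 0 := by rw [hl]; exact h
    simp [ENNReal.ofReal_of_nonpos hx]
  · refine gw_decay hp hp1 hp2 (η := η * lam ^ 2) (mul_pos (hη hl) (by positivity)) hmean
      (fun n t => ENNReal.ofReal (xTree q lam n t)) (fun n t => ENNReal.ofReal (xTree q lam n t))
      (fun t => ENNReal.ofReal_ne_top) fun n k ch => ?_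
    have hx := fun (t : PTree n) => xTree_nonneg hq h0 h1 n t
    have e : pairProd (fun t => ENNReal.ofReal (xTree q lam n t)) ch
        = ENNReal.ofReal (pairX (q := q) lam ch) := by
      unfold pairProd pairX
      split_ifs with h
      · rw [ENNReal.ofReal_mul (hx _)]
      · simp
    have hp0 : 0 ≤ pairX (q := q) lam ch := by
      unfold pairX; split_ifs with h
      · exact mul_nonneg (hx _) (hx _)
      · rfl
    rw [e, ← ENNReal.ofReal_mul (mul_nonneg hη0 (sq_nonneg lam)),
      ← ENNReal.ofReal_sum_of_nonneg fun c _ => hx _, ← ENNReal.ofReal_mul (sq_nonneg lam)]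
    refine (ENNReal.ofReal_add (xTree_nonneg hq h0 h1 (n + 1) ⟨k, ch⟩)
      (mul_nonneg (mul_nonneg hη0 (sq_nonneg lam)) hp0)).symm.trans_le ?_
    exact ENNReal.ofReal_le_ofReal (xTree_step hq h0 h1 T hη0 n k ch)

/-- Nonreconstruction on the `d`-ary tree at and below the Kesten-Stigum bound. -/
theorem aReg_zero_of_twoPoint (hq : 2 ≤ q) (h0 : -1 / ((q : ℝ) - 1) ≤ lam) (h1 : lam ≤ 1)
    (hη0 : 0 ≤ η) (hη : lam ≠ 0 → 0 < η) (T : TwoPoint q lam η) {d : ℕ} (hd : 2 ≤ d) (hks : d * lam ^ 2 ≤ 1) :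
    Tendsto (fun n => aReg q d lam n) atTop (𝓝 0) := by
  have hsum : ∀ g : ℕ → ℝ≥0∞, ∑' k, ENNReal.ofReal (dirac d k) * g k = g d := by
    intro g
    rw [tsum_eq_single d fun k hk => by simp [dirac, hk]]
    simp [dirac]
  have h := aGW_zero_of_twoPoint hq h0 h1 hη0 hη T (p := dirac d)
    (fun k => by unfold dirac; split_ifs <;> norm_num) (by simpa using hsum fun _ => 1)
    ⟨d, hd, by simp [dirac]⟩ ?_
  · simpa only [aGW_dirac] using h
  · rw [hsum, ← ENNReal.ofReal_natCast, ← ENNReal.ofReal_mul (sq_nonneg lam)]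
    exact ENNReal.ofReal_le_one.2 (by linarith)

/-- Nonreconstruction on Poisson Galton-Watson trees at and below the Kesten-Stigum bound. -/
theorem aPois_zero_of_twoPoint (hq : 2 ≤ q) (h0 : -1 / ((q : ℝ) - 1) ≤ lam) (h1 : lam ≤ 1)
    (hη0 : 0 ≤ η) (hη : lam ≠ 0 → 0 < η) (T : TwoPoint q lam η) {d : ℝ} (hd : 0 < d) (hks : d * lam ^ 2 ≤ 1) :
    Tendsto (fun n => aGW q (poisWeight d) lam n) atTop (𝓝 0) := by
  refine aGW_zero_of_twoPoint hq h0 h1 hη0 hη T (poisWeight_nonneg hd.le) (tsum_poisWeight hd.le)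
    ⟨2, le_rfl, by unfold poisWeight; positivity⟩ ?_
  rw [tsum_poisWeight_mul hd.le, ← ENNReal.ofReal_mul (sq_nonneg lam)]
  exact ENNReal.ofReal_le_one.2 (by linarith)

end Vale.P154
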