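import Vale.Agent.P154.Q3Core

/-!
# One class of cyclic relabellings
-/

namespace Vale.P154.Q3

/-- Half of the chi-square, from the three relative likelihoods. -/
noncomputable def pp (a b c : ℝ) : ℝ := 1 - (a * b + b * c + c * a) / 3

/-- The normalised harmonic mean. -/
noncomputable def hm (a b c : ℝ) : ℝ := 3 * (a * b * c) / (a * b + b * c + c * a)

/-- The invariant. -/
noncomputable def jj (a b c : ℝ) : ℝ := (2 * pp a b c - 1 + hm a b c) / 2

/-- The multiplier of the gain inequality. -/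
noncomputable def al (a b c : ℝ) : ℝ := (hm a b c + (1 - pp a b c) ^ 2) / 2

/-- The multiplier of the subadditivity inequality. -/
noncomputable def be (a b c : ℝ) : ℝ := pp a b c * (1 - pp a b c)

/-- Mass times chi-square of a likelihood vector. -/
noncomputable def zC (a b c : ℝ) : ℝ := (a ^ 2 + b ^ 2 + c ^ 2) / (a + b + c) - (a + b + c) / 3

/-- Mass times the invariant of a likelihood vector. -/
noncomputable def zJ (a b c : ℝ) : ℝ := (zC a b c - (a + b + c) / 3 + hm a b c) / 2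

/-- Nonnegative triples of mean one. -/
structure Tri (a b c : ℝ) : Prop where
  ha : 0 ≤ a
  hb : 0 ≤ b
  hc : 0 ≤ c
  hs : a + b + c = 3

theorem Tri.e2_le {a b c : ℝ} (h : Tri a b c) : a * b + b * c + c * a ≤ 3 := by
  obtain ⟨ha, hb, hc, hs⟩ := h
  nlinarith [sq_nonneg (a - b), sq_nonneg (b - c), sq_nonneg (c - a)]

theorem Tri.e2_nonneg {a b c : ℝ} (h : Tri a b c) : 0 ≤ a * b + b * c + c * a := by
  obtain ⟨ha, hb, hc, hs⟩ := h
  positivity

theorem Tri.pp_mem {a b c : ℝ} (h : Tri a b c) : 0 ≤ pp a b c ∧ pp a b c ≤ 1 := by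
  constructor <;> unfold pp <;> linarith [h.e2_le, h.e2_nonneg]

theorem Tri.hm_mem {a b c : ℝ} (h : Tri a b c) : 0 ≤ hm a b c ∧ hm a b c ≤ 1 := by
  have e0 := h.e2_nonneg
  have e3 := h.e2_le
  obtain ⟨ha, hb, hc, hs⟩ := h
  unfold hm
  refine ⟨by positivity, ?_⟩
  rcases e0.eq_or_lt with e | e
  · rw [← e]; simp
  · rw [div_le_one e]
    nlinarith [mul_nonneg e0 (sub_nonneg.2 e3), sq_nonneg (a * b - b * c), sq_nonneg (b * c - c * a),
      sq_nonneg (c * a - a * b)]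

theorem Tri.al_mem {a b c : ℝ} (h : Tri a b c) : 0 ≤ al a b c ∧ al a b c ≤ 1 := by
  obtain ⟨p0, p1⟩ := h.pp_mem
  obtain ⟨g0, g1⟩ := h.hm_mem
  constructor <;> unfold al <;> nlinarith

theorem Tri.be_nonneg {a b c : ℝ} (h : Tri a b c) : 0 ≤ be a b c :=
  mul_nonneg h.pp_mem.1 (sub_nonneg.2 h.pp_mem.2)

theorem Tri.adm {a b c : ℝ} (h : Tri a b c) {x : ℝ} (x0 : 0 ≤ x) (hx : x ^ 2 = pp a b c) :
    Adm x ((a * b * c - 1 + 3 * pp a b c) / 2) := by
  obtain ⟨p0, p1⟩ := h.pp_mem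
  have hs := h.hs
  have x1 : x ≤ 1 := by nlinarith
  have hc : c = 3 - a - b := by linarith
  have key : ((a * b * c - 1 + 3 * pp a b c) / 2) ^ 2 ≤ (x ^ 3) ^ 2 := by
    have : (x ^ 3) ^ 2 - ((a * b * c - 1 + 3 * pp a b c) / 2) ^ 2
        = ((a - b) * (b - c) * (c - a)) ^ 2 / 108 := by
      rw [show (x ^ 3) ^ 2 = (x ^ 2) ^ 3 by ring, hx, pp, hc]; ring
    nlinarith [sq_nonneg ((a - b) * (b - c) * (c - a))]
  obtain ⟨l, u⟩ := abs_le_of_sq_le_sq' key (pow_nonneg x0 3)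
  refine ⟨x0, x1, l, u, ?_⟩
  rw [hx]
  have := mul_nonneg (mul_nonneg h.ha h.hb) h.hc
  linarith

theorem zC_le {a b c : ℝ} (ha : 0 ≤ a) (hb : 0 ≤ b) (hc : 0 ≤ c) :
    zC a b c ≤ 2 * ((a + b + c) / 3) := by
  unfold zC
  have h0 : 0 ≤ a + b + c := by linarith
  rcases h0.eq_or_lt with e | e
  · rw [← e]; simp
  · rw [sub_le_iff_le_add, div_le_iff₀ e]
    nlinarith [mul_nonneg ha hb, mul_nonneg hb hc, mul_nonneg hc ha]

/-- The harmonic mean is supermultiplicative. -/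
theorem hm_super {a b c d e f : ℝ} (h : Tri a b c) (k : Tri d e f) :
    hm a b c * hm d e f ≤
      (hm (a * d) (b * e) (c * f) + hm (a * e) (b * f) (c * d) + hm (a * f) (b * d) (c * e)) / 3 := by
  obtain ⟨ha, hb, hc, hs⟩ := h
  obtain ⟨hd, he, hf, ks⟩ := k
  by_cases z : a * b * c * (d * e * f) = 0
  · have : hm a b c * hm d e f = 0 := by
      rcases mul_eq_zero.1 z with z | z <;> simp [hm, z]
    rw [this]; unfold hm; positivity
  have hp : 0 < a * b * c * (d * e * f) := lt_of_le_of_ne (by positivity) (Ne.symm z)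
  simp only [mul_eq_zero, not_or] at z
  obtain ⟨⟨⟨za, zb⟩, zc⟩, ⟨zd, ze⟩, zf⟩ := z
  have ha : 0 < a := lt_of_le_of_ne ha (Ne.symm za)
  have hb : 0 < b := lt_of_le_of_ne hb (Ne.symm zb)
  have hc : 0 < c := lt_of_le_of_ne hc (Ne.symm zc)
  have hd : 0 < d := lt_of_le_of_ne hd (Ne.symm zd)
  have he : 0 < e := lt_of_le_of_ne he (Ne.symm ze)
  have hf : 0 < f := lt_of_le_of_ne hf (Ne.symm zf)
  set P := a * b * c * (d * e * f) with hP
  set E1 := a * d * (b * e) + b * e * (c * f) + c * f * (a * d) with hE1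
  set E2 := a * e * (b * f) + b * f * (c * d) + c * d * (a * e) with hE2
  set E3 := a * f * (b * d) + b * d * (c * e) + c * e * (a * f) with hE3
  have q1 : 0 < E1 := by positivity
  have q2 : 0 < E2 := by positivity
  have q3 : 0 < E3 := by positivity
  have esum : E1 + E2 + E3 = (a * b + b * c + c * a) * (d * e + e * f + f * d) := by
    rw [hE1, hE2, hE3]; ring
  have lhs : hm a b c * hm d e f = 9 * P / (E1 + E2 + E3) := by
    rw [esum, hm, hm, hP, div_mul_div_comm]; ring_nf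
  have r1 : hm (a * d) (b * e) (c * f) = 3 * P / E1 := by rw [hm, hP, hE1]; ring_nf
  have r2 : hm (a * e) (b * f) (c * d) = 3 * P / E2 := by rw [hm, hP, hE2]; ring_nf
  have r3 : hm (a * f) (b * d) (c * e) = 3 * P / E3 := by rw [hm, hP, hE3]; ring_nf
  rw [lhs, r1, r2, r3, show (3 * P / E1 + 3 * P / E2 + 3 * P / E3) / 3
    = P * (1 / E1 + 1 / E2 + 1 / E3) by ring, mul_comm 9 P, mul_div_assoc]
  refine mul_le_mul_of_nonneg_left ?_ hp.le
  rw [div_le_iff₀ (by linarith : 0 < E1 + E2 + E3)]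
  have t : ∀ u v : ℝ, 0 < u → 0 < v → 2 ≤ u / v + v / u := by
    intro u v hu hv
    rw [div_add_div _ _ hv.ne' hu.ne', le_div_iff₀ (by positivity)]
    nlinarith [sq_nonneg (u - v)]
  have := t E1 E2 q1 q2
  have := t E2 E3 q2 q3
  have := t E3 E1 q3 q1
  have : (1 / E1 + 1 / E2 + 1 / E3) * (E1 + E2 + E3)
      = 3 + (E1 / E2 + E2 / E1) + (E2 / E3 + E3 / E2) + (E3 / E1 + E1 / E3) := by
    field_simp
    ring
  linarith

/-- Average of a function over the three cyclic relabellings of the second vector. -/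
noncomputable def cyc (g : ℝ → ℝ → ℝ → ℝ) (a b c d e f : ℝ) : ℝ :=
  (g (a * d) (b * e) (c * f) + g (a * e) (b * f) (c * d) + g (a * f) (b * d) (c * e)) / 3

theorem cyc_zJ {a b c d e f : ℝ} (h : Tri a b c) (k : Tri d e f) :
    (cyc zC a b c d e f - 1 + hm a b c * hm d e f) / 2 ≤ cyc zJ a b c d e f := by
  have := hm_super h k
  have hone : ((a * d + b * e + c * f) + (a * e + b * f + c * d) + (a * f + b * d + c * e)) / 3 = 3 := by
    linear_combination (d + e + f) / 3 * h.hs + k.hs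
  unfold cyc zJ
  linarith

theorem vertex_of {a b c : ℝ} (h : Tri a b c) (e : a * b + b * c + c * a = 0) :
    (a = 3 ∧ b = 0 ∧ c = 0) ∨ (a = 0 ∧ b = 3 ∧ c = 0) ∨ (a = 0 ∧ b = 0 ∧ c = 3) := by
  obtain ⟨ha, hb, hc, hs⟩ := h
  have x1 := mul_nonneg ha hb
  have x2 := mul_nonneg hb hc
  have x3 := mul_nonneg hc ha
  have e1 : a * b = 0 := by linarith
  have e2 : b * c = 0 := by linarith
  have e3 : c * a = 0 := by linarith
  rcases mul_eq_zero.1 e1 with z | z
  · rcases mul_eq_zero.1 e2 with w | w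
    · exact Or.inr (Or.inr ⟨z, w, by linarith⟩)
    · exact Or.inr (Or.inl ⟨z, by linarith, w⟩)
  · rcases mul_eq_zero.1 e3 with w | w
    · exact Or.inl ⟨by linarith, z, w⟩
    · exact Or.inr (Or.inr ⟨w, z, by linarith⟩)

theorem cyc_vertex {a b c d e f : ℝ} (h : Tri a b c) (k : Tri d e f)
    (z : a * b + b * c + c * a = 0 ∨ d * e + e * f + f * d = 0) :
    cyc zC a b c d e f = 2 := by
  have hA : ∀ t : ℝ, zC (3 * t) 0 0 = 2 * t ∧ zC 0 (3 * t) 0 = 2 * t ∧ zC 0 0 (3 * t) = 2 * t := by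
    intro t
    rcases eq_or_ne t 0 with rfl | ht
    · simp [zC]
    · refine ⟨?_, ?_, ?_⟩ <;> simp [zC] <;> field_simp <;> ring
  have ks := k.hs
  have hs := h.hs
  rcases z with z | z
  · rcases vertex_of h z with ⟨rfl, rfl, rfl⟩ | ⟨rfl, rfl, rfl⟩ | ⟨rfl, rfl, rfl⟩ <;>
      simp only [cyc, zero_mul, (hA d).1, (hA d).2.1, (hA d).2.2, (hA e).1, (hA e).2.1, (hA e).2.2,
        (hA f).1, (hA f).2.1, (hA f).2.2] <;> linarith
  · rcases vertex_of k z with ⟨rfl, rfl, rfl⟩ | ⟨rfl, rfl, rfl⟩ | ⟨rfl, rfl, rfl⟩ <;>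
      simp only [cyc, mul_zero, mul_comm a 3, mul_comm b 3, mul_comm c 3, (hA a).1, (hA a).2.1,
        (hA a).2.2, (hA b).1, (hA b).2.1, (hA b).2.2, (hA c).1, (hA c).2.1, (hA c).2.2] <;> linarith

theorem mass_pos {a b c d e f : ℝ} (h : Tri a b c) (k : Tri d e f)
    (za : 0 < a * b + b * c + c * a) (zd : 0 < d * e + e * f + f * d) :
    0 < a * d + b * e + c * f := by
  obtain ⟨ha, hb, hc, hs⟩ := h
  obtain ⟨hd, he, hf, ks⟩ := k
  by_contra hcon
  have x1 := mul_nonneg ha hd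
  have x2 := mul_nonneg hb he
  have x3 := mul_nonneg hc hf
  have e1 : a * d = 0 := by linarith
  have e2 : b * e = 0 := by linarith
  have e3 : c * f = 0 := by linarith
  rcases mul_eq_zero.1 e1 with rfl | rfl <;> rcases mul_eq_zero.1 e2 with rfl | rfl <;>
    rcases mul_eq_zero.1 e3 with rfl | rfl <;> simp at za zd

/-- The data attached to a nondegenerate pair. -/
theorem generic {a b c d e f x y : ℝ} (h : Tri a b c) (k : Tri d e f)
    (za : 0 < a * b + b * c + c * a) (zd : 0 < d * e + e * f + f * d)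
    (hx : x ^ 2 = pp a b c) (hy : y ^ 2 = pp d e f) :
    ∃ Q : ℝ, 0 < Q ∧
      ((Q - 1 + 3 * x ^ 2 * y ^ 2) / 2 - (a * b * c - 1 + 3 * pp a b c) / 2
          * ((d * e * f - 1 + 3 * pp d e f) / 2)) ^ 2
        = (x ^ 6 - ((a * b * c - 1 + 3 * pp a b c) / 2) ^ 2)
          * (y ^ 6 - ((d * e * f - 1 + 3 * pp d e f) / 2) ^ 2) ∧
      Nn x y ((a * b * c - 1 + 3 * pp a b c) / 2) ((d * e * f - 1 + 3 * pp d e f) / 2)
        = Q * (cyc zC a b c d e f - 2) := by
  have hc : c = 3 - a - b := by linarith [h.hs]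
  have hf : f = 3 - d - e := by linarith [k.hs]
  set S1 := a * d + b * e + c * f with hS1
  set S2 := a * e + b * f + c * d with hS2
  set S3 := a * f + b * d + c * e with hS3
  have p1 : 0 < S1 := mass_pos h k za zd
  have p2 : 0 < S2 := mass_pos h ⟨k.hb, k.hc, k.ha, by linarith [k.hs]⟩ za (by linarith)
  have p3 : 0 < S3 := mass_pos h ⟨k.hc, k.ha, k.hb, by linarith [k.hs]⟩ za (by linarith)
  refine ⟨S1 * S2 * S3 / 27, by positivity, ?_, ?_⟩
  · rw [show x ^ 6 = (x ^ 2) ^ 3 by ring, show y ^ 6 = (y ^ 2) ^ 3 by ring, hx, hy, hS1, hS2, hS3,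
      pp, pp, hc, hf]
    ring
  · have hL : cyc zC a b c d e f - 2 =
        (((a * d) ^ 2 + (b * e) ^ 2 + (c * f) ^ 2) * (S2 * S3)
          + ((a * e) ^ 2 + (b * f) ^ 2 + (c * d) ^ 2) * (S1 * S3)
          + ((a * f) ^ 2 + (b * d) ^ 2 + (c * e) ^ 2) * (S1 * S2)) / (3 * (S1 * S2 * S3))
          - 3 := by
      have hsum : S1 + S2 + S3 = 9 := by rw [hS1, hS2, hS3, hc, hf]; ring
      have e1 : cyc zC a b c d e f = ((((a * d) ^ 2 + (b * e) ^ 2 + (c * f) ^ 2) / S1
          + ((a * e) ^ 2 + (b * f) ^ 2 + (c * d) ^ 2) / S2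
          + ((a * f) ^ 2 + (b * d) ^ 2 + (c * e) ^ 2) / S3) - (S1 + S2 + S3) / 3) / 3 := by
        simp only [cyc, zC, ← hS1, ← hS2, ← hS3]; ring
      rw [e1, hsum]
      field_simp
      ring
    rw [hL, mul_sub, show S1 * S2 * S3 / 27 * ((((a * d) ^ 2 + (b * e) ^ 2 + (c * f) ^ 2) * (S2 * S3)
          + ((a * e) ^ 2 + (b * f) ^ 2 + (c * d) ^ 2) * (S1 * S3)
          + ((a * f) ^ 2 + (b * d) ^ 2 + (c * e) ^ 2) * (S1 * S2)) / (3 * (S1 * S2 * S3)))
        = (((a * d) ^ 2 + (b * e) ^ 2 + (c * f) ^ 2) * (S2 * S3)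
          + ((a * e) ^ 2 + (b * f) ^ 2 + (c * d) ^ 2) * (S1 * S3)
          + ((a * f) ^ 2 + (b * d) ^ 2 + (c * e) ^ 2) * (S1 * S2)) / 81 by field_simp; ring]
    unfold Nn
    rw [hx, hy, hS1, hS2, hS3, pp, pp, hc, hf]
    ring

/-- The gain inequality on one class. -/
theorem class_gain {a b c d e f : ℝ} (h : Tri a b c) (k : Tri d e f) :
    al d e f * jj a b c + al a b c * jj d e f ≤ cyc zJ a b c d e f := by
  refine le_trans ?_ (cyc_zJ h k)
  by_cases z : a * b + b * c + c * a = 0 ∨ d * e + e * f + f * d = 0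
  · rw [cyc_vertex h k z]
    rcases z with z | z
    · have := k.al_mem
      simp [al, jj, hm, pp, z] at this ⊢
      linarith
    · have := h.al_mem
      simp [al, jj, hm, pp, z] at this ⊢
      linarith
  push Not at z
  have za : 0 < a * b + b * c + c * a := lt_of_le_of_ne h.e2_nonneg (Ne.symm z.1)
  have zd : 0 < d * e + e * f + f * d := lt_of_le_of_ne k.e2_nonneg (Ne.symm z.2)
  set x := Real.sqrt (pp a b c) with hxd
  set y := Real.sqrt (pp d e f) with hyd
  have hx : x ^ 2 = pp a b c := Real.sq_sqrt h.pp_mem.1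
  have hy : y ^ 2 = pp d e f := Real.sq_sqrt k.pp_mem.1
  have q0 : 0 < 1 - x ^ 2 := by rw [hx, pp]; linarith
  have r0 : 0 < 1 - y ^ 2 := by rw [hy, pp]; linarith
  obtain ⟨Q, hQ, hR, hN⟩ := generic h k za zd hx hy
  have g := core_gain (h.adm (Real.sqrt_nonneg _) hx) (k.adm (Real.sqrt_nonneg _) hy)
    (by nlinarith) (by nlinarith) hR
  rw [hN] at g
  set m := (a * b * c - 1 + 3 * pp a b c) / 2 with hm'
  set n := (d * e * f - 1 + 3 * pp d e f) / 2 with hn'
  have g' : 0 ≤ Bb x y m n + (cyc zC a b c d e f - 2) * ((1 - x ^ 2) * (1 - y ^ 2)) := by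
    refine nonneg_of_mul_nonneg_left ?_ hQ
    linarith
  have h1 : hm a b c = (1 - 3 * x ^ 2 + 2 * m) / (1 - x ^ 2) := by
    rw [hx, hm', hm, pp, div_eq_div_iff za.ne' (by linarith)]; ring
  have h2 : hm d e f = (1 - 3 * y ^ 2 + 2 * n) / (1 - y ^ 2) := by
    rw [hy, hn', hm, pp, div_eq_div_iff zd.ne' (by linarith)]; ring
  have hD : cyc zC a b c d e f - 1 + hm a b c * hm d e f
      - 2 * (al d e f * jj a b c + al a b c * jj d e f)
      = (Bb x y m n + (cyc zC a b c d e f - 2) * ((1 - x ^ 2) * (1 - y ^ 2)))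
        / ((1 - x ^ 2) * (1 - y ^ 2)) := by
    simp only [al, jj, h1, h2, ← hx, ← hy, Bb]
    field_simp
    ring
  have := div_nonneg g' (mul_pos q0 r0).le
  linarith

/-- The subadditivity inequality on one class. -/
theorem class_sub {a b c d e f : ℝ} (h : Tri a b c) (k : Tri d e f) :
    cyc zC a b c d e f ≤ 2 * pp a b c + 2 * pp d e f - pp a b c * pp d e f / 4
      - 3 * be d e f * jj a b c - 3 * be a b c * jj d e f := by
  by_cases z : a * b + b * c + c * a = 0 ∨ d * e + e * f + f * d = 0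
  · rw [cyc_vertex h k z]
    rcases z with z | z
    · obtain ⟨p0, p1⟩ := k.pp_mem
      have e1 : pp a b c = 1 := by simp [pp, z]
      have e2 : jj a b c = 1 / 2 := by simp [jj, hm, e1, z]; ring
      simp only [be, e1, e2]
      nlinarith
    · obtain ⟨p0, p1⟩ := h.pp_mem
      have e1 : pp d e f = 1 := by simp [pp, z]
      have e2 : jj d e f = 1 / 2 := by simp [jj, hm, e1, z]; ring
      simp only [be, e1, e2]
      nlinarith
  push Not at z
  have za : 0 < a * b + b * c + c * a := lt_of_le_of_ne h.e2_nonneg (Ne.symm z.1)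
  have zd : 0 < d * e + e * f + f * d := lt_of_le_of_ne k.e2_nonneg (Ne.symm z.2)
  set x := Real.sqrt (pp a b c) with hxd
  set y := Real.sqrt (pp d e f) with hyd
  have hx : x ^ 2 = pp a b c := Real.sq_sqrt h.pp_mem.1
  have hy : y ^ 2 = pp d e f := Real.sq_sqrt k.pp_mem.1
  have q0 : 0 < 1 - x ^ 2 := by rw [hx, pp]; linarith
  have r0 : 0 < 1 - y ^ 2 := by rw [hy, pp]; linarith
  obtain ⟨Q, hQ, hR, hN⟩ := generic h k za zd hx hy
  have hle : cyc zC a b c d e f ≤ 2 := by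
    have hone : ((a * d + b * e + c * f) + (a * e + b * f + c * d) + (a * f + b * d + c * e)) / 3 = 3 := by
      linear_combination (d + e + f) / 3 * h.hs + k.hs
    have := zC_le (mul_nonneg h.ha k.ha) (mul_nonneg h.hb k.hb) (mul_nonneg h.hc k.hc)
    have := zC_le (mul_nonneg h.ha k.hb) (mul_nonneg h.hb k.hc) (mul_nonneg h.hc k.ha)
    have := zC_le (mul_nonneg h.ha k.hc) (mul_nonneg h.hb k.ha) (mul_nonneg h.hc k.hb)
    unfold cyc
    linarith
  have g := core_sub (h.adm (Real.sqrt_nonneg _) hx) (k.adm (Real.sqrt_nonneg _) hy) hQ.le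
    (by rw [hN]; exact mul_nonpos_of_nonneg_of_nonpos hQ.le (by linarith)) hR
  rw [hN] at g
  set m := (a * b * c - 1 + 3 * pp a b c) / 2 with hm'
  set n := (d * e * f - 1 + 3 * pp d e f) / 2 with hn'
  have g' : 0 ≤ Tt x y m n - (cyc zC a b c d e f - 2) * ((1 - x ^ 2) * (1 - y ^ 2)) := by
    refine nonneg_of_mul_nonneg_left ?_ hQ
    linarith
  have h1 : hm a b c = (1 - 3 * x ^ 2 + 2 * m) / (1 - x ^ 2) := by
    rw [hx, hm', hm, pp, div_eq_div_iff za.ne' (by linarith)]; ring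
  have h2 : hm d e f = (1 - 3 * y ^ 2 + 2 * n) / (1 - y ^ 2) := by
    rw [hy, hn', hm, pp, div_eq_div_iff zd.ne' (by linarith)]; ring
  have hD : 2 * pp a b c + 2 * pp d e f - pp a b c * pp d e f / 4
      - 3 * be d e f * jj a b c - 3 * be a b c * jj d e f - cyc zC a b c d e f
      = (Tt x y m n - (cyc zC a b c d e f - 2) * ((1 - x ^ 2) * (1 - y ^ 2)))
        / ((1 - x ^ 2) * (1 - y ^ 2)) := by
    simp only [be, jj, h1, h2, ← hx, ← hy, Tt]
    field_simp
    ring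
  have := div_nonneg g' (mul_pos q0 r0).le
  linarith

end Vale.P154.Q3
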