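import Vale.Agent.P154.Fold
import Vale.Agent.P154.Q3Class

/-!
# The two-point certificate for three colours and nonnegative interaction
-/

noncomputable section

namespace Vale.P154.Q3

open Finset

/-- A function of three likelihood ratios, as a function of a centred vector. -/
def ofTri (g : ℝ → ℝ → ℝ → ℝ) (w : Fin 3 → ℝ) : ℝ := g (1 + w 0) (1 + w 1) (1 + w 2)

theorem tri_of_simp {w : Fin 3 → ℝ} (h : Simp w) : Tri (1 + w 0) (1 + w 1) (1 + w 2) := by
  obtain ⟨h1, h2⟩ := h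
  rw [Fin.sum_univ_three] at h2
  exact ⟨by linarith [h1 0], by linarith [h1 1], by linarith [h1 2], by linarith⟩

theorem simp_mul {y : Fin 3 → ℝ} {lam : ℝ} (hy : Simp y) (l0 : 0 ≤ lam) (l1 : lam ≤ 1) :
    Simp (fun i => lam * y i) := by
  refine ⟨fun i => ?_, by rw [← Finset.mul_sum, hy.2, mul_zero]⟩
  nlinarith [mul_nonneg l0 (by linarith [hy.1 i] : 0 ≤ 1 + y i)]

theorem ofTri_perm (g : ℝ → ℝ → ℝ → ℝ) (h1 : ∀ a b c, g b a c = g a b c)
    (h2 : ∀ a b c, g a c b = g a b c) (y : Fin 3 → ℝ) (π : Equiv.Perm (Fin 3)) :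
    ofTri g (fun i => y (π i)) = ofTri g y := by
  have e : (π 0 = 0 ∧ π 1 = 1 ∧ π 2 = 2) ∨ (π 0 = 0 ∧ π 1 = 2 ∧ π 2 = 1) ∨
      (π 0 = 1 ∧ π 1 = 0 ∧ π 2 = 2) ∨ (π 0 = 1 ∧ π 1 = 2 ∧ π 2 = 0) ∨
      (π 0 = 2 ∧ π 1 = 0 ∧ π 2 = 1) ∨ (π 0 = 2 ∧ π 1 = 1 ∧ π 2 = 0) := by
    revert π; decide
  rcases e with h | h | h | h | h | h <;> simp only [ofTri, h.1, h.2.1, h.2.2]
  · exact h2 _ _ _
  · exact h1 _ _ _
  · rw [h2, h1]
  · rw [h1, h2]
  · rw [h1, h2, h1]

theorem pp_symm₁ (a b c : ℝ) : pp b a c = pp a b c := by unfold pp; ring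
theorem pp_symm₂ (a b c : ℝ) : pp a c b = pp a b c := by unfold pp; ring
theorem hm_symm₁ (a b c : ℝ) : hm b a c = hm a b c := by unfold hm; ring_nf
theorem hm_symm₂ (a b c : ℝ) : hm a c b = hm a b c := by unfold hm; ring_nf

theorem pp_perm (y : Fin 3 → ℝ) (π : Equiv.Perm (Fin 3)) :
    ofTri pp (fun i => y (π i)) = ofTri pp y := ofTri_perm pp pp_symm₁ pp_symm₂ y π

theorem jj_perm (y : Fin 3 → ℝ) (π : Equiv.Perm (Fin 3)) :
    ofTri jj (fun i => y (π i)) = ofTri jj y :=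
  ofTri_perm jj (fun a b c => by simp [jj, pp_symm₁, hm_symm₁])
    (fun a b c => by simp [jj, pp_symm₂, hm_symm₂]) y π

theorem al_perm (y : Fin 3 → ℝ) (π : Equiv.Perm (Fin 3)) :
    ofTri al (fun i => y (π i)) = ofTri al y :=
  ofTri_perm al (fun a b c => by simp [al, pp_symm₁, hm_symm₁])
    (fun a b c => by simp [al, pp_symm₂, hm_symm₂]) y π

theorem be_perm (y : Fin 3 → ℝ) (π : Equiv.Perm (Fin 3)) :
    ofTri be (fun i => y (π i)) = ofTri be y :=
  ofTri_perm be (fun a b c => by simp [be, pp_symm₁]) (fun a b c => by simp [be, pp_symm₂]) y π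

theorem chi_eq_pp {w : Fin 3 → ℝ} (h : Simp w) : chi w = 2 * ofTri pp w := by
  obtain ⟨-, h2⟩ := h
  rw [Fin.sum_univ_three] at h2
  simp only [chi, ofTri, pp, Fin.sum_univ_three]
  push_cast
  have e : w 2 = -w 0 - w 1 := by linarith
  rw [e]; ring

/-- Mass times chi-square after normalisation. -/
theorem mass_chi (a : Fin 3 → ℝ) (ha : ∀ i, 0 ≤ a i) :
    ((∑ i, a i) / 3) * chi (rel a) = zC (a 0) (a 1) (a 2) := by
  have h0 : 0 ≤ a 0 + a 1 + a 2 := by linarith [ha 0, ha 1, ha 2]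
  simp only [chi, rel, zC, Fin.sum_univ_three]
  push_cast
  rcases h0.eq_or_lt with e | e
  · rw [← e]; simp
  · field_simp; ring

/-- Mass times the invariant after normalisation. -/
theorem mass_jj (a : Fin 3 → ℝ) (ha : ∀ i, 0 ≤ a i) :
    ((∑ i, a i) / 3) * ofTri jj (rel a) = zJ (a 0) (a 1) (a 2) := by
  have x0 := ha 0
  have x1 := ha 1
  have x2 := ha 2
  have h0 : 0 ≤ a 0 + a 1 + a 2 := by linarith
  rcases h0.eq_or_lt with e | e
  · have z0 : a 0 = 0 := by linarith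
    have z1 : a 1 = 0 := by linarith
    have z2 : a 2 = 0 := by linarith
    simp [Fin.sum_univ_three, zJ, zC, hm, z0, z1, z2]
  · set S := a 0 + a 1 + a 2 with hS
    have hr : ∀ i, 1 + rel a i = 3 / S * a i := by
      intro i; simp only [rel, Fin.sum_univ_three, ← hS]; push_cast; ring
    simp only [ofTri, hr, jj, Fin.sum_univ_three, ← hS]
    have hh : hm (3 / S * a 0) (3 / S * a 1) (3 / S * a 2) = 3 / S * hm (a 0) (a 1) (a 2) := by
      have : (3 : ℝ) / S ≠ 0 := by positivity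
      rw [hm, hm, show 3 / S * a 0 * (3 / S * a 1) + 3 / S * a 1 * (3 / S * a 2)
        + 3 / S * a 2 * (3 / S * a 0) = (3 / S) ^ 2 * (a 0 * a 1 + a 1 * a 2 + a 2 * a 0) by ring,
        show 3 * (3 / S * a 0 * (3 / S * a 1) * (3 / S * a 2))
          = (3 / S) ^ 2 * (3 / S * (3 * (a 0 * a 1 * a 2))) by ring,
        mul_div_mul_left _ _ (pow_ne_zero 2 this), mul_div_assoc]
    rw [hh]
    simp only [zJ, zC, pp, ← hS]
    field_simp
    rw [hS]
    ring

/-- Sum over all relabellings, grouped by cyclic classes. -/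
theorem three_mul_sum_perm (F : Equiv.Perm (Fin 3) → ℝ) :
    3 * ∑ π, F π = ∑ π, (F π + F (π * finRotate 3) + F (π * (finRotate 3 * finRotate 3))) := by
  rw [Finset.sum_add_distrib, Finset.sum_add_distrib]
  have e1 := Fintype.sum_equiv (Equiv.mulRight (finRotate 3)) (fun π => F (π * finRotate 3)) F
    (fun π => rfl)
  have e2 := Fintype.sum_equiv (Equiv.mulRight (finRotate 3 * finRotate 3))
    (fun π => F (π * (finRotate 3 * finRotate 3))) F (fun π => rfl)
  rw [e1, e2]; ring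

theorem card_perm3 : (Fintype.card (Equiv.Perm (Fin 3)) : ℝ) = 6 := by
  simp [Fintype.card_perm, Nat.factorial]

/-- The average over relabellings of a normalised function is an average over classes. -/
theorem mix_eq (lam : ℝ) (f : (Fin 3 → ℝ) → ℝ) (g : ℝ → ℝ → ℝ → ℝ)
    (hg : ∀ a : Fin 3 → ℝ, (∀ i, 0 ≤ a i) → ((∑ i, a i) / 3) * f (rel a) = g (a 0) (a 1) (a 2))
    {w y : Fin 3 → ℝ} (hw : Simp w) (hu : Simp (fun i => lam * y i)) :
    mix lam f w y = (∑ π : Equiv.Perm (Fin 3), cyc g (1 + w 0) (1 + w 1) (1 + w 2)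
      (1 + lam * y (π 0)) (1 + lam * y (π 1)) (1 + lam * y (π 2))) / 6 := by
  set F : Equiv.Perm (Fin 3) → ℝ := fun π => g ((1 + w 0) * (1 + lam * y (π 0)))
    ((1 + w 1) * (1 + lam * y (π 1))) ((1 + w 2) * (1 + lam * y (π 2))) with hF
  have e : mix lam f w y = (∑ π, F π) / 6 := by
    rw [mix, card_perm3]
    congr 1
    refine Finset.sum_congr rfl fun π _ => ?_
    have := hg (tilt lam w fun j => y (π j)) (fun i => mul_nonneg (by linarith [hw.1 i])
      (by linarith [hu.1 (π i)]))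
    simpa [tilt, hF] using this
  have r0 : finRotate 3 (0 : Fin 3) = 1 := by decide
  have r1 : finRotate 3 (1 : Fin 3) = 2 := by decide
  have r2 : finRotate 3 (2 : Fin 3) = 0 := by decide
  have e3 : ∑ π : Equiv.Perm (Fin 3), cyc g (1 + w 0) (1 + w 1) (1 + w 2)
      (1 + lam * y (π 0)) (1 + lam * y (π 1)) (1 + lam * y (π 2)) = ∑ π, F π := by
    have h3 := three_mul_sum_perm F
    simp only [cyc, ← Finset.sum_div, hF, Equiv.Perm.mul_apply, r0, r1, r2] at h3 ⊢
    linarith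
  rw [e, e3]

theorem class_tri {y : Fin 3 → ℝ} {lam : ℝ} (hu : Simp (fun i => lam * y i))
    (π : Equiv.Perm (Fin 3)) :
    Tri (1 + lam * y (π 0)) (1 + lam * y (π 1)) (1 + lam * y (π 2)) := by
  refine tri_of_simp (w := fun i => lam * y (π i)) ⟨fun i => hu.1 (π i), ?_⟩
  rw [Equiv.sum_comp π fun i => lam * y i]
  exact hu.2

theorem mix_jj_ge {lam : ℝ} {w y : Fin 3 → ℝ} (hw : Simp w) (hu : Simp (fun i => lam * y i)) :
    ofTri al (fun i => lam * y i) * ofTri jj w + ofTri al w * ofTri jj (fun i => lam * y i)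
      ≤ mix lam (ofTri jj) w y := by
  rw [mix_eq lam (ofTri jj) zJ mass_jj hw hu, le_div_iff₀ (by norm_num)]
  have h : ∀ π : Equiv.Perm (Fin 3),
      ofTri al (fun i => lam * y i) * ofTri jj w + ofTri al w * ofTri jj (fun i => lam * y i)
      ≤ cyc zJ (1 + w 0) (1 + w 1) (1 + w 2)
        (1 + lam * y (π 0)) (1 + lam * y (π 1)) (1 + lam * y (π 2)) := by
    intro π
    rw [← al_perm (fun i => lam * y i) π, ← jj_perm (fun i => lam * y i) π]
    exact class_gain (tri_of_simp hw) (class_tri hu π)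
  have := Finset.card_nsmul_le_sum Finset.univ _ _ fun π _ => h π
  simp only [Finset.card_univ, nsmul_eq_mul, card_perm3] at this
  linarith

theorem mix_chi_le {lam : ℝ} {w y : Fin 3 → ℝ} (hw : Simp w) (hu : Simp (fun i => lam * y i)) :
    mix lam chi w y ≤ chi w + chi (fun i => lam * y i) - chi w * chi (fun i => lam * y i) / 16
      - 3 * ofTri be (fun i => lam * y i) * ofTri jj w
      - 3 * ofTri be w * ofTri jj (fun i => lam * y i) := by
  rw [mix_eq lam chi zC mass_chi hw hu, div_le_iff₀ (by norm_num), chi_eq_pp hw, chi_eq_pp hu]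
  have h : ∀ π : Equiv.Perm (Fin 3),
      cyc zC (1 + w 0) (1 + w 1) (1 + w 2)
        (1 + lam * y (π 0)) (1 + lam * y (π 1)) (1 + lam * y (π 2)) ≤
      2 * ofTri pp w + 2 * ofTri pp (fun i => lam * y i)
        - ofTri pp w * ofTri pp (fun i => lam * y i) / 4
        - 3 * ofTri be (fun i => lam * y i) * ofTri jj w
        - 3 * ofTri be w * ofTri jj (fun i => lam * y i) := by
    intro π
    rw [← be_perm (fun i => lam * y i) π, ← jj_perm (fun i => lam * y i) π,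
      ← pp_perm (fun i => lam * y i) π]
    exact class_sub (tri_of_simp hw) (class_tri hu π)
  have := Finset.sum_le_card_nsmul Finset.univ _ _ fun π _ => h π
  simp only [Finset.card_univ, nsmul_eq_mul, card_perm3] at this
  linarith

/-- Passing the invariant through one ferromagnetic edge. -/
theorem jj_edge {lam : ℝ} (l0 : 0 ≤ lam) (l1 : lam ≤ 1) {y : Fin 3 → ℝ} (hy : Simp y) :
    lam ^ 3 * ofTri jj y ≤ ofTri jj (fun i => lam * y i) := by
  have h := tri_of_simp hy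
  obtain ⟨p0, p1⟩ := h.pp_mem
  set x := Real.sqrt (pp (1 + y 0) (1 + y 1) (1 + y 2)) with hxd
  have hx : x ^ 2 = pp (1 + y 0) (1 + y 1) (1 + y 2) := Real.sq_sqrt p0
  have x0 : 0 ≤ x := Real.sqrt_nonneg _
  have hm' := (h.adm x0 hx).ub
  have x1 : x ≤ 1 := by nlinarith
  have hs : y 2 = -y 0 - y 1 := by
    have := hy.2; rw [Fin.sum_univ_three] at this; linarith
  set m := ((1 + y 0) * (1 + y 1) * (1 + y 2) - 1 + 3 * pp (1 + y 0) (1 + y 1) (1 + y 2)) / 2
    with hm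
  have eP : pp (1 + lam * y 0) (1 + lam * y 1) (1 + lam * y 2) = lam ^ 2 * x ^ 2 := by
    rw [hx, pp, pp, hs]; ring
  have e3 : (1 + lam * y 0) * (1 + lam * y 1) * (1 + lam * y 2)
      = 1 - 3 * (lam ^ 2 * x ^ 2) + 2 * (lam ^ 3 * m) := by
    rw [hm, hx, pp, hs]; ring
  have e3' : (1 + y 0) * (1 + y 1) * (1 + y 2) = 1 - 3 * x ^ 2 + 2 * m := by
    rw [hm, hx]; ring
  have e2 : ∀ a b c : ℝ, a * b + b * c + c * a = 3 * (1 - pp a b c) := by
    intro a b c; unfold pp; ring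
  simp only [ofTri, jj, Q3.hm, e2, eP, e3, e3', ← hx]
  clear_value x
  rcases x1.eq_or_lt with hx1 | hx1
  · -- a vertex
    subst hx1
    have hmlo := (h.adm x0 hx).edge
    have m1 : m = 1 := by linarith
    rw [m1]
    rcases l1.eq_or_lt with e | e
    · subst e; norm_num
    · have : 0 < 1 - lam ^ 2 := by nlinarith
      simp only [one_pow, mul_one, sub_self, mul_zero, div_zero, add_zero]
      have key : (2 * lam ^ 2 - 1 + 3 * (1 - 3 * lam ^ 2 + 2 * lam ^ 3) / (3 * (1 - lam ^ 2))) / 2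
          = lam ^ 3 / (1 + lam) := by
        field_simp
        ring
      rw [key, le_div_iff₀ (by linarith)]
      nlinarith [pow_nonneg l0 3]
  · have q0 : 0 < 1 - x ^ 2 := by nlinarith
    have q1 : 0 < 1 - lam ^ 2 * x ^ 2 := by
      nlinarith [mul_nonneg (sub_nonneg.2 (pow_le_one₀ l0 l1 : lam ^ 2 ≤ 1)) (pow_nonneg x0 2)]
    have key : (2 * (lam ^ 2 * x ^ 2) - 1
        + 3 * (1 - 3 * (lam ^ 2 * x ^ 2) + 2 * (lam ^ 3 * m)) / (3 * (1 - lam ^ 2 * x ^ 2))) / 2
        - lam ^ 3 * ((2 * x ^ 2 - 1 + 3 * (1 - 3 * x ^ 2 + 2 * m) / (3 * (1 - x ^ 2))) / 2)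
        = lam ^ 3 * x ^ 2 * (1 - lam) * (x ^ 2 * (1 + lam * x ^ 2) - (1 + lam) * m)
          / ((1 - lam ^ 2 * x ^ 2) * (1 - x ^ 2)) := by
      field_simp
      ring
    have hlast : 0 ≤ x ^ 2 * (1 + lam * x ^ 2) - (1 + lam) * m := by
      have hlx : 0 ≤ 1 - lam * x := by nlinarith
      nlinarith [mul_nonneg (mul_nonneg (pow_nonneg x0 2) (sub_nonneg.2 x1)) hlx,
        mul_nonneg (by linarith : (0:ℝ) ≤ 1 + lam) (sub_nonneg.2 hm')]
    have := div_nonneg (mul_nonneg (mul_nonneg (mul_nonneg (pow_nonneg l0 3) (pow_nonneg x0 2))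
      (sub_nonneg.2 l1)) hlast) (mul_pos q1 q0).le
    linarith

/-- The certificate for three colours and `0 ≤ lam ≤ 1`. -/
def twoPoint (lam : ℝ) (l0 : 0 ≤ lam) (l1 : lam ≤ 1) : TwoPoint 3 lam (lam ^ 2 / 16) where
  K := ofTri jj
  a y := 3 * ofTri be (fun i => lam * y i)
  b w := 3 * ofTri be w * lam ^ 3
  kap w := ofTri al w * lam ^ 3
  kaw y := ofTri al (fun i => lam * y i)
  ha y hy := mul_nonneg (by norm_num) (tri_of_simp (simp_mul hy l0 l1)).be_nonneg
  hb w hw := mul_nonneg (mul_nonneg (by norm_num) (tri_of_simp hw).be_nonneg) (pow_nonneg l0 3)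
  hkap w hw := mul_nonneg (tri_of_simp hw).al_mem.1 (pow_nonneg l0 3)
  hkaw y hy := (tri_of_simp (simp_mul hy l0 l1)).al_mem.1
  K_zero := by simp [ofTri, jj, pp, hm]; norm_num
  K_leaf s := by fin_cases s <;> simp [ofTri, rel, jj, pp, hm, Fin.sum_univ_three] <;> norm_num
  gain w y hw hy := by
    refine le_trans ?_ (mix_jj_ge hw (simp_mul hy l0 l1))
    have := mul_le_mul_of_nonneg_left (jj_edge l0 l1 hy) (tri_of_simp hw).al_mem.1
    simp only [ofTri] at this ⊢
    linarith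
  sub w y hw hy := by
    refine le_trans (mix_chi_le hw (simp_mul hy l0 l1)) ?_
    have hc : chi (fun i => lam * y i) = lam ^ 2 * chi y := by
      simp [chi, mul_pow, ← Finset.mul_sum]; ring
    have := mul_le_mul_of_nonneg_left (jj_edge l0 l1 hy) (tri_of_simp hw).be_nonneg
    rw [hc]
    simp only [ofTri] at this ⊢
    linarith

end Vale.P154.Q3
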