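import Vale.Agent.P154.Q4Pi

/-!
# Four states: the average of the minorant over relabellings

The minorant is a combination of symmetrised monomials. The average over relabellings of a
symmetrised monomial of a coordinatewise product is the product of the two symmetrised monomials,
and each of these is linear in the features.
-/

noncomputable section

namespace Vale.P154.Q4

open Finset

namespace Avg

set_option linter.unusedSimpArgs false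

/-- The symmetrised monomial. -/
def msum (b : Fin 4 → ℕ) (A : Fin 4 → ℝ) : ℝ :=
  ∑ σ : Equiv.Perm (Fin 4), ∏ i, A (σ i) ^ b i

/-- Symmetrised monomials of a relabelled product. -/
theorem sum_msum_mul (b : Fin 4 → ℕ) (v u : Fin 4 → ℝ) :
    ∑ π : Equiv.Perm (Fin 4), msum b (fun i => v i * u (π i)) = msum b v * msum b u := by
  simp only [msum, mul_pow, Finset.prod_mul_distrib]
  rw [Finset.sum_comm, Finset.sum_mul]
  refine Finset.sum_congr rfl fun σ _ => ?_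
  rw [← Finset.mul_sum]
  exact congrArg _ (Fintype.sum_equiv (Equiv.mulRight σ) _ _ fun π => rfl)

/-- The six relabellings fixing colour zero. -/
def sig : Fin 6 → Equiv.Perm (Fin 4) :=
  ![1, Equiv.swap 1 2, Equiv.swap 1 3, Equiv.swap 2 3, Equiv.swap 1 2 * Equiv.swap 2 3,
    Equiv.swap 2 3 * Equiv.swap 1 2]

/-- The four shifts. -/
def shf : Fin 4 → Equiv.Perm (Fin 4) :=
  ![1, Equiv.swap 0 1 * Equiv.swap 2 3, Equiv.swap 0 2 * Equiv.swap 1 3,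
    Equiv.swap 0 3 * Equiv.swap 1 2]

theorem sig_shf_bijective :
    Function.Bijective fun p : Fin 6 × Fin 4 => sig p.1 * shf p.2 := by
  rw [Fintype.bijective_iff_injective_and_card]
  refine ⟨?_, by simp [Fintype.card_perm, Nat.factorial]⟩
  unfold Function.Injective
  decide

/-- The twenty-four terms of a symmetrised monomial. -/
def mon24 (p q r s : ℕ) (A : Fin 4 → ℝ) : ℝ :=
A 0 ^ p * A 1 ^ q * A 2 ^ r * A 3 ^ s + A 0 ^ p * A 1 ^ q * A 3 ^ r * A 2 ^ s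
    + A 0 ^ p * A 2 ^ q * A 1 ^ r * A 3 ^ s + A 0 ^ p * A 2 ^ q * A 3 ^ r * A 1 ^ s
    + A 0 ^ p * A 3 ^ q * A 1 ^ r * A 2 ^ s + A 0 ^ p * A 3 ^ q * A 2 ^ r * A 1 ^ s
    + A 1 ^ p * A 0 ^ q * A 2 ^ r * A 3 ^ s + A 1 ^ p * A 0 ^ q * A 3 ^ r * A 2 ^ s
    + A 1 ^ p * A 2 ^ q * A 0 ^ r * A 3 ^ s + A 1 ^ p * A 2 ^ q * A 3 ^ r * A 0 ^ s
    + A 1 ^ p * A 3 ^ q * A 0 ^ r * A 2 ^ s + A 1 ^ p * A 3 ^ q * A 2 ^ r * A 0 ^ s
    + A 2 ^ p * A 0 ^ q * A 1 ^ r * A 3 ^ s + A 2 ^ p * A 0 ^ q * A 3 ^ r * A 1 ^ s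
    + A 2 ^ p * A 1 ^ q * A 0 ^ r * A 3 ^ s + A 2 ^ p * A 1 ^ q * A 3 ^ r * A 0 ^ s
    + A 2 ^ p * A 3 ^ q * A 0 ^ r * A 1 ^ s + A 2 ^ p * A 3 ^ q * A 1 ^ r * A 0 ^ s
    + A 3 ^ p * A 0 ^ q * A 1 ^ r * A 2 ^ s + A 3 ^ p * A 0 ^ q * A 2 ^ r * A 1 ^ s
    + A 3 ^ p * A 1 ^ q * A 0 ^ r * A 2 ^ s + A 3 ^ p * A 1 ^ q * A 2 ^ r * A 0 ^ s
    + A 3 ^ p * A 2 ^ q * A 0 ^ r * A 1 ^ s + A 3 ^ p * A 2 ^ q * A 1 ^ r * A 0 ^ s

theorem msum_eq (p q r s : ℕ) (A : Fin 4 → ℝ) : msum ![p, q, r, s] A = mon24 p q r s A := by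
  have h : ∀ f : Equiv.Perm (Fin 4) → ℝ, ∑ σ, f σ = ∑ a : Fin 6, ∑ k : Fin 4, f (sig a * shf k) :=
    fun f => by
      rw [← Fintype.sum_prod_type']
      exact (Fintype.sum_bijective _ sig_shf_bijective _ _ fun _ => rfl).symm
  rw [msum, h]
  simp [Fin.sum_univ_six, Fin.sum_univ_four, Fin.prod_univ_four, sig, shf, Equiv.swap_apply_def,
    mon24]
  ring

/-- The power sums. -/
def pw (n : ℕ) (A : Fin 4 → ℝ) : ℝ := ∑ i, A i ^ n

/-- The second elementary symmetric function, through power sums. -/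
def el2 (A : Fin 4 → ℝ) : ℝ := (pw 1 A ^ 2 - pw 2 A) / 2

/-- The third elementary symmetric function, through power sums. -/
def el3 (A : Fin 4 → ℝ) : ℝ := (el2 A * pw 1 A - pw 1 A * pw 2 A + pw 3 A) / 3

/-- The fourth elementary symmetric function, through power sums. -/
def el4 (A : Fin 4 → ℝ) : ℝ :=
  (el3 A * pw 1 A - el2 A * pw 2 A + pw 1 A * pw 3 A - pw 4 A) / 4

theorem newton (n : ℕ) (A : Fin 4 → ℝ) :
    pw (n + 4) A = pw 1 A * pw (n + 3) A - el2 A * pw (n + 2) A + el3 A * pw (n + 1) A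
      - el4 A * pw n A := by
  simp only [el4, el3, el2, pw, Fin.sum_univ_four]
  ring

/-- A symmetrised monomial through power sums. -/
theorem msum_pw (p q r s : ℕ) (A : Fin 4 → ℝ) :
    msum ![p, q, r, s] A =
      pw p A * pw q A * pw r A * pw s A
        - pw (p + q) A * pw r A * pw s A - pw (p + r) A * pw q A * pw s A
        - pw (p + s) A * pw q A * pw r A - pw (q + r) A * pw p A * pw s A
        - pw (q + s) A * pw p A * pw r A - pw (r + s) A * pw p A * pw q A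
        + pw (p + q) A * pw (r + s) A + pw (p + r) A * pw (q + s) A
        + pw (p + s) A * pw (q + r) A
        + 2 * (pw (p + q + r) A * pw s A + pw (p + q + s) A * pw r A
          + pw (p + r + s) A * pw q A + pw (q + r + s) A * pw p A)
        - 6 * pw (p + q + r + s) A := by
  rw [msum_eq]
  simp only [mon24, pw, Fin.sum_univ_four]
  ring

theorem pw_zero (A : Fin 4 → ℝ) : pw 0 A = 4 := by simp [pw]

theorem pw5_eq (A : Fin 4 → ℝ) :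
    pw 5 A = (-1 / 24) * pw 1 A ^ 5
      + (5 / 12) * pw 1 A ^ 3 * pw 2 A
      + (-5 / 6) * pw 1 A ^ 2 * pw 3 A
      + (-5 / 8) * pw 1 A * pw 2 A ^ 2
      + (5 / 4) * pw 1 A * pw 4 A
      + (5 / 6) * pw 2 A * pw 3 A := by
  rw [newton 1 A]
  simp only [Nat.reduceAdd, el4, el3, el2]
  ring

theorem pw6_eq (A : Fin 4 → ℝ) :
    pw 6 A = (-1 / 24) * pw 1 A ^ 6
      + (3 / 8) * pw 1 A ^ 4 * pw 2 A
      + (-2 / 3) * pw 1 A ^ 3 * pw 3 A
      + (-3 / 8) * pw 1 A ^ 2 * pw 2 A ^ 2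
      + (3 / 4) * pw 1 A ^ 2 * pw 4 A
      + (-1 / 8) * pw 2 A ^ 3
      + (3 / 4) * pw 2 A * pw 4 A
      + (1 / 3) * pw 3 A ^ 2 := by
  rw [newton 2 A]
  simp only [Nat.reduceAdd, el4, el3, el2, pw5_eq]
  ring

theorem pw7_eq (A : Fin 4 → ℝ) :
    pw 7 A = (-1 / 48) * pw 1 A ^ 7
      + (7 / 48) * pw 1 A ^ 5 * pw 2 A
      + (-7 / 24) * pw 1 A ^ 4 * pw 3 A
      + (7 / 48) * pw 1 A ^ 3 * pw 2 A ^ 2
      + (7 / 24) * pw 1 A ^ 3 * pw 4 A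
      + (-7 / 12) * pw 1 A ^ 2 * pw 2 A * pw 3 A
      + (-7 / 16) * pw 1 A * pw 2 A ^ 3
      + (7 / 8) * pw 1 A * pw 2 A * pw 4 A
      + (7 / 24) * pw 2 A ^ 2 * pw 3 A
      + (7 / 12) * pw 3 A * pw 4 A := by
  rw [newton 3 A]
  simp only [Nat.reduceAdd, el4, el3, el2, pw6_eq, pw5_eq]
  ring

theorem pw8_eq (A : Fin 4 → ℝ) :
    pw 8 A = (-1 / 144) * pw 1 A ^ 8
      + (1 / 36) * pw 1 A ^ 6 * pw 2 A
      + (-1 / 9) * pw 1 A ^ 5 * pw 3 A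
      + (5 / 24) * pw 1 A ^ 4 * pw 2 A ^ 2
      + (1 / 12) * pw 1 A ^ 4 * pw 4 A
      + (-2 / 9) * pw 1 A ^ 3 * pw 2 A * pw 3 A
      + (-1 / 4) * pw 1 A ^ 2 * pw 2 A ^ 3
      + (1 / 2) * pw 1 A ^ 2 * pw 2 A * pw 4 A
      + (-4 / 9) * pw 1 A ^ 2 * pw 3 A ^ 2
      + (-1 / 3) * pw 1 A * pw 2 A ^ 2 * pw 3 A
      + (2 / 3) * pw 1 A * pw 3 A * pw 4 A
      + (-1 / 16) * pw 2 A ^ 4
      + (1 / 4) * pw 2 A ^ 2 * pw 4 A
      + (4 / 9) * pw 2 A * pw 3 A ^ 2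
      + (1 / 4) * pw 4 A ^ 2 := by
  rw [newton 4 A]
  simp only [Nat.reduceAdd, el4, el3, el2, pw7_eq, pw6_eq, pw5_eq]
  ring

/-- The first four power sums of a centred vector shifted by one. -/
theorem pw_shift {y : Fin 4 → ℝ} (hy : ∑ i, y i = 0) :
    pw 1 (fun i => 1 + y i) = 4 ∧ pw 2 (fun i => 1 + y i) = 4 + 4 * chi y ∧
      pw 3 (fun i => 1 + y i) = 4 + 12 * chi y + 4 * m3 y ∧
      pw 4 (fun i => 1 + y i) = 4 + 24 * chi y + 16 * m3 y + 4 * (e4 y + chi y ^ 2) := by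
  rw [Fin.sum_univ_four] at hy
  have e : y 3 = -y 0 - y 1 - y 2 := by linarith
  refine ⟨?_, ?_, ?_, ?_⟩ <;>
    simp only [pw, chi, m3, e4, Fin.sum_univ_four, e] <;> push_cast <;> ring

/-- The higher power sums of a centred vector shifted by one. -/
theorem pw_shift_high {y : Fin 4 → ℝ} (hy : ∑ i, y i = 0) :
    pw 5 (fun i => 1 + y i) = (20) * chi y ^ 2
        + (40 / 3) * chi y * m3 y
        + (40) * chi y
        + (40) * m3 y
        + (20) * e4 y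
        + (4) ∧
    pw 6 (fun i => 1 + y i) = (4) * chi y ^ 3
        + (60) * chi y ^ 2
        + (80) * chi y * m3 y
        + (12) * chi y * e4 y
        + (60) * chi y
        + (16 / 3) * m3 y ^ 2
        + (80) * m3 y
        + (60) * e4 y
        + (4) ∧
    pw 7 (fun i => 1 + y i) = (28) * chi y ^ 3
        + (28) * chi y ^ 2 * m3 y
        + (140) * chi y ^ 2
        + (280) * chi y * m3 y
        + (84) * chi y * e4 y
        + (84) * chi y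
        + (112 / 3) * m3 y ^ 2
        + (28 / 3) * m3 y * e4 y
        + (140) * m3 y
        + (140) * e4 y
        + (4) ∧
    pw 8 (fun i => 1 + y i) = (4) * chi y ^ 4
        + (112) * chi y ^ 3
        + (224) * chi y ^ 2 * m3 y
        + (24) * chi y ^ 2 * e4 y
        + (280) * chi y ^ 2
        + (256 / 9) * chi y * m3 y ^ 2
        + (2240 / 3) * chi y * m3 y
        + (336) * chi y * e4 y
        + (112) * chi y
        + (448 / 3) * m3 y ^ 2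
        + (224 / 3) * m3 y * e4 y
        + (224) * m3 y
        + (4) * e4 y ^ 2
        + (280) * e4 y
        + (4) := by
  obtain ⟨e1, e2, e3, e4'⟩ := pw_shift hy
  refine ⟨?_, ?_, ?_, ?_⟩ <;>
    simp only [pw8_eq, pw7_eq, pw6_eq, pw5_eq, e1, e2, e3, e4'] <;> ring

/-- The features of the deviations from the mean, through power sums. -/
theorem feat_pw (A : Fin 4 → ℝ) :
    chi (fun i => A i - pw 1 A / 4) = pw 2 A / 4 - (pw 1 A / 4) ^ 2 ∧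
      m3 (fun i => A i - pw 1 A / 4)
        = pw 3 A / 4 - 3 * (pw 1 A / 4) * (pw 2 A / 4) + 2 * (pw 1 A / 4) ^ 3 ∧
      e4 (fun i => A i - pw 1 A / 4)
        = pw 4 A / 4 - pw 1 A / 4 * pw 3 A + 6 * (pw 1 A / 4) ^ 2 * (pw 2 A / 4)
          - 3 * (pw 1 A / 4) ^ 4 - (pw 2 A / 4 - (pw 1 A / 4) ^ 2) ^ 2 := by
  refine ⟨?_, ?_, ?_⟩ <;>
    simp only [pw, chi, m3, e4, Fin.sum_univ_four] <;> push_cast <;> ring

/-- Exponents (1, 0, 0, 0). -/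
theorem lin1000 {y : Fin 4 → ℝ} (hy : ∑ i, y i = 0) :
    msum ![1, 0, 0, 0] (fun i => 1 + y i) =
      dot [24, 0, 0, 0, 0, 0, 0, 0, 0, 0, 0, 0, 0, 0, 0] (phiY y) := by
  obtain ⟨e1, e2, e3, e4'⟩ := pw_shift hy
  obtain ⟨e5, e6, e7, e8⟩ := pw_shift_high hy
  simp only [msum_pw, Nat.reduceAdd, pw_zero, e1, e2, e3, e4', e5, e6, e7, e8, dot, phiY, phi]
  ring

/-- Exponents (1, 1, 0, 0). -/
theorem lin1100 {y : Fin 4 → ℝ} (hy : ∑ i, y i = 0) :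
    msum ![1, 1, 0, 0] (fun i => 1 + y i) =
      dot [24, -8, 0, 0, 0, 0, 0, 0, 0, 0, 0, 0, 0, 0, 0] (phiY y) := by
  obtain ⟨e1, e2, e3, e4'⟩ := pw_shift hy
  obtain ⟨e5, e6, e7, e8⟩ := pw_shift_high hy
  simp only [msum_pw, Nat.reduceAdd, pw_zero, e1, e2, e3, e4', e5, e6, e7, e8, dot, phiY, phi]
  ring

/-- Exponents (1, 1, 1, 0). -/
theorem lin1110 {y : Fin 4 → ℝ} (hy : ∑ i, y i = 0) :
    msum ![1, 1, 1, 0] (fun i => 1 + y i) =
      dot [24, -24, 8, 0, 0, 0, 0, 0, 0, 0, 0, 0, 0, 0, 0] (phiY y) := by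
  obtain ⟨e1, e2, e3, e4'⟩ := pw_shift hy
  obtain ⟨e5, e6, e7, e8⟩ := pw_shift_high hy
  simp only [msum_pw, Nat.reduceAdd, pw_zero, e1, e2, e3, e4', e5, e6, e7, e8, dot, phiY, phi]
  ring

/-- Exponents (1, 1, 1, 1). -/
theorem lin1111 {y : Fin 4 → ℝ} (hy : ∑ i, y i = 0) :
    msum ![1, 1, 1, 1] (fun i => 1 + y i) =
      dot [24, -48, 32, -24, 24, 0, 0, 0, 0, 0, 0, 0, 0, 0, 0] (phiY y) := by
  obtain ⟨e1, e2, e3, e4'⟩ := pw_shift hy
  obtain ⟨e5, e6, e7, e8⟩ := pw_shift_high hy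
  simp only [msum_pw, Nat.reduceAdd, pw_zero, e1, e2, e3, e4', e5, e6, e7, e8, dot, phiY, phi]
  ring

/-- Exponents (2, 0, 0, 0). -/
theorem lin2000 {y : Fin 4 → ℝ} (hy : ∑ i, y i = 0) :
    msum ![2, 0, 0, 0] (fun i => 1 + y i) =
      dot [24, 24, 0, 0, 0, 0, 0, 0, 0, 0, 0, 0, 0, 0, 0] (phiY y) := by
  obtain ⟨e1, e2, e3, e4'⟩ := pw_shift hy
  obtain ⟨e5, e6, e7, e8⟩ := pw_shift_high hy
  simp only [msum_pw, Nat.reduceAdd, pw_zero, e1, e2, e3, e4', e5, e6, e7, e8, dot, phiY, phi]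
  ring

/-- Exponents (2, 1, 0, 0). -/
theorem lin2100 {y : Fin 4 → ℝ} (hy : ∑ i, y i = 0) :
    msum ![2, 1, 0, 0] (fun i => 1 + y i) =
      dot [24, 8, -8, 0, 0, 0, 0, 0, 0, 0, 0, 0, 0, 0, 0] (phiY y) := by
  obtain ⟨e1, e2, e3, e4'⟩ := pw_shift hy
  obtain ⟨e5, e6, e7, e8⟩ := pw_shift_high hy
  simp only [msum_pw, Nat.reduceAdd, pw_zero, e1, e2, e3, e4', e5, e6, e7, e8, dot, phiY, phi]
  ring

/-- Exponents (2, 1, 1, 0). -/
theorem lin2110 {y : Fin 4 → ℝ} (hy : ∑ i, y i = 0) :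
    msum ![2, 1, 1, 0] (fun i => 1 + y i) =
      dot [24, -16, 0, 8, -8, 0, 0, 0, 0, 0, 0, 0, 0, 0, 0] (phiY y) := by
  obtain ⟨e1, e2, e3, e4'⟩ := pw_shift hy
  obtain ⟨e5, e6, e7, e8⟩ := pw_shift_high hy
  simp only [msum_pw, Nat.reduceAdd, pw_zero, e1, e2, e3, e4', e5, e6, e7, e8, dot, phiY, phi]
  ring

/-- Exponents (2, 1, 1, 1). -/
theorem lin2111 {y : Fin 4 → ℝ} (hy : ∑ i, y i = 0) :
    msum ![2, 1, 1, 1] (fun i => 1 + y i) =
      dot [24, -48, 32, -24, 24, 0, 0, 0, 0, 0, 0, 0, 0, 0, 0] (phiY y) := by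
  obtain ⟨e1, e2, e3, e4'⟩ := pw_shift hy
  obtain ⟨e5, e6, e7, e8⟩ := pw_shift_high hy
  simp only [msum_pw, Nat.reduceAdd, pw_zero, e1, e2, e3, e4', e5, e6, e7, e8, dot, phiY, phi]
  ring

/-- Exponents (2, 2, 0, 0). -/
theorem lin2200 {y : Fin 4 → ℝ} (hy : ∑ i, y i = 0) :
    msum ![2, 2, 0, 0] (fun i => 1 + y i) =
      dot [24, 16, -32, -8, 24, 0, 0, 0, 0, 0, 0, 0, 0, 0, 0] (phiY y) := by
  obtain ⟨e1, e2, e3, e4'⟩ := pw_shift hy
  obtain ⟨e5, e6, e7, e8⟩ := pw_shift_high hy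
  simp only [msum_pw, Nat.reduceAdd, pw_zero, e1, e2, e3, e4', e5, e6, e7, e8, dot, phiY, phi]
  ring

/-- Exponents (2, 2, 1, 0). -/
theorem lin2210 {y : Fin 4 → ℝ} (hy : ∑ i, y i = 0) :
    msum ![2, 2, 1, 0] (fun i => 1 + y i) =
      dot [24, -16, -16, 24, -8, -16 / 3, 0, 0, 0, 0, 0, 0, 0, 0, 0] (phiY y) := by
  obtain ⟨e1, e2, e3, e4'⟩ := pw_shift hy
  obtain ⟨e5, e6, e7, e8⟩ := pw_shift_high hy
  simp only [msum_pw, Nat.reduceAdd, pw_zero, e1, e2, e3, e4', e5, e6, e7, e8, dot, phiY, phi]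
  ring

/-- Exponents (2, 2, 1, 1). -/
theorem lin2211 {y : Fin 4 → ℝ} (hy : ∑ i, y i = 0) :
    msum ![2, 2, 1, 1] (fun i => 1 + y i) =
      dot [24, -56, 32, -24, 40, -32 / 3, 0, 8, -8, 0, 0, 0, 0, 0, 0] (phiY y) := by
  obtain ⟨e1, e2, e3, e4'⟩ := pw_shift hy
  obtain ⟨e5, e6, e7, e8⟩ := pw_shift_high hy
  simp only [msum_pw, Nat.reduceAdd, pw_zero, e1, e2, e3, e4', e5, e6, e7, e8, dot, phiY, phi]
  ring

/-- Exponents (2, 2, 2, 0). -/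
theorem lin2220 {y : Fin 4 → ℝ} (hy : ∑ i, y i = 0) :
    msum ![2, 2, 2, 0] (fun i => 1 + y i) =
      dot [24, -24, -32, 72, -24, -32, 32 / 3, -24, 24, 0, 0, 0, 0, 0, 0] (phiY y) := by
  obtain ⟨e1, e2, e3, e4'⟩ := pw_shift hy
  obtain ⟨e5, e6, e7, e8⟩ := pw_shift_high hy
  simp only [msum_pw, Nat.reduceAdd, pw_zero, e1, e2, e3, e4', e5, e6, e7, e8, dot, phiY, phi]
  ring

/-- Exponents (2, 2, 2, 1). -/
theorem lin2221 {y : Fin 4 → ℝ} (hy : ∑ i, y i = 0) :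
    msum ![2, 2, 2, 1] (fun i => 1 + y i) =
      dot [24, -72, 40, -24, 72, -48, 32 / 3, 24, -24, -8, 8, 0, 0, 0, 0] (phiY y) := by
  obtain ⟨e1, e2, e3, e4'⟩ := pw_shift hy
  obtain ⟨e5, e6, e7, e8⟩ := pw_shift_high hy
  simp only [msum_pw, Nat.reduceAdd, pw_zero, e1, e2, e3, e4', e5, e6, e7, e8, dot, phiY, phi]
  ring

/-- Exponents (2, 2, 2, 2). -/
theorem lin2222 {y : Fin 4 → ℝ} (hy : ∑ i, y i = 0) :
    msum ![2, 2, 2, 2] (fun i => 1 + y i) =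
      dot [24, -96, 64, -48, 144, -128, 128 / 3, 96, -96, -64, 64, 24, 0, -48, 24] (phiY y) := by
  obtain ⟨e1, e2, e3, e4'⟩ := pw_shift hy
  obtain ⟨e5, e6, e7, e8⟩ := pw_shift_high hy
  simp only [msum_pw, Nat.reduceAdd, pw_zero, e1, e2, e3, e4', e5, e6, e7, e8, dot, phiY, phi]
  ring

/-- Exponents (3, 0, 0, 0). -/
theorem lin3000 {y : Fin 4 → ℝ} (hy : ∑ i, y i = 0) :
    msum ![3, 0, 0, 0] (fun i => 1 + y i) =
      dot [24, 72, 24, 0, 0, 0, 0, 0, 0, 0, 0, 0, 0, 0, 0] (phiY y) := by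
  obtain ⟨e1, e2, e3, e4'⟩ := pw_shift hy
  obtain ⟨e5, e6, e7, e8⟩ := pw_shift_high hy
  simp only [msum_pw, Nat.reduceAdd, pw_zero, e1, e2, e3, e4', e5, e6, e7, e8, dot, phiY, phi]
  ring

/-- Exponents (3, 1, 0, 0). -/
theorem lin3100 {y : Fin 4 → ℝ} (hy : ∑ i, y i = 0) :
    msum ![3, 1, 0, 0] (fun i => 1 + y i) =
      dot [24, 48, 0, -8, -8, 0, 0, 0, 0, 0, 0, 0, 0, 0, 0] (phiY y) := by
  obtain ⟨e1, e2, e3, e4'⟩ := pw_shift hy
  obtain ⟨e5, e6, e7, e8⟩ := pw_shift_high hy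
  simp only [msum_pw, Nat.reduceAdd, pw_zero, e1, e2, e3, e4', e5, e6, e7, e8, dot, phiY, phi]
  ring

/-- Exponents (3, 1, 1, 0). -/
theorem lin3110 {y : Fin 4 → ℝ} (hy : ∑ i, y i = 0) :
    msum ![3, 1, 1, 0] (fun i => 1 + y i) =
      dot [24, 16, 0, 8, -40, 32 / 3, 0, 0, 0, 0, 0, 0, 0, 0, 0] (phiY y) := by
  obtain ⟨e1, e2, e3, e4'⟩ := pw_shift hy
  obtain ⟨e5, e6, e7, e8⟩ := pw_shift_high hy
  simp only [msum_pw, Nat.reduceAdd, pw_zero, e1, e2, e3, e4', e5, e6, e7, e8, dot, phiY, phi]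
  ring

/-- Exponents (3, 1, 1, 1). -/
theorem lin3111 {y : Fin 4 → ℝ} (hy : ∑ i, y i = 0) :
    msum ![3, 1, 1, 1] (fun i => 1 + y i) =
      dot [24, -24, 32, -24, -24, 32, 0, -24, 24, 0, 0, 0, 0, 0, 0] (phiY y) := by
  obtain ⟨e1, e2, e3, e4'⟩ := pw_shift hy
  obtain ⟨e5, e6, e7, e8⟩ := pw_shift_high hy
  simp only [msum_pw, Nat.reduceAdd, pw_zero, e1, e2, e3, e4', e5, e6, e7, e8, dot, phiY, phi]
  ring

/-- Exponents (3, 2, 0, 0). -/
theorem lin3200 {y : Fin 4 → ℝ} (hy : ∑ i, y i = 0) :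
    msum ![3, 2, 0, 0] (fun i => 1 + y i) =
      dot [24, 48, -48, -40, 56, 16 / 3, 0, 0, 0, 0, 0, 0, 0, 0, 0] (phiY y) := by
  obtain ⟨e1, e2, e3, e4'⟩ := pw_shift hy
  obtain ⟨e5, e6, e7, e8⟩ := pw_shift_high hy
  simp only [msum_pw, Nat.reduceAdd, pw_zero, e1, e2, e3, e4', e5, e6, e7, e8, dot, phiY, phi]
  ring

/-- Exponents (3, 2, 1, 0). -/
theorem lin3210 {y : Fin 4 → ℝ} (hy : ∑ i, y i = 0) :
    msum ![3, 2, 1, 0] (fun i => 1 + y i) =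
      dot [24, 8, -32, 24, -24, 32 / 3, -16 / 3, 8, -8, 0, 0, 0, 0, 0, 0] (phiY y) := by
  obtain ⟨e1, e2, e3, e4'⟩ := pw_shift hy
  obtain ⟨e5, e6, e7, e8⟩ := pw_shift_high hy
  simp only [msum_pw, Nat.reduceAdd, pw_zero, e1, e2, e3, e4', e5, e6, e7, e8, dot, phiY, phi]
  ring

/-- Exponents (3, 2, 1, 1). -/
theorem lin3211 {y : Fin 4 → ℝ} (hy : ∑ i, y i = 0) :
    msum ![3, 2, 1, 1] (fun i => 1 + y i) =
      dot [24, -40, 24, -24, 8, 80 / 3, -32 / 3, -8, 8, 8, -8, 0, 0, 0, 0] (phiY y) := by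
  obtain ⟨e1, e2, e3, e4'⟩ := pw_shift hy
  obtain ⟨e5, e6, e7, e8⟩ := pw_shift_high hy
  simp only [msum_pw, Nat.reduceAdd, pw_zero, e1, e2, e3, e4', e5, e6, e7, e8, dot, phiY, phi]
  ring

/-- Exponents (3, 2, 2, 0). -/
theorem lin3220 {y : Fin 4 → ℝ} (hy : ∑ i, y i = 0) :
    msum ![3, 2, 2, 0] (fun i => 1 + y i) =
      dot [24, -8, -56, 104, -56, -80 / 3, 32 / 3, -40, 40, 8 / 3, -8 / 3, 0, 0, 0, 0] (phiY y) := by
  obtain ⟨e1, e2, e3, e4'⟩ := pw_shift hy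
  obtain ⟨e5, e6, e7, e8⟩ := pw_shift_high hy
  simp only [msum_pw, Nat.reduceAdd, pw_zero, e1, e2, e3, e4', e5, e6, e7, e8, dot, phiY, phi]
  ring

/-- Exponents (3, 2, 2, 1). -/
theorem lin3221 {y : Fin 4 → ℝ} (hy : ∑ i, y i = 0) :
    msum ![3, 2, 2, 1] (fun i => 1 + y i) =
      dot [24, -64, 32, -16, 48, -64 / 3, 0, 0, 0, 32 / 3, -32 / 3, -8, 0, 16, -8] (phiY y) := by
  obtain ⟨e1, e2, e3, e4'⟩ := pw_shift hy
  obtain ⟨e5, e6, e7, e8⟩ := pw_shift_high hy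
  simp only [msum_pw, Nat.reduceAdd, pw_zero, e1, e2, e3, e4', e5, e6, e7, e8, dot, phiY, phi]
  ring

/-- Exponents (3, 3, 0, 0). -/
theorem lin3300 {y : Fin 4 → ℝ} (hy : ∑ i, y i = 0) :
    msum ![3, 3, 0, 0] (fun i => 1 + y i) =
      dot [24, 72, -96, -120, 168, 32, 64 / 3, -24, -8, 0, 0, 0, 0, 0, 0] (phiY y) := by
  obtain ⟨e1, e2, e3, e4'⟩ := pw_shift hy
  obtain ⟨e5, e6, e7, e8⟩ := pw_shift_high hy
  simp only [msum_pw, Nat.reduceAdd, pw_zero, e1, e2, e3, e4', e5, e6, e7, e8, dot, phiY, phi]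
  ring

/-- Exponents (3, 3, 1, 0). -/
theorem lin3310 {y : Fin 4 → ℝ} (hy : ∑ i, y i = 0) :
    msum ![3, 3, 1, 0] (fun i => 1 + y i) =
      dot [24, 24, -72, 8, 8, 48, -32 / 3, 24, -56, -40 / 3, 24, 0, 0, 0, 0] (phiY y) := by
  obtain ⟨e1, e2, e3, e4'⟩ := pw_shift hy
  obtain ⟨e5, e6, e7, e8⟩ := pw_shift_high hy
  simp only [msum_pw, Nat.reduceAdd, pw_zero, e1, e2, e3, e4', e5, e6, e7, e8, dot, phiY, phi]
  ring

/-- Exponents (3, 3, 1, 1). -/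
theorem lin3311 {y : Fin 4 → ℝ} (hy : ∑ i, y i = 0) :
    msum ![3, 3, 1, 1] (fun i => 1 + y i) =
      dot [24, -32, 0, -32, 16, 256 / 3, -128 / 3, 0, -32, 64 / 3, 0, 8, 0, -32, 24] (phiY y) := by
  obtain ⟨e1, e2, e3, e4'⟩ := pw_shift hy
  obtain ⟨e5, e6, e7, e8⟩ := pw_shift_high hy
  simp only [msum_pw, Nat.reduceAdd, pw_zero, e1, e2, e3, e4', e5, e6, e7, e8, dot, phiY, phi]
  ring

/-- Exponents (3, 3, 2, 0). -/
theorem lin3320 {y : Fin 4 → ℝ} (hy : ∑ i, y i = 0) :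
    msum ![3, 3, 2, 0] (fun i => 1 + y i) =
      dot [24, 0, -96, 160, -80, -64 / 3, 64 / 3, -96, 64, -32 / 3, 32, 8, -64 / 9, 0, -8] (phiY y) := by
  obtain ⟨e1, e2, e3, e4'⟩ := pw_shift hy
  obtain ⟨e5, e6, e7, e8⟩ := pw_shift_high hy
  simp only [msum_pw, Nat.reduceAdd, pw_zero, e1, e2, e3, e4', e5, e6, e7, e8, dot, phiY, phi]
  ring

/-- Exponents (4, 0, 0, 0). -/
theorem lin4000 {y : Fin 4 → ℝ} (hy : ∑ i, y i = 0) :
    msum ![4, 0, 0, 0] (fun i => 1 + y i) =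
      dot [24, 144, 96, 24, 24, 0, 0, 0, 0, 0, 0, 0, 0, 0, 0] (phiY y) := by
  obtain ⟨e1, e2, e3, e4'⟩ := pw_shift hy
  obtain ⟨e5, e6, e7, e8⟩ := pw_shift_high hy
  simp only [msum_pw, Nat.reduceAdd, pw_zero, e1, e2, e3, e4', e5, e6, e7, e8, dot, phiY, phi]
  ring

/-- Exponents (4, 1, 0, 0). -/
theorem lin4100 {y : Fin 4 → ℝ} (hy : ∑ i, y i = 0) :
    msum ![4, 1, 0, 0] (fun i => 1 + y i) =
      dot [24, 112, 48, -8, -8, -80 / 3, 0, 0, 0, 0, 0, 0, 0, 0, 0] (phiY y) := by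
  obtain ⟨e1, e2, e3, e4'⟩ := pw_shift hy
  obtain ⟨e5, e6, e7, e8⟩ := pw_shift_high hy
  simp only [msum_pw, Nat.reduceAdd, pw_zero, e1, e2, e3, e4', e5, e6, e7, e8, dot, phiY, phi]
  ring

/-- Exponents (4, 1, 1, 0). -/
theorem lin4110 {y : Fin 4 → ℝ} (hy : ∑ i, y i = 0) :
    msum ![4, 1, 1, 0] (fun i => 1 + y i) =
      dot [24, 72, 32, 8, -88, -32 / 3, 32 / 3, 8, -8, 0, 0, 0, 0, 0, 0] (phiY y) := by
  obtain ⟨e1, e2, e3, e4'⟩ := pw_shift hy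
  obtain ⟨e5, e6, e7, e8⟩ := pw_shift_high hy
  simp only [msum_pw, Nat.reduceAdd, pw_zero, e1, e2, e3, e4', e5, e6, e7, e8, dot, phiY, phi]
  ring

/-- Exponents (4, 1, 1, 1). -/
theorem lin4111 {y : Fin 4 → ℝ} (hy : ∑ i, y i = 0) :
    msum ![4, 1, 1, 1] (fun i => 1 + y i) =
      dot [24, 24, 56, -24, -120, 48, 32, -72, 72, -24, 24, 0, 0, 0, 0] (phiY y) := by
  obtain ⟨e1, e2, e3, e4'⟩ := pw_shift hy
  obtain ⟨e5, e6, e7, e8⟩ := pw_shift_high hy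
  simp only [msum_pw, Nat.reduceAdd, pw_zero, e1, e2, e3, e4', e5, e6, e7, e8, dot, phiY, phi]
  ring

/-- Exponents (4, 2, 0, 0). -/
theorem lin4200 {y : Fin 4 → ℝ} (hy : ∑ i, y i = 0) :
    msum ![4, 2, 0, 0] (fun i => 1 + y i) =
      dot [24, 104, -32, -88, 104, -32, -32 / 3, 8, 24, 0, 0, 0, 0, 0, 0] (phiY y) := by
  obtain ⟨e1, e2, e3, e4'⟩ := pw_shift hy
  obtain ⟨e5, e6, e7, e8⟩ := pw_shift_high hy
  simp only [msum_pw, Nat.reduceAdd, pw_zero, e1, e2, e3, e4', e5, e6, e7, e8, dot, phiY, phi]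
  ring

/-- Exponents (4, 2, 1, 0). -/
theorem lin4210 {y : Fin 4 → ℝ} (hy : ∑ i, y i = 0) :
    msum ![4, 2, 1, 0] (fun i => 1 + y i) =
      dot [24, 56, -24, 8, -56, -16 / 3, -32 / 3, 56, -24, 8 / 3, -40 / 3, 0, 0, 0, 0] (phiY y) := by
  obtain ⟨e1, e2, e3, e4'⟩ := pw_shift hy
  obtain ⟨e5, e6, e7, e8⟩ := pw_shift_high hy
  simp only [msum_pw, Nat.reduceAdd, pw_zero, e1, e2, e3, e4', e5, e6, e7, e8, dot, phiY, phi]
  ring

/-- Exponents (4, 2, 1, 1). -/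
theorem lin4211 {y : Fin 4 → ℝ} (hy : ∑ i, y i = 0) :
    msum ![4, 2, 1, 1] (fun i => 1 + y i) =
      dot [24, 0, 32, -32, -80, 64, 0, -32, 64, -32 / 3, -32 / 3, 8, 0, 0, -8] (phiY y) := by
  obtain ⟨e1, e2, e3, e4'⟩ := pw_shift hy
  obtain ⟨e5, e6, e7, e8⟩ := pw_shift_high hy
  simp only [msum_pw, Nat.reduceAdd, pw_zero, e1, e2, e3, e4', e5, e6, e7, e8, dot, phiY, phi]
  ring

/-- Exponents (4, 2, 2, 0). -/
theorem lin4220 {y : Fin 4 → ℝ} (hy : ∑ i, y i = 0) :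
    msum ![4, 2, 2, 0] (fun i => 1 + y i) =
      dot [24, 32, -64, 112, -112, -128 / 3, 0, 32, 32, 64 / 3, -64, -8, 128 / 9, -16, 24] (phiY y) := by
  obtain ⟨e1, e2, e3, e4'⟩ := pw_shift hy
  obtain ⟨e5, e6, e7, e8⟩ := pw_shift_high hy
  simp only [msum_pw, Nat.reduceAdd, pw_zero, e1, e2, e3, e4', e5, e6, e7, e8, dot, phiY, phi]
  ring

/-- Exponents (4, 3, 0, 0). -/
theorem lin4300 {y : Fin 4 → ℝ} (hy : ∑ i, y i = 0) :
    msum ![4, 3, 0, 0] (fun i => 1 + y i) =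
      dot [24, 120, -120, -248, 328, 16, 160 / 3, -72, 40, 40 / 3, -24, 0, 0, 0, 0] (phiY y) := by
  obtain ⟨e1, e2, e3, e4'⟩ := pw_shift hy
  obtain ⟨e5, e6, e7, e8⟩ := pw_shift_high hy
  simp only [msum_pw, Nat.reduceAdd, pw_zero, e1, e2, e3, e4', e5, e6, e7, e8, dot, phiY, phi]
  ring

/-- Exponents (4, 3, 1, 0). -/
theorem lin4310 {y : Fin 4 → ℝ} (hy : ∑ i, y i = 0) :
    msum ![4, 3, 1, 0] (fun i => 1 + y i) =
      dot [24, 64, -96, -48, 48, 64, -32 / 3, 96, -128, -32, 32, -8, 32 / 9, 16, -8] (phiY y) := by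
  obtain ⟨e1, e2, e3, e4'⟩ := pw_shift hy
  obtain ⟨e5, e6, e7, e8⟩ := pw_shift_high hy
  simp only [msum_pw, Nat.reduceAdd, pw_zero, e1, e2, e3, e4', e5, e6, e7, e8, dot, phiY, phi]
  ring

/-- Exponents (4, 4, 0, 0). -/
theorem lin4400 {y : Fin 4 → ℝ} (hy : ∑ i, y i = 0) :
    msum ![4, 4, 0, 0] (fun i => 1 + y i) =
      dot [24, 160, -192, -496, 656, 128 / 3, 640 / 3, -288, 160, 320 / 3, -192, 24, -512 / 9, 16, 24] (phiY y) := by
  obtain ⟨e1, e2, e3, e4'⟩ := pw_shift hy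
  obtain ⟨e5, e6, e7, e8⟩ := pw_shift_high hy
  simp only [msum_pw, Nat.reduceAdd, pw_zero, e1, e2, e3, e4', e5, e6, e7, e8, dot, phiY, phi]
  ring

/-- Exponents (5, 0, 0, 0). -/
theorem lin5000 {y : Fin 4 → ℝ} (hy : ∑ i, y i = 0) :
    msum ![5, 0, 0, 0] (fun i => 1 + y i) =
      dot [24, 240, 240, 120, 120, 80, 0, 0, 0, 0, 0, 0, 0, 0, 0] (phiY y) := by
  obtain ⟨e1, e2, e3, e4'⟩ := pw_shift hy
  obtain ⟨e5, e6, e7, e8⟩ := pw_shift_high hy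
  simp only [msum_pw, Nat.reduceAdd, pw_zero, e1, e2, e3, e4', e5, e6, e7, e8, dot, phiY, phi]
  ring

/-- Exponents (5, 1, 0, 0). -/
theorem lin5100 {y : Fin 4 → ℝ} (hy : ∑ i, y i = 0) :
    msum ![5, 1, 0, 0] (fun i => 1 + y i) =
      dot [24, 200, 160, 40, 40, -160 / 3, -32 / 3, -24, -8, 0, 0, 0, 0, 0, 0] (phiY y) := by
  obtain ⟨e1, e2, e3, e4'⟩ := pw_shift hy
  obtain ⟨e5, e6, e7, e8⟩ := pw_shift_high hy
  simp only [msum_pw, Nat.reduceAdd, pw_zero, e1, e2, e3, e4', e5, e6, e7, e8, dot, phiY, phi]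
  ring

/-- Exponents (5, 1, 1, 0). -/
theorem lin5110 {y : Fin 4 → ℝ} (hy : ∑ i, y i = 0) :
    msum ![5, 1, 1, 0] (fun i => 1 + y i) =
      dot [24, 152, 120, 40, -120, -80, 32, -8, -56, 56 / 3, 8 / 3, 0, 0, 0, 0] (phiY y) := by
  obtain ⟨e1, e2, e3, e4'⟩ := pw_shift hy
  obtain ⟨e5, e6, e7, e8⟩ := pw_shift_high hy
  simp only [msum_pw, Nat.reduceAdd, pw_zero, e1, e2, e3, e4', e5, e6, e7, e8, dot, phiY, phi]
  ring

/-- Exponents (5, 1, 1, 1). -/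
theorem lin5111 {y : Fin 4 → ℝ} (hy : ∑ i, y i = 0) :
    msum ![5, 1, 1, 1] (fun i => 1 + y i) =
      dot [24, 96, 128, 0, -240, 0, 128, -192, 96, -64, 128, -24, 0, 0, 24] (phiY y) := by
  obtain ⟨e1, e2, e3, e4'⟩ := pw_shift hy
  obtain ⟨e5, e6, e7, e8⟩ := pw_shift_high hy
  simp only [msum_pw, Nat.reduceAdd, pw_zero, e1, e2, e3, e4', e5, e6, e7, e8, dot, phiY, phi]
  ring

/-- Exponents (5, 2, 0, 0). -/
theorem lin5200 {y : Fin 4 → ℝ} (hy : ∑ i, y i = 0) :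
    msum ![5, 2, 0, 0] (fun i => 1 + y i) =
      dot [24, 184, 40, -120, 200, -400 / 3, -224 / 3, -8, 104, -56 / 3, 152 / 3, 0, 0, 0, 0] (phiY y) := by
  obtain ⟨e1, e2, e3, e4'⟩ := pw_shift hy
  obtain ⟨e5, e6, e7, e8⟩ := pw_shift_high hy
  simp only [msum_pw, Nat.reduceAdd, pw_zero, e1, e2, e3, e4', e5, e6, e7, e8, dot, phiY, phi]
  ring

/-- Exponents (5, 2, 1, 0). -/
theorem lin5210 {y : Fin 4 → ℝ} (hy : ∑ i, y i = 0) :
    msum ![5, 2, 1, 0] (fun i => 1 + y i) =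
      dot [24, 128, 32, 0, -80, -320 / 3, -32, 128, -64, 32, -32 / 3, 8, -160 / 9, 0, -8] (phiY y) := by
  obtain ⟨e1, e2, e3, e4'⟩ := pw_shift hy
  obtain ⟨e5, e6, e7, e8⟩ := pw_shift_high hy
  simp only [msum_pw, Nat.reduceAdd, pw_zero, e1, e2, e3, e4', e5, e6, e7, e8, dot, phiY, phi]
  ring

/-- Exponents (5, 3, 0, 0). -/
theorem lin5300 {y : Fin 4 → ℝ} (hy : ∑ i, y i = 0) :
    msum ![5, 3, 0, 0] (fun i => 1 + y i) =
      dot [24, 192, -96, -400, 560, -320 / 3, 64 / 3, -192, 256, 32 / 3, 32, -8, 448 / 9, -48, -8] (phiY y) := by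
  obtain ⟨e1, e2, e3, e4'⟩ := pw_shift hy
  obtain ⟨e5, e6, e7, e8⟩ := pw_shift_high hy
  simp only [msum_pw, Nat.reduceAdd, pw_zero, e1, e2, e3, e4', e5, e6, e7, e8, dot, phiY, phi]
  ring

/-- Exponents (6, 0, 0, 0). -/
theorem lin6000 {y : Fin 4 → ℝ} (hy : ∑ i, y i = 0) :
    msum ![6, 0, 0, 0] (fun i => 1 + y i) =
      dot [24, 360, 480, 360, 360, 480, 32, 72, 24, 0, 0, 0, 0, 0, 0] (phiY y) := by
  obtain ⟨e1, e2, e3, e4'⟩ := pw_shift hy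
  obtain ⟨e5, e6, e7, e8⟩ := pw_shift_high hy
  simp only [msum_pw, Nat.reduceAdd, pw_zero, e1, e2, e3, e4', e5, e6, e7, e8, dot, phiY, phi]
  ring

/-- Exponents (6, 1, 0, 0). -/
theorem lin6100 {y : Fin 4 → ℝ} (hy : ∑ i, y i = 0) :
    msum ![6, 1, 0, 0] (fun i => 1 + y i) =
      dot [24, 312, 360, 200, 200, 80, -32, -72, -24, -56 / 3, -56, 0, 0, 0, 0] (phiY y) := by
  obtain ⟨e1, e2, e3, e4'⟩ := pw_shift hy
  obtain ⟨e5, e6, e7, e8⟩ := pw_shift_high hy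
  simp only [msum_pw, Nat.reduceAdd, pw_zero, e1, e2, e3, e4', e5, e6, e7, e8, dot, phiY, phi]
  ring

/-- Exponents (6, 1, 1, 0). -/
theorem lin6110 {y : Fin 4 → ℝ} (hy : ∑ i, y i = 0) :
    msum ![6, 1, 1, 0] (fun i => 1 + y i) =
      dot [24, 256, 288, 160, -80, -320 / 3, 64, -96, -192, 224 / 3, -96, 8, 320 / 9, 0, -8] (phiY y) := by
  obtain ⟨e1, e2, e3, e4'⟩ := pw_shift hy
  obtain ⟨e5, e6, e7, e8⟩ := pw_shift_high hy
  simp only [msum_pw, Nat.reduceAdd, pw_zero, e1, e2, e3, e4', e5, e6, e7, e8, dot, phiY, phi]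
  ring

/-- Exponents (6, 2, 0, 0). -/
theorem lin6200 {y : Fin 4 → ℝ} (hy : ∑ i, y i = 0) :
    msum ![6, 2, 0, 0] (fun i => 1 + y i) =
      dot [24, 288, 192, -80, 400, -640 / 3, -256, -96, 288, -448 / 3, 192, -8, -128 / 9, 48, 24] (phiY y) := by
  obtain ⟨e1, e2, e3, e4'⟩ := pw_shift hy
  obtain ⟨e5, e6, e7, e8⟩ := pw_shift_high hy
  simp only [msum_pw, Nat.reduceAdd, pw_zero, e1, e2, e3, e4', e5, e6, e7, e8, dot, phiY, phi]
  ring

/-- Exponents (7, 0, 0, 0). -/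
theorem lin7000 {y : Fin 4 → ℝ} (hy : ∑ i, y i = 0) :
    msum ![7, 0, 0, 0] (fun i => 1 + y i) =
      dot [24, 504, 840, 840, 840, 1680, 224, 504, 168, 56, 168, 0, 0, 0, 0] (phiY y) := by
  obtain ⟨e1, e2, e3, e4'⟩ := pw_shift hy
  obtain ⟨e5, e6, e7, e8⟩ := pw_shift_high hy
  simp only [msum_pw, Nat.reduceAdd, pw_zero, e1, e2, e3, e4', e5, e6, e7, e8, dot, phiY, phi]
  ring

/-- Exponents (7, 1, 0, 0). -/
theorem lin7100 {y : Fin 4 → ℝ} (hy : ∑ i, y i = 0) :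
    msum ![7, 1, 0, 0] (fun i => 1 + y i) =
      dot [24, 448, 672, 560, 560, 2240 / 3, 0, 0, 0, -224 / 3, -224, -8, -512 / 9, -48, -8] (phiY y) := by
  obtain ⟨e1, e2, e3, e4'⟩ := pw_shift hy
  obtain ⟨e5, e6, e7, e8⟩ := pw_shift_high hy
  simp only [msum_pw, Nat.reduceAdd, pw_zero, e1, e2, e3, e4', e5, e6, e7, e8, dot, phiY, phi]
  ring

/-- Exponents (8, 0, 0, 0). -/
theorem lin8000 {y : Fin 4 → ℝ} (hy : ∑ i, y i = 0) :
    msum ![8, 0, 0, 0] (fun i => 1 + y i) =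
      dot [24, 672, 1344, 1680, 1680, 4480, 896, 2016, 672, 448, 1344, 24, 512 / 3, 144, 24] (phiY y) := by
  obtain ⟨e1, e2, e3, e4'⟩ := pw_shift hy
  obtain ⟨e5, e6, e7, e8⟩ := pw_shift_high hy
  simp only [msum_pw, Nat.reduceAdd, pw_zero, e1, e2, e3, e4', e5, e6, e7, e8, dot, phiY, phi]
  ring

/-- The minorant in symmetrised monomials. -/
theorem piPoly_eq (A : Fin 4 → ℝ) : piPoly A =
    (-22620161 / 1572864000) * msum ![1, 0, 0, 0] A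
      + (-1768707981 / 4194304000) * msum ![1, 1, 0, 0] A
      + (8932986803 / 8388608000) * msum ![1, 1, 1, 0] A
      + (-5542469241 / 8388608000) * msum ![1, 1, 1, 1] A
      + (632188019 / 12582912000) * msum ![2, 0, 0, 0] A
      + (13161449409 / 16777216000) * msum ![2, 1, 0, 0] A
      + (-9623939259 / 4194304000) * msum ![2, 1, 1, 0] A
      + (130124932973 / 67108864000) * msum ![2, 1, 1, 1] A
      + (-8449257259 / 16777216000) * msum ![2, 2, 0, 0] A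
      + (42386510477 / 26843545600) * msum ![2, 2, 1, 0] A
      + (-1045059278933 / 536870912000) * msum ![2, 2, 1, 1] A
      + (-156953113927 / 536870912000) * msum ![2, 2, 2, 0] A
      + (682218282401 / 1073741824000) * msum ![2, 2, 2, 1] A
      + (-42597330937 / 1073741824000) * msum ![2, 2, 2, 2] A
      + (-397533399 / 16777216000) * msum ![3, 0, 0, 0] A
      + (-1163362991 / 4194304000) * msum ![3, 1, 0, 0] A
      + (43936394473 / 67108864000) * msum ![3, 1, 1, 0] A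
      + (-73101166189 / 134217728000) * msum ![3, 1, 1, 1] A
      + (50401373223 / 134217728000) * msum ![3, 2, 0, 0] A
      + (-106679045031 / 134217728000) * msum ![3, 2, 1, 0] A
      + (465641232379 / 536870912000) * msum ![3, 2, 1, 1] A
      + (168921383173 / 1073741824000) * msum ![3, 2, 2, 0] A
      + (-122760280917 / 536870912000) * msum ![3, 2, 2, 1] A
      + (-1235152437 / 21474836480) * msum ![3, 3, 0, 0] A
      + (47427275029 / 536870912000) * msum ![3, 3, 1, 0] A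
      + (-15512335293 / 268435456000) * msum ![3, 3, 1, 1] A
      + (-8835792419 / 536870912000) * msum ![3, 3, 2, 0] A
      + (301422223 / 50331648000) * msum ![4, 0, 0, 0] A
      + (13120318723 / 268435456000) * msum ![4, 1, 0, 0] A
      + (-46082603271 / 536870912000) * msum ![4, 1, 1, 0] A
      + (66195893061 / 1073741824000) * msum ![4, 1, 1, 1] A
      + (-68992905863 / 1073741824000) * msum ![4, 2, 0, 0] A
      + (85882920121 / 1073741824000) * msum ![4, 2, 1, 0] A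
      + (-64312587909 / 1073741824000) * msum ![4, 2, 1, 1] A
      + (-1951128717 / 268435456000) * msum ![4, 2, 2, 0] A
      + (29256373471 / 2147483648000) * msum ![4, 3, 0, 0] A
      + (-7515586083 / 536870912000) * msum ![4, 3, 1, 0] A
      + (-856543977 / 2147483648000) * msum ![4, 4, 0, 0] A
      + (-701431169 / 805306368000) * msum ![5, 0, 0, 0] A
      + (-2449904219 / 536870912000) * msum ![5, 1, 0, 0] A
      + (5264231147 / 1073741824000) * msum ![5, 1, 1, 0] A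
      + (-553437459 / 268435456000) * msum ![5, 1, 1, 1] A
      + (2300574313 / 429496729600) * msum ![5, 2, 0, 0] A
      + (-258955917 / 107374182400) * msum ![5, 2, 1, 0] A
      + (-616251751 / 1073741824000) * msum ![5, 3, 0, 0] A
      + (233510519 / 3221225472000) * msum ![6, 0, 0, 0] A
      + (462765127 / 2147483648000) * msum ![6, 1, 0, 0] A
      + (-110900083 / 1073741824000) * msum ![6, 1, 1, 0] A
      + (-3007903 / 16777216000) * msum ![6, 2, 0, 0] A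
      + (-20538803 / 6442450944000) * msum ![7, 0, 0, 0] A
      + (-4342249 / 1073741824000) * msum ![7, 1, 0, 0] A
      + (367561 / 6442450944000) * msum ![8, 0, 0, 0] A := by
  obtain ⟨f1, f2, f3⟩ := feat_pw A
  have hz : (∑ i, A i) = pw 1 A := by simp [pw]
  simp only [piPoly, piRows, app, castL, List.map_cons, List.map_nil, dot, pw8, phiY, phi, f1, f2,
    f3, msum_pw, Nat.reduceAdd, pw8_eq, pw7_eq, pw6_eq, pw5_eq, pw_zero, hz]
  push_cast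
  ring

end Avg

open Avg in
/-- The average of the minorant over relabellings is a bilinear form in the features. -/
theorem avg_piPoly {w y : Fin 4 → ℝ} (hw : ∑ i, w i = 0) (hy : ∑ i, y i = 0) :
    (∑ π : Equiv.Perm (Fin 4), piPoly fun i => (1 + w i) * (1 + y (π i))) / 24
      = dot (app formF (phiY y)) (phiY w) / 1019215872000 := by
  simp only [piPoly_eq, Finset.sum_add_distrib, ← Finset.mul_sum]
  simp only [fun b => sum_msum_mul b (fun i => 1 + w i) (fun i => 1 + y i)]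
  simp only [lin1000 hw, lin1000 hy, lin1100 hw, lin1100 hy, lin1110 hw, lin1110 hy,
    lin1111 hw, lin1111 hy, lin2000 hw, lin2000 hy, lin2100 hw, lin2100 hy,
    lin2110 hw, lin2110 hy, lin2111 hw, lin2111 hy, lin2200 hw, lin2200 hy,
    lin2210 hw, lin2210 hy, lin2211 hw, lin2211 hy, lin2220 hw, lin2220 hy,
    lin2221 hw, lin2221 hy, lin2222 hw, lin2222 hy, lin3000 hw, lin3000 hy,
    lin3100 hw, lin3100 hy, lin3110 hw, lin3110 hy, lin3111 hw, lin3111 hy,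
    lin3200 hw, lin3200 hy, lin3210 hw, lin3210 hy, lin3211 hw, lin3211 hy,
    lin3220 hw, lin3220 hy, lin3221 hw, lin3221 hy, lin3300 hw, lin3300 hy,
    lin3310 hw, lin3310 hy, lin3311 hw, lin3311 hy, lin3320 hw, lin3320 hy,
    lin4000 hw, lin4000 hy, lin4100 hw, lin4100 hy, lin4110 hw, lin4110 hy,
    lin4111 hw, lin4111 hy, lin4200 hw, lin4200 hy, lin4210 hw, lin4210 hy,
    lin4211 hw, lin4211 hy, lin4220 hw, lin4220 hy, lin4300 hw, lin4300 hy,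
    lin4310 hw, lin4310 hy, lin4400 hw, lin4400 hy, lin5000 hw, lin5000 hy,
    lin5100 hw, lin5100 hy, lin5110 hw, lin5110 hy, lin5111 hw, lin5111 hy,
    lin5200 hw, lin5200 hy, lin5210 hw, lin5210 hy, lin5300 hw, lin5300 hy,
    lin6000 hw, lin6000 hy, lin6100 hw, lin6100 hy, lin6110 hw, lin6110 hy,
    lin6200 hw, lin6200 hy, lin7000 hw, lin7000 hy, lin7100 hw, lin7100 hy,
    lin8000 hw, lin8000 hy]
  simp only [formF, app, castL, List.map_cons, List.map_nil, dot, phiY, phi]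
  push_cast
  ring

end Vale.P154.Q4
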