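import Vale.Agent.P154.Q4Regions
import Vale.Agent.P154.Q4Matrices

/-!
# Four states: checks on pairs of generators, part 8
-/

namespace Vale.P154.Q4

set_option maxRecDepth 100000 in
theorem gain_24 : pairOK gainI (vec 4) (vec 2) = true := by decide +kernel

set_option maxRecDepth 100000 in
theorem gain_35 : pairOK gainI (vec 5) (vec 3) = true := by decide +kernel

set_option maxRecDepth 100000 in
theorem gain_02 : pairOK gainI (vec 2) (vec 0) = true := by decide +kernel

set_option maxRecDepth 100000 in
theorem sub_04 : pairOK subI (vec 4) (vec 0) = true := by decide +kernel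

end Vale.P154.Q4
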