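import Vale.Agent.P154.Threshold

/-!
# Decay from a two-point certificate with quartic slack
-/

noncomputable section

namespace Vale.P154

open Filter Topology
open scoped ENNReal

variable {q : ℕ} {lam η : ℝ}

/-- A slack of fourth order in the two vectors. -/
def SqSlack (T : TwoPoint q lam 0) (η : ℝ) : Prop :=
  ∀ w y, Simp w → Simp y →
    mix lam chi w y + η * chi w ^ 2 * chi y ^ 2
      ≤ chi w + lam ^ 2 * chi y - T.K w * T.a y - T.b w * T.K y

theorem ev_sq_le {α : Type*} [Fintype α] {l : α → Fin q → ℝ} (hl : ∀ a i, 0 ≤ l a i)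
    (hl1 : ∑ a, (∑ i, l a i) / q = 1) (f : (Fin q → ℝ) → ℝ) :
    ev l f ^ 2 ≤ ev l (fun y => f y ^ 2) := by
  set c := ev l f with hc
  have h : 0 ≤ ∑ a, (∑ i, l a i) / q * (f (rel (l a)) - c) ^ 2 :=
    Finset.sum_nonneg fun a _ => mul_nonneg
      (div_nonneg (Finset.sum_nonneg fun i _ => hl a i) (Nat.cast_nonneg q)) (sq_nonneg _)
  have e : ∑ a, (∑ i, l a i) / q * (f (rel (l a)) - c) ^ 2
      = ev l (fun y => f y ^ 2) - 2 * c * ev l f + c ^ 2 * ∑ a, (∑ i, l a i) / q := by
    simp only [ev, Finset.mul_sum, ← Finset.sum_sub_distrib, ← Finset.sum_add_distrib]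
    exact Finset.sum_congr rfl fun a _ => by ring
  rw [e, hl1, ← hc] at h
  nlinarith [h]

theorem ev_one_child [NeZero q] {n : ℕ} (ch : Fin 1 → PTree n) :
    ev (fun s => nodeVec (q := q) lam ch s) chi = lam ^ 2 * xTree q lam n (ch 0) := by
  have hq0 : (q : ℝ) ≠ 0 := by exact_mod_cast NeZero.ne q
  rw [ev, xTree]
  refine (Fintype.sum_equiv (Equiv.piUnique _) _
    (fun s => ((∑ i, chan lam (lik lam n (ch 0) s) i) / q) *
      chi (rel (chan lam (lik lam n (ch 0) s)))) fun s => ?_).trans ?_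
  · have : nodeVec (q := q) lam ch s
        = chan lam (lik lam n (ch 0) (s 0)) := by funext i; simp [nodeVec]
    rw [this]; rfl
  · rw [Finset.mul_sum]
    refine Finset.sum_congr rfl fun s _ => ?_
    set v := lik (q := q) lam n (ch 0) s
    have hsum : ∑ i, chan lam v i = ∑ i, v i := by
      simp only [chan, potts_mul]
      rw [Finset.sum_add_distrib, ← Finset.mul_sum]
      simp
      field_simp
      ring
    by_cases hv : (∑ i, v i) = 0
    · simp [hsum, hv]
    · have hrel : rel (chan lam v) = fun i => lam * rel v i := by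
        funext i
        simp only [rel, hsum]
        simp only [chan, potts_mul]
        field_simp
        ring
      rw [hsum, hrel]
      simp only [chi, rel, mul_pow, ← Finset.mul_sum]
      ring

/-- The effect of one more child, with the quartic slack. -/
theorem step_sq [NeZero q] (T : TwoPoint q lam 0) (hη : 0 ≤ η) (hT : SqSlack T η) {α β : Type*}
    [Fintype α] [Fintype β] (L : α → Fin q → ℝ) (l : β → Fin q → ℝ) (hL : ∀ a i, 0 ≤ L a i)
    (hl : ∀ b i, 0 ≤ l b i)
    (hsym : ∀ (π : Equiv.Perm (Fin q)) (f : (Fin q → ℝ) → ℝ),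
      ∑ b, f (fun i => l b (π i)) = ∑ b, f (l b))
    (hL1 : ∑ a, (∑ i, L a i) / q = 1) (hl1 : ∑ b, (∑ i, l b i) / q = 1)
    (hKL : 0 ≤ ev L T.K) (hKl : 0 ≤ ev l T.K) :
    ev (fun x : α × β => fun i => L x.1 i * chan lam (l x.2) i) chi
        + η * ev L chi ^ 2 * ev l chi ^ 2 ≤ ev L chi + lam ^ 2 * ev l chi := by
  have split : ∀ u v : (Fin q → ℝ) → ℝ,
      ∑ a, ∑ b, ((∑ i, L a i) / q) * ((∑ i, l b i) / q) * (u (rel (L a)) * v (rel (l b)))
        = ev L u * ev l v := by
    intro u v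
    simp only [ev, Finset.sum_mul_sum]
    exact Finset.sum_congr rfl fun a _ => Finset.sum_congr rfl fun b _ => by ring
  rw [ev_cons lam L l hL hl hsym]
  have h : ∑ a, ∑ b, ((∑ i, L a i) / q) * ((∑ i, l b i) / q) * mix lam chi (rel (L a)) (rel (l b))
      ≤ ∑ a, ∑ b, ((∑ i, L a i) / q) * ((∑ i, l b i) / q) *
        (chi (rel (L a)) * 1 + lam ^ 2 * (1 * chi (rel (l b))) - T.K (rel (L a)) * T.a (rel (l b))
          - T.b (rel (L a)) * T.K (rel (l b))
          - η * (chi (rel (L a)) ^ 2 * chi (rel (l b)) ^ 2)) := by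
    refine Finset.sum_le_sum fun a _ => Finset.sum_le_sum fun b _ => ?_
    obtain ⟨ha, ha'⟩ := mass_simp L hL a
    obtain ⟨hb, hb'⟩ := mass_simp l hl b
    rcases eq_or_ne (((∑ i, L a i) / q) * ((∑ i, l b i) / q)) 0 with e | e
    · simp [e]
    · refine mul_le_mul_of_nonneg_left ?_ (mul_nonneg ha hb)
      have := hT _ _ (ha' (left_ne_zero_of_mul e)) (hb' (right_ne_zero_of_mul e))
      linarith
  have e : ∑ a, ∑ b, ((∑ i, L a i) / q) * ((∑ i, l b i) / q) *
        (chi (rel (L a)) * 1 + lam ^ 2 * (1 * chi (rel (l b))) - T.K (rel (L a)) * T.a (rel (l b))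
          - T.b (rel (L a)) * T.K (rel (l b))
          - η * (chi (rel (L a)) ^ 2 * chi (rel (l b)) ^ 2))
      = ev L chi * ev l (fun _ => 1) + lam ^ 2 * (ev L (fun _ => 1) * ev l chi)
        - ev L T.K * ev l T.a - ev L T.b * ev l T.K
        - η * (ev L (fun y => chi y ^ 2) * ev l (fun y => chi y ^ 2)) := by
    simp only [← split, Finset.mul_sum, ← Finset.sum_add_distrib, ← Finset.sum_sub_distrib]
    exact Finset.sum_congr rfl fun a _ => Finset.sum_congr rfl fun b _ => by ring
  rw [e, ev_one l hl1, ev_one L hL1, mul_one, one_mul] at h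
  have := mul_nonneg hKL (ev_nonneg hl T.ha)
  have := mul_nonneg (ev_nonneg hL T.hb) hKl
  have hsq := mul_le_mul (ev_sq_le hL hL1 chi) (ev_sq_le hl hl1 chi) (sq_nonneg _)
    ((sq_nonneg (ev L chi)).trans (ev_sq_le hL hL1 chi))
  have := mul_le_mul_of_nonneg_left hsq hη
  linarith

/-- A node loses the quartic slack of its first two children. -/
theorem node_sq [NeZero q] (hq : 2 ≤ q) (h0 : -1 / ((q : ℝ) - 1) ≤ lam) (h1 : lam ≤ 1)
    (T : TwoPoint q lam 0) (hη : 0 ≤ η) (hT : SqSlack T η) (n : ℕ) :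
    ∀ (k : ℕ) (ch : Fin k → PTree n),
      ev (fun s => nodeVec (q := q) lam ch s) chi + η * lam ^ 4 * pairX (q := q) lam ch ^ 2
        ≤ lam ^ 2 * ∑ c, xTree q lam n (ch c) := by
  have hK := evK_nonneg hq h0 h1 T le_rfl n
  intro k
  induction k with
  | zero =>
    intro ch
    have h := (node_bounds hq h0 h1 T le_rfl n hK 0 ch).2
    simp [pairX] at h ⊢
    exact h
  | succ k ih =>
    intro ch
    have sC := step_sq T hη hT
      (fun s => nodeVec (q := q) lam (fun c => ch c.castSucc) s) (lik lam n (ch (Fin.last k)))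
      (fun s i => nodeVec_nonneg hq h0 h1 _ s i) (fun s i => lik_nonneg hq h0 h1 n _ s i)
      (fun π f => sum_lik_perm lam π n (ch (Fin.last k)) f) (sum_nodeVec lam _) (sum_mass lam n _)
      (node_bounds hq h0 h1 T le_rfl n hK k _).1 (hK _)
    have ihC := ih fun c => ch c.castSucc
    rw [← ev_snoc, show ev (lik (q := q) lam n (ch (Fin.last k))) chi
      = xTree q lam n (ch (Fin.last k)) from rfl] at sC
    rw [Fin.sum_univ_castSucc, mul_add]
    have hnn := mul_nonneg (mul_nonneg hη (sq_nonneg (ev (fun s => nodeVec (q := q) lam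
      (fun c => ch c.castSucc) s) chi))) (sq_nonneg (xTree q lam n (ch (Fin.last k))))
    match k, ch, ihC, sC, hnn with
    | 0, ch, ihC, sC, hnn =>
      simp [pairX] at ihC sC hnn ⊢
      linarith
    | 1, ch, ihC, sC, hnn =>
      rw [ev_one_child (fun c : Fin 1 => ch c.castSucc)] at sC
      simp [pairX] at sC ⊢
      linarith
    | k + 2, ch, ihC, sC, hnn =>
      have hp : pairX (q := q) lam ch
          = pairX (q := q) lam (fun c : Fin (k + 2) => ch c.castSucc) := by simp [pairX]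
      rw [hp]
      linarith

/-- Nonreconstruction from a quartic slack. -/
theorem aGW_zero_of_sq (hq : 2 ≤ q) (h0 : -1 / ((q : ℝ) - 1) ≤ lam) (h1 : lam ≤ 1) (hη : 0 < η)
    (T : TwoPoint q lam 0) (hT : SqSlack T η) {p : ℕ → ℝ} (hp : ∀ k, 0 ≤ p k)
    (hp1 : ∑' k, ENNReal.ofReal (p k) = 1) (hp2 : ∃ k, 2 ≤ k ∧ 0 < p k)
    (hmean : ENNReal.ofReal (lam ^ 2) * ∑' k, ENNReal.ofReal (p k) * k ≤ 1) :
    Tendsto (fun n => aGW q p lam n) atTop (𝓝 0) := by
  have : NeZero q := ⟨by omega⟩
  refine aGW_tendsto_zero hq h0 h1 hp hp1 ?_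
  rcases eq_or_ne lam 0 with hl | hl
  · refine Tendsto.congr' ?_ tendsto_const_nhds
    filter_upwards [eventually_ge_atTop 1] with n hn
    obtain ⟨m, rfl⟩ : ∃ m, n = m + 1 := ⟨n - 1, by omega⟩
    symm
    refine ENNReal.tsum_eq_zero.2 fun t => ?_
    have h := node_sq hq h0 h1 T hη.le hT m t.1 t.2
    simp only [hl, ne_eq, OfNat.ofNat_ne_zero, not_false_eq_true, zero_pow, mul_zero, zero_mul,
      add_zero] at h
    have hx : xTree q lam (m + 1) t ≤ 0 := by rw [hl]; exact h
    simp [ENNReal.ofReal_of_nonpos hx]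
  · have hsq : Tendsto (fun n => gwE p n fun t => ENNReal.ofReal (xTree q lam n t ^ 2)) atTop
        (𝓝 0) := by
      refine gw_decay hp hp1 hp2 (η := η * lam ^ 4) (mul_pos hη (by positivity)) hmean
        (fun n t => ENNReal.ofReal (xTree q lam n t))
        (fun n t => ENNReal.ofReal (xTree q lam n t ^ 2)) (fun t => ENNReal.ofReal_ne_top)
        fun n k ch => ?_
      have hx := fun (t : PTree n) => xTree_nonneg hq h0 h1 n t
      have e : pairProd (fun t => ENNReal.ofReal (xTree q lam n t ^ 2)) ch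
          = ENNReal.ofReal (pairX (q := q) lam ch ^ 2) := by
        unfold pairProd pairX
        split_ifs with h
        · rw [mul_pow, ENNReal.ofReal_mul (sq_nonneg _)]
        · simp
      rw [e, ← ENNReal.ofReal_mul (mul_nonneg hη.le (by positivity)),
        ← ENNReal.ofReal_sum_of_nonneg fun c _ => hx _, ← ENNReal.ofReal_mul (sq_nonneg lam)]
      refine (ENNReal.ofReal_add (xTree_nonneg hq h0 h1 (n + 1) ⟨k, ch⟩)
        (mul_nonneg (mul_nonneg hη.le (by positivity)) (sq_nonneg _))).symm.trans_le ?_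
      exact ENNReal.ofReal_le_ofReal (node_sq hq h0 h1 T hη.le hT n k ch)
    rw [ENNReal.tendsto_nhds_zero]
    intro δ hδ
    obtain ⟨r, hr, hrδ⟩ : ∃ r : ℝ, 0 < r ∧ ENNReal.ofReal r ≤ δ := by
      rcases eq_or_ne δ ∞ with rfl | hne
      · exact ⟨1, one_pos, le_top⟩
      · exact ⟨δ.toReal, ENNReal.toReal_pos hδ.ne' hne, ENNReal.ofReal_toReal_le⟩
    have h2 := ENNReal.Tendsto.const_mul hsq (a := ENNReal.ofReal (1 / r))
      (Or.inr ENNReal.ofReal_ne_top)
    rw [mul_zero, ENNReal.tendsto_nhds_zero] at h2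
    filter_upwards [h2 (ENNReal.ofReal (r / 2)) (ENNReal.ofReal_pos.2 (by linarith))] with n hn
    refine le_trans ?_ hrδ
    calc gwE p n (fun t => ENNReal.ofReal (xTree q lam n t))
        ≤ gwE p n (fun t => ENNReal.ofReal (r / 2) * 1
            + ENNReal.ofReal (1 / r) * ENNReal.ofReal (xTree q lam n t ^ 2)) := by
          refine ENNReal.tsum_le_tsum fun t => mul_le_mul_right ?_ _
          simp only [mul_one]
          rw [← ENNReal.ofReal_mul (by positivity),
            ← ENNReal.ofReal_add (by positivity) (by positivity)]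
          refine ENNReal.ofReal_le_ofReal ?_
          have : r / 2 + 1 / r * xTree q lam n t ^ 2 - xTree q lam n t
              = ((r - xTree q lam n t) ^ 2 + xTree q lam n t ^ 2) / (2 * r) := by
            field_simp
            ring
          have := div_nonneg (add_nonneg (sq_nonneg (r - xTree q lam n t))
            (sq_nonneg (xTree q lam n t))) (by positivity : (0 : ℝ) ≤ 2 * r)
          linarith
      _ = ENNReal.ofReal (r / 2) + ENNReal.ofReal (1 / r)
            * gwE p n (fun t => ENNReal.ofReal (xTree q lam n t ^ 2)) := by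
          have h1' := gwE_one hp hp1 n
          simp only [gwE, mul_one] at h1' ⊢
          simp only [mul_add, ENNReal.tsum_add, ENNReal.tsum_mul_right, h1', one_mul,
            ← ENNReal.tsum_mul_left]
          congr 1
          exact tsum_congr fun t => by ring
      _ ≤ ENNReal.ofReal (r / 2) + ENNReal.ofReal (r / 2) := add_le_add le_rfl hn
      _ = _ := by rw [← ENNReal.ofReal_add (by linarith) (by linarith), add_halves]

/-- The threshold on `d`-ary trees from a quartic slack. -/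
theorem reg_threshold_sq (hq : 2 ≤ q) (h0 : -1 / ((q : ℝ) - 1) ≤ lam) (h1 : lam ≤ 1) (hη : 0 < η)
    (T : TwoPoint q lam 0) (hT : SqSlack T η) {d : ℕ} (hd : 2 ≤ d) :
    Tendsto (fun n => aReg q d lam n) atTop (𝓝 0) ↔ d * lam ^ 2 ≤ 1 := by
  refine ⟨fun h => not_lt.1 fun hks => not_tendsto_zero_of_ge (aReg_ge_of_ks hq h0 h1 hks) h,
    fun hks => ?_⟩
  have hsum : ∀ g : ℕ → ℝ≥0∞, ∑' k, ENNReal.ofReal (dirac d k) * g k = g d := by
    intro g
    rw [tsum_eq_single d fun k hk => by simp [dirac, hk]]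
    simp [dirac]
  have h := aGW_zero_of_sq hq h0 h1 hη T hT (p := dirac d)
    (fun k => by unfold dirac; split_ifs <;> norm_num) (by simpa using hsum fun _ => 1)
    ⟨d, hd, by simp [dirac]⟩ ?_
  · simpa only [aGW_dirac] using h
  · rw [hsum, ← ENNReal.ofReal_natCast, ← ENNReal.ofReal_mul (sq_nonneg lam)]
    exact ENNReal.ofReal_le_one.2 (by linarith)

/-- The threshold on Poisson Galton-Watson trees from a quartic slack. -/
theorem pois_threshold_sq (hq : 2 ≤ q) (h0 : -1 / ((q : ℝ) - 1) ≤ lam) (h1 : lam ≤ 1) (hη : 0 < η)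
    (T : TwoPoint q lam 0) (hT : SqSlack T η) {d : ℝ} (hd : 0 < d) :
    Tendsto (fun n => aGW q (poisWeight d) lam n) atTop (𝓝 0) ↔ d * lam ^ 2 ≤ 1 := by
  refine ⟨fun h => not_lt.1 fun hks => not_tendsto_zero_of_ge (aPois_ge_of_ks hq h0 h1 hd hks) h,
    fun hks => ?_⟩
  refine aGW_zero_of_sq hq h0 h1 hη T hT (poisWeight_nonneg hd.le) (tsum_poisWeight hd.le)
    ⟨2, le_rfl, by unfold poisWeight; positivity⟩ ?_
  rw [tsum_poisWeight_mul hd.le, ← ENNReal.ofReal_mul (sq_nonneg lam)]
  exact ENNReal.ofReal_le_one.2 (by linarith)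

end Vale.P154
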