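import Vale.Agent.P154.Q4Invariant
import Vale.Agent.P154.Q4Avg
import Vale.Agent.P154.Q4Pairs0
import Vale.Agent.P154.Q4Pairs1
import Vale.Agent.P154.Q4Pairs2
import Vale.Agent.P154.Q4Pairs3
import Vale.Agent.P154.Q4Pairs4
import Vale.Agent.P154.Q4Pairs5
import Vale.Agent.P154.Q4Pairs6
import Vale.Agent.P154.Q4Pairs7
import Vale.Agent.P154.Q4Pairs8
import Vale.Agent.P154.Q4Pairs9
import Vale.Agent.P154.Quartic

/-!
# The two-point certificate for four colours and nonnegative interaction
-/

noncomputable section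

namespace Vale.P154.Q4

theorem gain_pair : ∀ i j : Fin 6, i ≤ j → pairOK gainI (vec j) (vec i) = true
  | 0, 0, _ => gain_00
  | 0, 1, _ => gain_01
  | 0, 2, _ => gain_02
  | 0, 3, _ => gain_03
  | 0, 4, _ => gain_04
  | 0, 5, _ => gain_05
  | 1, 0, h => absurd h (by decide)
  | 1, 1, _ => gain_11
  | 1, 2, _ => gain_12
  | 1, 3, _ => gain_13
  | 1, 4, _ => gain_14
  | 1, 5, _ => gain_15
  | 2, 0, h => absurd h (by decide)
  | 2, 1, h => absurd h (by decide)
  | 2, 2, _ => gain_22
  | 2, 3, _ => gain_23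
  | 2, 4, _ => gain_24
  | 2, 5, _ => gain_25
  | 3, 0, h => absurd h (by decide)
  | 3, 1, h => absurd h (by decide)
  | 3, 2, h => absurd h (by decide)
  | 3, 3, _ => gain_33
  | 3, 4, _ => gain_34
  | 3, 5, _ => gain_35
  | 4, 0, h => absurd h (by decide)
  | 4, 1, h => absurd h (by decide)
  | 4, 2, h => absurd h (by decide)
  | 4, 3, h => absurd h (by decide)
  | 4, 4, _ => gain_44
  | 4, 5, _ => gain_45
  | 5, 0, h => absurd h (by decide)
  | 5, 1, h => absurd h (by decide)
  | 5, 2, h => absurd h (by decide)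
  | 5, 3, h => absurd h (by decide)
  | 5, 4, h => absurd h (by decide)
  | 5, 5, _ => gain_55

theorem subI_pair : ∀ i j : Fin 6, i ≤ j → 2 ≤ j → pairOK subI (vec j) (vec i) = true
  | 0, 0, _, h => absurd h (by decide)
  | 0, 1, _, h => absurd h (by decide)
  | 0, 2, _, _ => sub_02
  | 0, 3, _, _ => sub_03
  | 0, 4, _, _ => sub_04
  | 0, 5, _, _ => sub_05
  | 1, 0, h, _ => absurd h (by decide)
  | 1, 1, _, h => absurd h (by decide)
  | 1, 2, _, _ => sub_12
  | 1, 3, _, _ => sub_13
  | 1, 4, _, _ => sub_14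
  | 1, 5, _, _ => sub_15
  | 2, 0, h, _ => absurd h (by decide)
  | 2, 1, h, _ => absurd h (by decide)
  | 2, 2, _, _ => sub_22
  | 2, 3, _, _ => sub_23
  | 2, 4, _, _ => sub_24
  | 2, 5, _, _ => sub_25
  | 3, 0, h, _ => absurd h (by decide)
  | 3, 1, h, _ => absurd h (by decide)
  | 3, 2, h, _ => absurd h (by decide)
  | 3, 3, _, _ => sub_33
  | 3, 4, _, _ => sub_34
  | 3, 5, _, _ => sub_35
  | 4, 0, h, _ => absurd h (by decide)
  | 4, 1, h, _ => absurd h (by decide)
  | 4, 2, h, _ => absurd h (by decide)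
  | 4, 3, h, _ => absurd h (by decide)
  | 4, 4, _, _ => sub_44
  | 4, 5, _, _ => sub_45
  | 5, 0, h, _ => absurd h (by decide)
  | 5, 1, h, _ => absurd h (by decide)
  | 5, 2, h, _ => absurd h (by decide)
  | 5, 3, h, _ => absurd h (by decide)
  | 5, 4, h, _ => absurd h (by decide)
  | 5, 5, _, _ => sub_55

/-- The gain form is nonnegative at the features of two centred likelihood vectors. -/
theorem gain_form_nonneg {w z : Fin 4 → ℝ} (hw : Simp w) (hz : Simp z) :
    0 ≤ dot (app gainI (phiY z)) (phiY w) := by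
  obtain ⟨i, -, -, hi⟩ := exists_regime hw
  obtain ⟨j, -, -, hj⟩ := exists_regime hz
  rcases le_total i j with h | h
  · exact bilinear_nonneg (gain_pair i j h) hj hi
  · refine (bilinear_nonneg (gain_pair j i h) hi hj).trans_eq ?_
    simp only [app, gainI, castL, List.map_cons, List.map_nil, dot, phiY, phi]
    push_cast
    ring

/-- The gain of the invariant at full strength. -/
theorem gain_full {w z : Fin 4 → ℝ} (hw : Simp w) (hz : Simp z) :
    alC (chi z) * kinv w + alC (chi w) * kinv z ≤ mix 1 kinv w z := by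
  have hpi : ∀ π : Equiv.Perm (Fin 4),
      piPoly (fun i => (1 + w i) * (1 + z (π i)))
        ≤ (∑ i, tilt 1 w (fun j => z (π j)) i) / ((4 : ℕ) : ℝ)
          * kinv (rel (tilt 1 w fun j => z (π j))) := by
    intro π
    have e : tilt 1 w (fun j => z (π j)) = fun i => (1 + w i) * (1 + z (π i)) := by
      funext i; simp [tilt]
    rw [e]
    push_cast
    have hA : ∀ i, 0 ≤ (1 + w i) * (1 + z (π i)) := fun i =>
      mul_nonneg (by linarith [hw.1 i]) (by linarith [hz.1 (π i)])
    refine piPoly_le hA ?_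
    have h := Real.sum_sqrt_mul_sqrt_le (Finset.univ : Finset (Fin 4))
      (f := fun i => 1 + w i) (g := fun i => 1 + z (π i)) (fun i => by linarith [hw.1 i])
      (fun i => by linarith [hz.1 (π i)])
    have sw : ∑ i, (1 + w i) = 4 := by
      rw [Finset.sum_add_distrib, hw.2]; simp
    have sz : ∑ i, (1 + z (π i)) = 4 := by
      rw [Equiv.sum_comp π (fun i => 1 + z i), Finset.sum_add_distrib, hz.2]; simp
    rw [sw, sz, Real.mul_self_sqrt (by norm_num)] at h
    have e2 : ∀ i, Real.sqrt ((1 + w i) * (1 + z (π i)))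
        = Real.sqrt (1 + w i) * Real.sqrt (1 + z (π i)) :=
      fun i => Real.sqrt_mul (by linarith [hw.1 i]) _
    simp only [e2]
    linarith
  have hcard : (Fintype.card (Equiv.Perm (Fin 4)) : ℝ) = 24 := by
    simp [Fintype.card_perm, Nat.factorial]
  have havg := avg_piPoly hw.2 hz.2
  have hle : (∑ π : Equiv.Perm (Fin 4), piPoly fun i => (1 + w i) * (1 + z (π i))) / 24
      ≤ mix 1 kinv w z := by
    rw [mix, hcard]
    exact div_le_div_of_nonneg_right (Finset.sum_le_sum fun π _ => hpi π) (by norm_num)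
  have e : dot (app gainI (phiY z)) (phiY w) = dot (app formF (phiY z)) (phiY w)
      - 1019215872000 * (alC (chi z) * kinv w + alC (chi w) * kinv z) := by
    simp only [app, gainI, formF, castL, List.map_cons, List.map_nil, dot, phiY, phi, alC, kinv,
      inv8]
    push_cast
    ring
  have h0 := gain_form_nonneg hw hz
  rw [e] at h0
  linarith

/-- Half of the product of two crossed moments bounds the product of the third moments. -/
theorem m3_mul_le {w z : Fin 4 → ℝ} (hw : ∑ i, w i = 0) (hz : ∑ i, z i = 0) :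
    m3 w * m3 z ≤ (e4 w * chi z + chi w * e4 z) / 2 := by
  have e0 := e4_nonneg (y := w)
  have e1 := e4_nonneg (y := z)
  have c0 := chi_nonneg w
  have c1 := chi_nonneg z
  have hs : (m3 w * m3 z) ^ 2 ≤ ((e4 w * chi z + chi w * e4 z) / 2) ^ 2 := by
    rw [mul_pow]
    nlinarith [mul_le_mul (m3_sq_le hw) (m3_sq_le hz) (sq_nonneg _) (mul_nonneg c0 e0),
      sq_nonneg (e4 w * chi z - chi w * e4 z)]
  exact (abs_le_of_sq_le_sq' hs (by positivity)).2

/-- The third moment against crossed moments. -/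
theorem neg_m3_mul_le {w z : Fin 4 → ℝ} (hw : ∑ i, w i = 0) :
    -(m3 w * chi z ^ 2) ≤ 3 / 4 * (e4 w * chi z) + chi w * chi z ^ 3 / 3 := by
  have e0 := e4_nonneg (y := w)
  have c0 := chi_nonneg w
  have c1 := chi_nonneg z
  have hs : (m3 w * chi z ^ 2) ^ 2 ≤ (3 / 4 * (e4 w * chi z) + chi w * chi z ^ 3 / 3) ^ 2 := by
    nlinarith [mul_le_mul_of_nonneg_right (m3_sq_le hw) (pow_nonneg c1 4),
      sq_nonneg (3 / 4 * (e4 w * chi z) - chi w * chi z ^ 3 / 3)]
  linarith [(abs_le_of_sq_le_sq' hs (by positivity)).1]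

/-- The defect of subadditivity. -/
def subDef (w z : Fin 4 → ℝ) : ℝ :=
  -(form5 (chi w) (m3 w) (e4 w) (chi z) (m3 z) (e4 z) + aaC (chi z) * kinv w
    + aaC (chi w) * kinv z + 1 / 10000 * (chi w ^ 2 * chi z ^ 2))

theorem subI_eq (w z : Fin 4 → ℝ) :
    dot (app subI (phiY z)) (phiY w) = 540000 * subDef w z := by
  simp only [app, subI, castL, List.map_cons, List.map_nil, dot, phiY, phi, subDef, form5, aaC,
    kinv, inv8]
  push_cast
  ring

theorem subPP_eq (w z : Fin 4 → ℝ) :
    dot (app subPP (phiY z)) (phiY w) = dot (app subI (phiY z)) (phiY w)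
      + 90000 * (m3 w * m3 z - (e4 w * chi z + chi w * e4 z) / 2) := by
  simp only [app, subI, subPP, castL, List.map_cons, List.map_nil, dot, phiY, phi]
  push_cast
  ring

theorem subNN_eq (w z : Fin 4 → ℝ) :
    dot (app subNN (phiY z)) (phiY w) = dot (app subI (phiY z)) (phiY w)
      + 90000 * (m3 w * m3 z - (e4 w * chi z + chi w * e4 z) / 2)
      + 120000 * (-(m3 w * chi z ^ 2) - (3 / 4 * (e4 w * chi z) + chi w * chi z ^ 3 / 3))
      + 120000 * (-(m3 z * chi w ^ 2) - (3 / 4 * (e4 z * chi w) + chi z * chi w ^ 3 / 3)) := by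
  simp only [app, subI, subNN, castL, List.map_cons, List.map_nil, dot, phiY, phi]
  push_cast
  ring

theorem subNP_eq (w z : Fin 4 → ℝ) :
    dot (app subNP (phiY z)) (phiY w) = dot (app subI (phiY z)) (phiY w)
      + 120000 * (-(m3 w * chi z ^ 2) - (3 / 4 * (e4 w * chi z) + chi w * chi z ^ 3 / 3)) := by
  simp only [app, subI, subNP, castL, List.map_cons, List.map_nil, dot, phiY, phi]
  push_cast
  ring

theorem subDef_comm (w z : Fin 4 → ℝ) : subDef z w = subDef w z := by
  unfold subDef form5; ring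

theorem subDef_nonneg_of_le {w z : Fin 4 → ℝ} (hw : Simp w) (hz : Simp z) {i j : Fin 6}
    (h : i ≤ j) (hi : InCone (vec i) (phiY w)) (hj : InCone (vec j) (phiY z)) :
    0 ≤ subDef w z := by
  rcases le_or_gt 2 j with h' | h'
  · have := bilinear_nonneg (subI_pair i j h h') hj hi
    rw [subI_eq] at this
    linarith
  · have hcases : (i = 0 ∧ j = 0) ∨ (i = 0 ∧ j = 1) ∨ (i = 1 ∧ j = 1) := by
      revert h h'; fin_cases i <;> fin_cases j <;> decide
    have hn := neg_m3_mul_le (z := z) hw.2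
    have hn' := neg_m3_mul_le (z := w) hz.2
    have hm := m3_mul_le hw.2 hz.2
    rcases hcases with ⟨rfl, rfl⟩ | ⟨rfl, rfl⟩ | ⟨rfl, rfl⟩
    · have := bilinear_nonneg sub_00 hj hi
      rw [subNN_eq, subI_eq] at this
      linarith
    · have := bilinear_nonneg sub_01 hj hi
      rw [subNP_eq, subI_eq] at this
      linarith
    · have := bilinear_nonneg sub_11 hj hi
      rw [subPP_eq, subI_eq] at this
      linarith

theorem subDef_nonneg {w z : Fin 4 → ℝ} (hw : Simp w) (hz : Simp z) : 0 ≤ subDef w z := by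
  obtain ⟨i, -, -, hi⟩ := exists_regime hw
  obtain ⟨j, -, -, hj⟩ := exists_regime hz
  rcases le_total i j with h | h
  · exact subDef_nonneg_of_le hw hz h hi hj
  · exact subDef_comm z w ▸ subDef_nonneg_of_le hz hw h hj hi

theorem mix_lam (lam : ℝ) (f : (Fin 4 → ℝ) → ℝ) (w y : Fin 4 → ℝ) :
    mix lam f w y = mix 1 f w fun i => lam * y i := by
  unfold mix tilt; simp only [one_mul]

/-- The two-point certificate. -/
def twoPoint {lam : ℝ} (h0 : 0 ≤ lam) (h1 : lam ≤ 1) : TwoPoint 4 lam 0 where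
  K := kinv
  a y := aaC (chi fun i => lam * y i)
  b w := lam ^ 3 * aaC (chi w)
  kap w := lam ^ 3 * alC (chi w)
  kaw y := alC (chi fun i => lam * y i)
  hkaw _ hy := alC_nonneg (simp_smul hy h0 h1)
  ha _ hy := aaC_nonneg (simp_smul hy h0 h1)
  hb _ hw := mul_nonneg (pow_nonneg h0 3) (aaC_nonneg hw)
  hkap _ hw := mul_nonneg (pow_nonneg h0 3) (alC_nonneg hw)
  K_zero := kinv_zero.ge
  K_leaf := kinv_leaf
  gain w y hw hy := by
    obtain ⟨r, -, -, hr⟩ := exists_regime hy
    have hz := simp_smul hy h0 h1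
    have h := gain_full hw hz
    have he := mul_le_mul_of_nonneg_left (kinv_edge h0 h1 hr) (alC_nonneg hw)
    rw [mix_lam]
    linarith
  sub w y hw hy := by
    obtain ⟨r, -, -, hr⟩ := exists_regime hy
    have hz := simp_smul hy h0 h1
    have h := mix_chi_le_form hw hz
    have hd := subDef_nonneg hw hz
    have he := mul_le_mul_of_nonneg_left (kinv_edge h0 h1 hr) (aaC_nonneg hw)
    have hs : 0 ≤ chi w ^ 2 * (lam ^ 2 * chi y) ^ 2 := by positivity
    rw [mix_lam]
    simp only [subDef] at hd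
    simp only [(moments_smul lam y).1, (moments_smul lam y).2.1,
      (moments_smul lam y).2.2] at h hd ⊢
    linarith

/-- The certificate has a slack of fourth order. -/
theorem twoPoint_slack {lam : ℝ} (h0 : 0 ≤ lam) (h1 : lam ≤ 1) :
    SqSlack (twoPoint h0 h1) (lam ^ 4 / 10000) := by
  intro w y hw hy
  obtain ⟨r, -, -, hr⟩ := exists_regime hy
  have hz := simp_smul hy h0 h1
  have h := mix_chi_le_form hw hz
  have hd := subDef_nonneg hw hz
  have he := mul_le_mul_of_nonneg_left (kinv_edge h0 h1 hr) (aaC_nonneg hw)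
  rw [mix_lam]
  simp only [subDef] at hd
  simp only [twoPoint, (moments_smul lam y).1, (moments_smul lam y).2.1,
    (moments_smul lam y).2.2] at h hd ⊢
  linarith

end Vale.P154.Q4
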