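import Vale.Agent.P154.Tree

/-!
# From a Lyapunov inequality on trees to nonreconstruction on Galton-Watson and regular trees
-/

noncomputable section

namespace Vale.P154

open Finset Filter Topology
open scoped ENNReal

variable {q : ℕ}

/-- The chi-square magnetisation of a tree. -/
def xTree (q : ℕ) (lam : ℝ) (n : ℕ) (t : PTree n) : ℝ :=
  ∑ s : Cfg q n t, ((∑ i, lik lam n t s i) / q) *
    ((∑ i, (q * lik lam n t s i / (∑ j, lik lam n t s j) - 1) ^ 2) / q)

theorem mass_nonneg (hq : 2 ≤ q) {lam : ℝ} (h0 : -1 / ((q : ℝ) - 1) ≤ lam) (h1 : lam ≤ 1)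
    (n : ℕ) (t : PTree n) (s : Cfg q n t) : 0 ≤ (∑ i, lik lam n t s i) / q :=
  div_nonneg (Finset.sum_nonneg fun i _ => lik_nonneg hq h0 h1 n t s i) (Nat.cast_nonneg q)

theorem sum_mass [NeZero q] (lam : ℝ) (n : ℕ) (t : PTree n) :
    ∑ s : Cfg q n t, (∑ i, lik lam n t s i) / q = 1 := by
  rw [← Finset.sum_div, Finset.sum_comm]
  simp [sum_lik]

theorem xTree_nonneg (hq : 2 ≤ q) {lam : ℝ} (h0 : -1 / ((q : ℝ) - 1) ≤ lam) (h1 : lam ≤ 1)
    (n : ℕ) (t : PTree n) : 0 ≤ xTree q lam n t :=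
  Finset.sum_nonneg fun s _ => mul_nonneg (mass_nonneg hq h0 h1 n t s) (by positivity)

theorem aTree_nonneg (hq : 2 ≤ q) {lam : ℝ} (h0 : -1 / ((q : ℝ) - 1) ≤ lam) (h1 : lam ≤ 1)
    (n : ℕ) (t : PTree n) : 0 ≤ aTree q lam n t :=
  Finset.sum_nonneg fun s _ => mul_nonneg (mass_nonneg hq h0 h1 n t s) (by positivity)

theorem aTree_le_xTree (hq : 2 ≤ q) {lam : ℝ} (h0 : -1 / ((q : ℝ) - 1) ≤ lam) (h1 : lam ≤ 1)
    (n : ℕ) (t : PTree n) {ε : ℝ} (hε : 0 < ε) :
    aTree q lam n t ≤ ε / 4 + xTree q lam n t / (4 * ε) := by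
  have : NeZero q := ⟨by omega⟩
  have hq0 : (0 : ℝ) < q := by exact_mod_cast (by omega : 0 < q)
  calc aTree q lam n t ≤ ∑ s : Cfg q n t, ((∑ i, lik lam n t s i) / q) *
        (ε / 4 + (∑ i, (q * lik lam n t s i / (∑ j, lik lam n t s j) - 1) ^ 2) / q / (4 * ε)) := by
        refine Finset.sum_le_sum fun s _ =>
          mul_le_mul_of_nonneg_left ?_ (mass_nonneg hq h0 h1 n t s)
        have key : ∀ i, |lik lam n t s i / (∑ j, lik lam n t s j) - 1 / (q : ℝ)| ≤
            (ε / 2 + (q * lik lam n t s i / (∑ j, lik lam n t s j) - 1) ^ 2 / (2 * ε)) / q := by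
          intro i
          set y := q * lik lam n t s i / (∑ j, lik lam n t s j) - 1 with hy
          have e : lik lam n t s i / (∑ j, lik lam n t s j) - 1 / (q : ℝ) = y / q := by
            rw [hy, sub_div, mul_div_assoc, mul_div_cancel_left₀ _ hq0.ne']
          rw [e, abs_div, abs_of_pos hq0]
          refine div_le_div_of_nonneg_right ?_ hq0.le
          have : ε / 2 + y ^ 2 / (2 * ε) = (ε ^ 2 + y ^ 2) / (2 * ε) := by field_simp
          rw [this, le_div_iff₀ (by positivity)]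
          nlinarith [sq_nonneg (|y| - ε), sq_abs y, abs_nonneg y]
        calc (1 / 2) * ∑ i, |lik lam n t s i / (∑ j, lik lam n t s j) - 1 / (q : ℝ)|
            ≤ (1 / 2) * ∑ i, (ε / 2
                + (q * lik lam n t s i / (∑ j, lik lam n t s j) - 1) ^ 2 / (2 * ε)) / q :=
              mul_le_mul_of_nonneg_left (Finset.sum_le_sum fun i _ => key i) (by norm_num)
          _ = _ := by
              rw [← Finset.sum_div _ _ (q : ℝ), Finset.sum_add_distrib, ← Finset.sum_div _ _ (2 * ε)]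
              simp only [Finset.sum_const, Finset.card_univ, Fintype.card_fin, nsmul_eq_mul]
              generalize (∑ i, (q * lik lam n t s i / (∑ j, lik lam n t s j) - 1) ^ 2) = S
              field_simp
              ring
    _ = _ := by
        simp only [mul_add]
        rw [Finset.sum_add_distrib, ← Finset.sum_mul, sum_mass, one_mul, xTree]
        congr 1
        rw [Finset.sum_div]
        exact Finset.sum_congr rfl fun s _ => (mul_div_assoc _ _ _).symm

/-- Expectation over Galton-Watson trees of depth `n`. -/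
def gwE (p : ℕ → ℝ) (n : ℕ) (f : PTree n → ℝ≥0∞) : ℝ≥0∞ :=
  ∑' t : PTree n, ENNReal.ofReal (gwWeight p n t) * f t

theorem tsum_pi_prod {β : Type*} : ∀ {k : ℕ} (g : Fin k → β → ℝ≥0∞),
    ∑' ch : Fin k → β, ∏ c, g c (ch c) = ∏ c, ∑' x, g c x
  | 0, g => by simp [tsum_fintype]
  | k + 1, g => by
      rw [← (Fin.consEquiv fun _ => β).tsum_eq fun ch => ∏ c, g c (ch c)]
      simp only [Fin.prod_univ_succ, Fin.consEquiv_apply, Fin.cons_zero, Fin.cons_succ]
      rw [ENNReal.tsum_prod']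
      simp only [ENNReal.tsum_mul_left, tsum_pi_prod (fun c => g c.succ), ENNReal.tsum_mul_right]

theorem gwWeight_nonneg {p : ℕ → ℝ} (hp : ∀ k, 0 ≤ p k) : ∀ (n : ℕ) (t : PTree n),
    0 ≤ gwWeight p n t
  | 0, _ => zero_le_one
  | n + 1, t => mul_nonneg (hp _) (Finset.prod_nonneg fun c _ => gwWeight_nonneg hp n (t.2 c))

theorem gwE_succ {p : ℕ → ℝ} (hp : ∀ k, 0 ≤ p k) (n : ℕ) (f : PTree (n + 1) → ℝ≥0∞) :
    gwE p (n + 1) f = ∑' k, ENNReal.ofReal (p k) *
      ∑' ch : Fin k → PTree n, (∏ c, ENNReal.ofReal (gwWeight p n (ch c))) * f ⟨k, ch⟩ := by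
  unfold gwE
  refine (ENNReal.tsum_sigma' _).trans (tsum_congr fun k => ?_)
  rw [← ENNReal.tsum_mul_left]
  refine tsum_congr fun ch => ?_
  show ENNReal.ofReal (p k * ∏ c, gwWeight p n (ch c)) * _ = _
  rw [ENNReal.ofReal_mul (hp k), ENNReal.ofReal_prod_of_nonneg fun c _ => gwWeight_nonneg hp n _]
  ring

theorem gwE_one {p : ℕ → ℝ} (hp : ∀ k, 0 ≤ p k) (hp1 : ∑' k, ENNReal.ofReal (p k) = 1) :
    ∀ n, gwE p n (fun _ => 1) = 1
  | 0 => by
      show ∑' t : Unit, ENNReal.ofReal 1 * 1 = 1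
      simp
  | n + 1 => by
      rw [gwE_succ hp]
      simp only [mul_one]
      simp only [tsum_pi_prod (fun _ x => ENNReal.ofReal (gwWeight p n x))]
      have := gwE_one hp hp1 n
      simp only [gwE, mul_one] at this
      simp only [this, Finset.prod_const_one, mul_one, hp1]

/-- The expected sum over the children of a node. -/
theorem node_sum {p : ℕ → ℝ} (hp : ∀ k, 0 ≤ p k) (hp1 : ∑' k, ENNReal.ofReal (p k) = 1)
    (n k : ℕ) (f : PTree n → ℝ≥0∞) :
    ∑' ch : Fin k → PTree n, (∏ c, ENNReal.ofReal (gwWeight p n (ch c))) * ∑ c, f (ch c)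
      = k * gwE p n f := by
  simp only [Finset.mul_sum]
  rw [Summable.tsum_finsetSum fun c _ => ENNReal.summable]
  have h1 := gwE_one hp hp1 n
  simp only [gwE, mul_one] at h1
  have : ∀ c₀ : Fin k, ∑' ch : Fin k → PTree n,
      (∏ c, ENNReal.ofReal (gwWeight p n (ch c))) * f (ch c₀) = gwE p n f := by
    intro c₀
    have e : ∀ ch : Fin k → PTree n, (∏ c, ENNReal.ofReal (gwWeight p n (ch c))) * f (ch c₀)
        = ∏ c, ENNReal.ofReal (gwWeight p n (ch c)) * (if c = c₀ then f (ch c) else 1) := by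
      intro ch
      rw [Finset.prod_mul_distrib, Finset.prod_ite_eq' Finset.univ c₀ (fun c => f (ch c))]
      simp
    simp only [e]
    rw [tsum_pi_prod (fun c x => ENNReal.ofReal (gwWeight p n x) * (if c = c₀ then f x else 1))]
    rw [Finset.prod_eq_single c₀]
    · simp [gwE]
    · intro c _ hc; simp [hc, h1]
    · simp
  simp [this]

/-- The product over the first two children of a node. -/
def pairProd {n k : ℕ} (f : PTree n → ℝ≥0∞) (ch : Fin k → PTree n) : ℝ≥0∞ :=
  if h : 2 ≤ k then f (ch ⟨0, by omega⟩) * f (ch ⟨1, by omega⟩) else 0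

/-- The expected product over the first two children of a node. -/
theorem node_pair {p : ℕ → ℝ} (hp : ∀ k, 0 ≤ p k) (hp1 : ∑' k, ENNReal.ofReal (p k) = 1)
    (n k : ℕ) (f : PTree n → ℝ≥0∞) :
    ∑' ch : Fin k → PTree n, (∏ c, ENNReal.ofReal (gwWeight p n (ch c))) * pairProd f ch
      = if 2 ≤ k then gwE p n f ^ 2 else 0 := by
  unfold pairProd
  split_ifs with h
  · have h1 := gwE_one hp hp1 n
    simp only [gwE, mul_one] at h1
    obtain ⟨k, rfl⟩ : ∃ m, k = m + 2 := ⟨k - 2, by omega⟩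
    let g : Fin (k + 2) → PTree n → ℝ≥0∞ := fun c x => if (c : ℕ) < 2 then f x else 1
    have e : ∀ ch : Fin (k + 2) → PTree n, (∏ c, g c (ch c))
        = f (ch ⟨0, by omega⟩) * f (ch ⟨1, by omega⟩) := by
      intro ch
      rw [Fin.prod_univ_succ, Fin.prod_univ_succ]
      simp only [g, Fin.val_succ, Fin.val_zero]
      simp
    simp only [← e, ← Finset.prod_mul_distrib]
    rw [tsum_pi_prod (fun c x => ENNReal.ofReal (gwWeight p n x) * g c x), Fin.prod_univ_succ,
      Fin.prod_univ_succ]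
    simp [g, gwE, h1, sq]
  · simp

/-- The hypotheses of the decay theorem, for the offspring law `p`. -/
theorem gw_decay {p : ℕ → ℝ} (hp : ∀ k, 0 ≤ p k) (hp1 : ∑' k, ENNReal.ofReal (p k) = 1)
    (hp2 : ∃ k, 2 ≤ k ∧ 0 < p k) {lam η : ℝ} (hη : 0 < η)
    (hmean : ENNReal.ofReal (lam ^ 2) * ∑' k, ENNReal.ofReal (p k) * k ≤ 1)
    (F C : ∀ n, PTree n → ℝ≥0∞) (hF0 : ∀ t, F 0 t ≠ ∞)
    (hstep : ∀ n (k : ℕ) (ch : Fin k → PTree n),
      F (n + 1) ⟨k, ch⟩ + ENNReal.ofReal η * pairProd (C n) ch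
        ≤ ENNReal.ofReal (lam ^ 2) * ∑ c, F n (ch c)) :
    Tendsto (fun n => gwE p n (C n)) atTop (𝓝 0) := by
  set P2 := ∑' k, (if 2 ≤ k then ENNReal.ofReal (p k) else 0) with hP2
  have hP2pos : 0 < P2 := by
    obtain ⟨k, hk, hpk⟩ := hp2
    refine lt_of_lt_of_le ?_ (ENNReal.le_tsum k)
    simp [hk, hpk]
  have key : ∀ n, gwE p (n + 1) (F (n + 1)) + ENNReal.ofReal η * P2 * gwE p n (C n) ^ 2
      ≤ gwE p n (F n) := by
    intro n
    have e : ENNReal.ofReal η * P2 * gwE p n (C n) ^ 2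
        = ∑' k, ENNReal.ofReal (p k) * ∑' ch : Fin k → PTree n,
          (∏ c, ENNReal.ofReal (gwWeight p n (ch c))) * (ENNReal.ofReal η * pairProd (C n) ch) := by
      have : ∀ k, ∑' ch : Fin k → PTree n,
          (∏ c, ENNReal.ofReal (gwWeight p n (ch c))) * (ENNReal.ofReal η * pairProd (C n) ch)
          = ENNReal.ofReal η * if 2 ≤ k then gwE p n (C n) ^ 2 else 0 := by
        intro k
        rw [← node_pair hp hp1, ← ENNReal.tsum_mul_left]
        exact tsum_congr fun ch => by ring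
      simp only [this, hP2]
      rw [← ENNReal.tsum_mul_left, ← ENNReal.tsum_mul_right]
      refine tsum_congr fun k => ?_
      split_ifs <;> ring
    rw [e, gwE_succ hp, ← ENNReal.tsum_add]
    calc _ ≤ ∑' k, ENNReal.ofReal (p k) * ∑' ch : Fin k → PTree n,
          (∏ c, ENNReal.ofReal (gwWeight p n (ch c))) *
            (ENNReal.ofReal (lam ^ 2) * ∑ c, F n (ch c)) := by
          refine ENNReal.tsum_le_tsum fun k => ?_
          rw [← mul_add, ← ENNReal.tsum_add]
          refine mul_le_mul_right (ENNReal.tsum_le_tsum fun ch => ?_) _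
          rw [← mul_add]
          exact mul_le_mul_right (hstep n k ch) _
      _ = ENNReal.ofReal (lam ^ 2) * (∑' k, ENNReal.ofReal (p k) * k) * gwE p n (F n) := by
          rw [← ENNReal.tsum_mul_left, ← ENNReal.tsum_mul_right]
          refine tsum_congr fun k => ?_
          have : ∀ ch : Fin k → PTree n, (∏ c, ENNReal.ofReal (gwWeight p n (ch c))) *
              (ENNReal.ofReal (lam ^ 2) * ∑ c, F n (ch c)) = ENNReal.ofReal (lam ^ 2) *
              ((∏ c, ENNReal.ofReal (gwWeight p n (ch c))) * ∑ c, F n (ch c)) := fun ch => by ring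
          simp only [this, ENNReal.tsum_mul_left, node_sum hp hp1]
          ring
      _ ≤ _ := mul_le_of_le_one_left zero_le hmean
  have h0 : gwE p 0 (F 0) ≠ ∞ := by
    show ∑' t : Unit, ENNReal.ofReal 1 * F 0 t ≠ ∞
    rw [tsum_eq_single (default : Unit) (fun b hb => absurd (Subsingleton.elim b default) hb)]
    simpa using hF0 ()
  have tele : ∀ N, (∑ n ∈ Finset.range N, ENNReal.ofReal η * P2 * gwE p n (C n) ^ 2)
      + gwE p N (F N) ≤ gwE p 0 (F 0) := by
    intro N
    induction N with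
    | zero => simp
    | succ N ih =>
      rw [Finset.sum_range_succ, add_assoc]
      refine le_trans ?_ ih
      refine add_le_add le_rfl ?_
      rw [add_comm]; exact key N
  have hsum : ∑' n, ENNReal.ofReal η * P2 * gwE p n (C n) ^ 2 ≠ ∞ := by
    refine ne_top_of_le_ne_top h0 ?_
    rw [ENNReal.tsum_eq_iSup_nat]
    exact iSup_le fun N => le_trans le_self_add (tele N)
  have hc : ENNReal.ofReal η * P2 ≠ 0 :=
    mul_ne_zero (by simpa using hη) hP2pos.ne'
  rw [ENNReal.tsum_mul_left] at hsum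
  have hsq : ∑' n, gwE p n (C n) ^ 2 ≠ ∞ := fun h => hsum (by rw [h, ENNReal.mul_top hc])
  have ht := ENNReal.tendsto_atTop_zero_of_tsum_ne_top hsq
  rw [ENNReal.tendsto_nhds_zero] at ht ⊢
  intro ε hε
  filter_upwards [ht (ε ^ 2) (pos_iff_ne_zero.2 (pow_ne_zero 2 hε.ne'))] with n hn
  exact (ENNReal.pow_le_pow_left_iff two_ne_zero).1 hn

/-- `E x_n -> 0` implies nonreconstruction. -/
theorem aGW_tendsto_zero (hq : 2 ≤ q) {lam : ℝ} (h0 : -1 / ((q : ℝ) - 1) ≤ lam) (h1 : lam ≤ 1)
    {p : ℕ → ℝ} (hp : ∀ k, 0 ≤ p k) (hp1 : ∑' k, ENNReal.ofReal (p k) = 1)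
    (hx : Tendsto (fun n => gwE p n fun t => ENNReal.ofReal (xTree q lam n t)) atTop (𝓝 0)) :
    Tendsto (fun n => aGW q p lam n) atTop (𝓝 0) := by
  set A := fun n => gwE p n fun t => ENNReal.ofReal (aTree q lam n t) with hA
  have hbound : ∀ n (ε : ℝ), 0 < ε → A n ≤ ENNReal.ofReal (ε / 4)
      + ENNReal.ofReal (1 / (4 * ε)) * gwE p n (fun t => ENNReal.ofReal (xTree q lam n t)) := by
    intro n ε hε
    have h1' := gwE_one hp hp1 n
    simp only [gwE, mul_one] at h1'
    calc A n ≤ ∑' t, ENNReal.ofReal (gwWeight p n t) * (ENNReal.ofReal (ε / 4)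
          + ENNReal.ofReal (1 / (4 * ε)) * ENNReal.ofReal (xTree q lam n t)) := by
          refine ENNReal.tsum_le_tsum fun t => mul_le_mul_right ?_ _
          rw [← ENNReal.ofReal_mul (by positivity), ← ENNReal.ofReal_add (by positivity)
            (mul_nonneg (by positivity) (xTree_nonneg hq h0 h1 n t))]
          refine ENNReal.ofReal_le_ofReal ((aTree_le_xTree hq h0 h1 n t hε).trans (le_of_eq ?_))
          ring
      _ = _ := by
          simp only [mul_add, ENNReal.tsum_add, ENNReal.tsum_mul_right, h1', one_mul, gwE,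
            ← ENNReal.tsum_mul_left]
          congr 1
          exact tsum_congr fun t => by ring
  have hA0 : Tendsto A atTop (𝓝 0) := by
    rw [ENNReal.tendsto_nhds_zero]
    intro δ hδ
    obtain ⟨r, hr, hrδ⟩ : ∃ r : ℝ, 0 < r ∧ ENNReal.ofReal r ≤ δ := by
      rcases eq_or_ne δ ∞ with rfl | hne
      · exact ⟨1, one_pos, le_top⟩
      · exact ⟨δ.toReal, ENNReal.toReal_pos hδ.ne' hne, ENNReal.ofReal_toReal_le⟩
    have h2 := ENNReal.Tendsto.const_mul hx (a := ENNReal.ofReal (1 / (4 * r)))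
      (Or.inr ENNReal.ofReal_ne_top)
    rw [mul_zero, ENNReal.tendsto_nhds_zero] at h2
    filter_upwards [h2 (ENNReal.ofReal (r / 4)) (by simp; positivity)] with n hn
    refine (hbound n r hr).trans ((add_le_add le_rfl hn).trans ?_)
    rw [← ENNReal.ofReal_add (by positivity) (by positivity)]
    exact (ENNReal.ofReal_le_ofReal (by linarith)).trans hrδ
  have hle : ∀ n, aGW q p lam n = (A n).toReal := by
    intro n
    have hne : ∀ t, ENNReal.ofReal (gwWeight p n t) * ENNReal.ofReal (aTree q lam n t) ≠ ∞ :=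
      fun t => ENNReal.mul_ne_top ENNReal.ofReal_ne_top ENNReal.ofReal_ne_top
    simp only [hA, gwE, ENNReal.tsum_toReal_eq hne, aGW, ENNReal.toReal_mul,
      ENNReal.toReal_ofReal (gwWeight_nonneg hp n _), ENNReal.toReal_ofReal (aTree_nonneg hq h0 h1 n _)]
  simp only [hle]
  exact ((ENNReal.tendsto_toReal ENNReal.zero_ne_top).comp hA0).congr fun n => rfl

/-- The point mass at `d`. -/
def dirac (d k : ℕ) : ℝ := if k = d then 1 else 0

theorem gwWeight_dirac (d : ℕ) : ∀ (n : ℕ) (t : PTree n), gwWeight (dirac d) n t ≠ 0 →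
    t = regTree d n
  | 0, _, _ => rfl
  | n + 1, ⟨k, ch⟩, h => by
      simp only [gwWeight, dirac, ne_eq, mul_eq_zero, not_or, Finset.prod_eq_zero_iff] at h
      obtain ⟨hk, hch⟩ := h
      have hk' : k = d := by by_contra hne; simp [hne] at hk
      subst hk'
      have : ch = fun _ => regTree k n := by
        funext c
        refine gwWeight_dirac k n (ch c) fun hc => hch ⟨c, Finset.mem_univ c, hc⟩
      subst this
      rfl

theorem gwWeight_dirac_self (d : ℕ) : ∀ n, gwWeight (dirac d) n (regTree d n) = 1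
  | 0 => rfl
  | n + 1 => by simp [gwWeight, regTree, dirac, gwWeight_dirac_self d n]

theorem aGW_dirac (q d : ℕ) (lam : ℝ) (n : ℕ) : aGW q (dirac d) lam n = aReg q d lam n := by
  unfold aGW
  rw [tsum_eq_single (regTree d n)]
  · simp [gwWeight_dirac_self, aReg]
  · intro t ht
    by_contra h
    exact ht (gwWeight_dirac d n t (left_ne_zero_of_mul h))

theorem tsum_poisWeight {d : ℝ} (hd : 0 ≤ d) : ∑' k, ENNReal.ofReal (poisWeight d k) = 1 := by
  have h : HasSum (fun k => poisWeight d k) 1 := by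
    have := (NormedSpace.expSeries_div_hasSum_exp d).mul_left (Real.exp (-d))
    rw [← Real.exp_eq_exp_ℝ, ← Real.exp_add, neg_add_cancel, Real.exp_zero] at this
    have e : (fun k => poisWeight d k) = fun k => Real.exp (-d) * (d ^ k / k.factorial) := by
      funext k; unfold poisWeight; ring
    rw [e]; exact this
  rw [← ENNReal.ofReal_tsum_of_nonneg (poisWeight_nonneg hd) h.summable, h.tsum_eq,
    ENNReal.ofReal_one]

theorem tsum_poisWeight_mul {d : ℝ} (hd : 0 ≤ d) :
    ∑' k, ENNReal.ofReal (poisWeight d k) * k = ENNReal.ofReal d := by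
  rw [tsum_eq_zero_add' ENNReal.summable]
  simp only [Nat.cast_zero, mul_zero, zero_add]
  have e : ∀ k : ℕ, ENNReal.ofReal (poisWeight d (k + 1)) * ((k + 1 : ℕ) : ℝ≥0∞)
      = ENNReal.ofReal d * ENNReal.ofReal (poisWeight d k) := by
    intro k
    rw [← ENNReal.ofReal_natCast, ← ENNReal.ofReal_mul (poisWeight_nonneg hd _),
      ← ENNReal.ofReal_mul hd]
    congr 1
    simp only [poisWeight, Nat.factorial_succ, pow_succ]
    push_cast
    field_simp
  simp only [e, ENNReal.tsum_mul_left, tsum_poisWeight hd, mul_one]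

end Vale.P154
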