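import Vale.Agent.P154.GW

/-!
# Monotonicity of reconstruction in the channel and in the offspring law

An experiment `L` is a garbling of `L'` when it is obtained from `L'` through a stochastic kernel
that does not look at the root. Garbling decreases `a_n`. Moving the eigenvalue towards `0` and
deleting children are garblings; so `a_n` is monotone in `|lam|` for each sign of `lam` and in the
offspring law for stochastic domination.
-/

noncomputable section

namespace Vale.P154

open Finset Filter Topology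
open scoped ENNReal

variable {q : ℕ}

/-- The total deviation of a likelihood vector from a constant one. -/
def phi (l : Fin q → ℝ) : ℝ := ∑ i, |l i - (∑ j, l j) / q|

/-- `L` is obtained from `L'` by a stochastic kernel. -/
def Garb {S S' : Type} [Fintype S] [Fintype S'] (L : S → Fin q → ℝ) (L' : S' → Fin q → ℝ) : Prop :=
  ∃ K : S' → S → ℝ, (∀ s' s, 0 ≤ K s' s) ∧ (∀ s', ∑ s, K s' s = 1) ∧
    ∀ s i, L s i = ∑ s', K s' s * L' s' i

namespace Garb

variable {S S' S'' : Type} [Fintype S] [Fintype S'] [Fintype S'']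

theorem refl (L : S → Fin q → ℝ) : Garb L L := by
  classical
  exact ⟨fun s' s => if s' = s then 1 else 0, fun _ _ => by dsimp only; split_ifs <;> norm_num,
    fun s' => by simp, fun s i => by simp⟩

theorem trans {L : S → Fin q → ℝ} {L' : S' → Fin q → ℝ} {L'' : S'' → Fin q → ℝ}
    (h : Garb L L') (h' : Garb L' L'') : Garb L L'' := by
  obtain ⟨K, hK0, hK1, hK⟩ := h
  obtain ⟨K', hK0', hK1', hK'⟩ := h'
  refine ⟨fun s'' s => ∑ s', K' s'' s' * K s' s,
    fun s'' s => Finset.sum_nonneg fun s' _ => mul_nonneg (hK0' _ _) (hK0 _ _), fun s'' => ?_,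
    fun s i => ?_⟩
  · rw [Finset.sum_comm]
    simp [← Finset.mul_sum, hK1, hK1']
  · simp only [hK, hK', Finset.mul_sum, Finset.sum_mul]
    rw [Finset.sum_comm]
    exact Finset.sum_congr rfl fun s'' _ => Finset.sum_congr rfl fun s' _ => by ring

/-- A channel applied to the root side preserves garbling. -/
theorem channel {L : S → Fin q → ℝ} {L' : S' → Fin q → ℝ} (h : Garb L L')
    (P : Fin q → Fin q → ℝ) :
    Garb (fun s i => ∑ j, P i j * L s j) (fun s i => ∑ j, P i j * L' s j) := by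
  obtain ⟨K, hK0, hK1, hK⟩ := h
  refine ⟨K, hK0, hK1, fun s i => ?_⟩
  simp only [hK, Finset.mul_sum]
  rw [Finset.sum_comm]
  exact Finset.sum_congr rfl fun s' _ => Finset.sum_congr rfl fun j _ => by ring

/-- Garblings of conditionally independent observations combine. -/
theorem pi {ι : Type} [Fintype ι] [DecidableEq ι] {A B : ι → Type} [∀ c, Fintype (A c)]
    [∀ c, Fintype (B c)] {L : ∀ c, A c → Fin q → ℝ} {L' : ∀ c, B c → Fin q → ℝ}
    (h : ∀ c, Garb (L c) (L' c)) :
    Garb (fun (s : ∀ c, A c) i => ∏ c, L c (s c) i) (fun (s : ∀ c, B c) i => ∏ c, L' c (s c) i) := by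
  choose K hK0 hK1 hK using h
  refine ⟨fun s' s => ∏ c, K c (s' c) (s c), fun s' s => Finset.prod_nonneg fun c _ => hK0 c _ _,
    fun s' => ?_, fun s i => ?_⟩
  · rw [← Fintype.prod_sum (fun c x => K c (s' c) x)]
    simp [hK1]
  · simp only [hK, ← Finset.prod_mul_distrib]
    rw [Fintype.prod_sum (fun c x => K c x (s c) * L' c x i)]

theorem sum_phi_le {L : S → Fin q → ℝ} {L' : S' → Fin q → ℝ} (h : Garb L L') :
    ∑ s, phi (L s) ≤ ∑ s, phi (L' s) := by
  obtain ⟨K, hK0, hK1, hK⟩ := h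
  calc ∑ s, phi (L s) ≤ ∑ s, ∑ s', K s' s * phi (L' s') := by
        refine Finset.sum_le_sum fun s _ => ?_
        unfold phi
        simp only [Finset.mul_sum]
        rw [Finset.sum_comm (s := (univ : Finset S'))]
        refine Finset.sum_le_sum fun i _ => ?_
        have e : L s i - (∑ j, L s j) / q
            = ∑ s', K s' s * (L' s' i - (∑ j, L' s' j) / q) := by
          simp only [hK, mul_sub, Finset.sum_sub_distrib, Finset.sum_div, Finset.mul_sum]
          congr 1
          rw [Finset.sum_comm]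
          exact Finset.sum_congr rfl fun s' _ => Finset.sum_congr rfl fun j _ => by ring
        rw [e]
        refine (Finset.abs_sum_le_sum_abs _ _).trans (le_of_eq ?_)
        exact Finset.sum_congr rfl fun s' _ => by rw [abs_mul, abs_of_nonneg (hK0 _ _)]
    _ = ∑ s', phi (L' s') := by
        rw [Finset.sum_comm]
        simp [← Finset.sum_mul, hK1]

/-- Averaging over the rotations of the colours is a garbling. -/
theorem smooth [NeZero q] {M : S → Fin q → ℝ} (σ : Equiv.Perm (Fin q) → S ≃ S)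
    (hσ : ∀ π s i, M (σ π s) (π i) = M s i) {r : ℝ} (hr0 : 0 ≤ r) (hr1 : r ≤ 1) :
    Garb (fun s i => r * M s i + (1 - r) * ((∑ j, M s j) / q)) M := by
  classical
  have hq : (q : ℝ) ≠ 0 := by exact_mod_cast NeZero.ne q
  refine ⟨fun s' s => r * (if s' = s then 1 else 0) +
    (1 - r) / q * ∑ k : Fin q, (if σ (Equiv.addRight k) s' = s then 1 else 0),
    fun s' s => add_nonneg (mul_nonneg hr0 (by split_ifs <;> norm_num))
      (mul_nonneg (div_nonneg (by linarith) (Nat.cast_nonneg q))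
        (Finset.sum_nonneg fun k _ => by split_ifs <;> norm_num)), fun s' => ?_, fun s i => ?_⟩
  · rw [Finset.sum_add_distrib, ← Finset.mul_sum, ← Finset.mul_sum, Finset.sum_comm]
    simp
  · have key : ∀ k : Fin q, ∑ s', (if σ (Equiv.addRight k) s' = s then (1 : ℝ) else 0) * M s' i
        = M s (i + k) := by
      intro k
      rw [Finset.sum_eq_single ((σ (Equiv.addRight k)).symm s)]
      · rw [if_pos (Equiv.apply_symm_apply _ _), one_mul]
        have := hσ (Equiv.addRight k) ((σ (Equiv.addRight k)).symm s) i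
        rw [Equiv.apply_symm_apply] at this
        exact this.symm
      · intro b _ hb
        rw [if_neg, zero_mul]
        intro hh
        exact hb (by rw [← hh, Equiv.symm_apply_apply])
      · simp
    have e : ∑ k : Fin q, M s (i + k) = ∑ j, M s j := Equiv.sum_comp (Equiv.addLeft i) (M s)
    simp only [add_mul, Finset.sum_add_distrib, mul_assoc, ← Finset.mul_sum]
    congr 1
    · simp
    · simp only [Finset.sum_mul]
      rw [Finset.sum_comm]
      simp only [key, e]
      ring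

end Garb

/-- The likelihood of an observed subtree as a function of the parent's colour. -/
def up (lam : ℝ) (n : ℕ) (t : PTree n) (s : Cfg q n t) (i : Fin q) : ℝ :=
  ∑ j, potts q lam i j * lik lam n t s j

/-- The tree whose root has the given children. -/
def node {n k : ℕ} (ch : Fin k → PTree n) : PTree (n + 1) := ⟨k, ch⟩

/-- The order of trees by garbling. -/
def GarbT (q : ℕ) (lam : ℝ) {n : ℕ} (t t' : PTree n) : Prop :=
  Garb (lik (q := q) lam n t) (lik lam n t')

theorem GarbT.refl (lam : ℝ) {n : ℕ} (t : PTree n) : GarbT q lam t t := Garb.refl _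

/-- The node congruence. -/
theorem garb_node {lam lam' : ℝ} {n k : ℕ} {ch ch' : Fin k → PTree n}
    (h : ∀ c, Garb (up (q := q) lam n (ch c)) (up lam' n (ch' c))) :
    Garb (lik (q := q) lam (n + 1) (node ch)) (lik lam' (n + 1) (node ch')) :=
  Garb.pi h

/-- Forgetting the first child is a garbling. -/
theorem garb_tail [NeZero q] (lam : ℝ) {n k : ℕ} (ch : Fin (k + 1) → PTree n) :
    Garb (lik (q := q) lam (n + 1) (node fun c => ch c.succ)) (lik lam (n + 1) (node ch)) := by
  classical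
  show Garb (fun (s : (c : Fin k) → Cfg q n (ch c.succ)) i => ∏ c, up lam n (ch c.succ) (s c) i)
    (fun (s : (c : Fin (k + 1)) → Cfg q n (ch c)) i => ∏ c, up lam n (ch c) (s c) i)
  refine ⟨fun s' s => if Fin.tail s' = s then 1 else 0, fun _ _ => by dsimp only; split_ifs <;> norm_num,
    fun s' => by simp, fun s i => ?_⟩
  rw [← Equiv.sum_comp (Fin.consEquiv fun c => Cfg q n (ch c)), Fintype.sum_prod_type]
  have ht : ∀ x r, Fin.tail ((Fin.consEquiv fun c => Cfg q n (ch c)) (x, r)) = r :=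
    fun x r => Fin.tail_cons (α := fun c => Cfg q n (ch c)) x r
  simp only [ht, Fin.consEquiv_apply, Fin.prod_univ_succ, Fin.cons_zero, Fin.cons_succ,
    ite_mul, one_mul, zero_mul, Finset.sum_ite_eq', Finset.mem_univ, if_true]
  rw [← Finset.sum_mul]
  have : ∑ x, up lam n (ch 0) x i = 1 := by
    unfold up
    rw [Finset.sum_comm]
    simp [← Finset.mul_sum, sum_lik, sum_potts]
  rw [this, one_mul]

/-- Moving the eigenvalue towards zero is a garbling. -/
theorem garb_scale [NeZero q] (lam : ℝ) {r : ℝ} (hr0 : 0 ≤ r) (hr1 : r ≤ 1) :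
    ∀ (n : ℕ) (t : PTree n), Garb (lik (q := q) (r * lam) n t) (lik lam n t)
  | 0, t => Garb.refl (lik (q := q) lam 0 t)
  | n + 1, ⟨k, ch⟩ => by
      refine garb_node fun c => ?_
      refine ((garb_scale lam hr0 hr1 n (ch c)).channel (potts q (r * lam))).trans ?_
      have h := Garb.smooth (M := up (q := q) lam n (ch c)) (fun π => permCfg π n (ch c))
        (fun π s i => by
          unfold up
          rw [← Equiv.sum_comp π]
          exact Finset.sum_congr rfl fun j _ => by rw [potts_perm, lik_perm]) hr0 hr1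
      convert h using 1
      funext s i
      have hm : (∑ i, up lam n (ch c) s i) = ∑ j, lik lam n (ch c) s j := by
        have hq : (q : ℝ) ≠ 0 := by exact_mod_cast NeZero.ne q
        simp only [up, potts_mul, Finset.sum_add_distrib, ← Finset.mul_sum, Finset.sum_const,
          Finset.card_univ, Fintype.card_fin, nsmul_eq_mul]
        field_simp
        ring
      rw [hm]
      simp only [up, potts_mul]
      ring

theorem aTree_eq_phi (hq : 2 ≤ q) {lam : ℝ} (h0 : -1 / ((q : ℝ) - 1) ≤ lam) (h1 : lam ≤ 1)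
    (n : ℕ) (t : PTree n) : aTree q lam n t = (∑ s, phi (lik (q := q) lam n t s)) / (2 * q) := by
  rw [aTree, Finset.sum_div]
  refine Finset.sum_congr rfl fun s _ => ?_
  set l := lik lam n t s
  have hl : ∀ i, 0 ≤ l i := fun i => lik_nonneg hq h0 h1 n t s i
  have hq0 : (0 : ℝ) < q := by exact_mod_cast (by omega : 0 < q)
  rcases (Finset.sum_nonneg fun i (_ : i ∈ univ) => hl i).eq_or_lt with h | h
  · have hz : ∀ i, l i = 0 := fun i =>
      (Finset.sum_eq_zero_iff_of_nonneg fun i _ => hl i).1 h.symm i (Finset.mem_univ i)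
    simp [phi, hz]
  · unfold phi
    simp only [Finset.mul_sum, Finset.sum_div _ _ (2 * (q : ℝ))]
    refine Finset.sum_congr rfl fun i _ => ?_
    have e : l i - (∑ j, l j) / q = (∑ j, l j) * (l i / (∑ j, l j) - 1 / q) := by
      rw [mul_sub, mul_div_cancel₀ _ h.ne', mul_one_div]
    rw [e, abs_mul, abs_of_pos h]
    ring

theorem aTree_le_of_garb (hq : 2 ≤ q) {lam lam' : ℝ} (h0 : -1 / ((q : ℝ) - 1) ≤ lam)
    (h1 : lam ≤ 1) (h0' : -1 / ((q : ℝ) - 1) ≤ lam') (h1' : lam' ≤ 1) {n : ℕ} {t t' : PTree n}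
    (h : Garb (lik (q := q) lam n t) (lik lam' n t')) : aTree q lam n t ≤ aTree q lam' n t' := by
  rw [aTree_eq_phi hq h0 h1, aTree_eq_phi hq h0' h1']
  exact div_le_div_of_nonneg_right h.sum_phi_le (by positivity)

theorem aTree_le_one (hq : 2 ≤ q) {lam : ℝ} (h0 : -1 / ((q : ℝ) - 1) ≤ lam) (h1 : lam ≤ 1)
    (n : ℕ) (t : PTree n) : aTree q lam n t ≤ 1 := by
  have : NeZero q := ⟨by omega⟩
  have hq0 : (0 : ℝ) < q := by exact_mod_cast (by omega : 0 < q)
  rw [aTree_eq_phi hq h0 h1, div_le_one (by positivity)]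
  have hb : ∀ s, phi (lik (q := q) lam n t s) ≤ 2 * ∑ i, lik lam n t s i := by
    intro s
    have hl : ∀ i, 0 ≤ lik lam n t s i := fun i => lik_nonneg hq h0 h1 n t s i
    calc phi (lik (q := q) lam n t s) ≤ ∑ i, (lik lam n t s i + (∑ j, lik lam n t s j) / q) :=
          Finset.sum_le_sum fun i _ => (abs_sub _ _).trans (le_of_eq (by
            rw [abs_of_nonneg (hl i), abs_of_nonneg
              (div_nonneg (Finset.sum_nonneg fun j _ => hl j) hq0.le)]))
      _ = _ := by
          rw [Finset.sum_add_distrib, Finset.sum_const, Finset.card_univ, Fintype.card_fin,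
            nsmul_eq_mul, mul_div_cancel₀ _ hq0.ne']
          ring
  refine (Finset.sum_le_sum fun s _ => hb s).trans (le_of_eq ?_)
  rw [← Finset.mul_sum, Finset.sum_comm]
  simp [sum_lik]

/-- Stochastic domination of offspring laws. -/
def Dom (p p' : ℕ → ℝ) : Prop :=
  ∀ u : ℕ → ℝ≥0∞, Monotone u →
    ∑' k, ENNReal.ofReal (p k) * u k ≤ ∑' k, ENNReal.ofReal (p' k) * u k

theorem Dom.refl (p : ℕ → ℝ) : Dom p p := fun _ _ => le_rfl

theorem dom_dirac {d d' : ℕ} (h : d ≤ d') : Dom (dirac d) (dirac d') := by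
  intro u hu
  rw [tsum_eq_single d fun b hb => by simp [dirac, hb],
    tsum_eq_single d' fun b hb => by simp [dirac, hb]]
  simpa [dirac] using hu h

theorem poisWeight_add (d e : ℝ) (m : ℕ) :
    poisWeight (d + e) m = ∑ x ∈ Finset.HasAntidiagonal.antidiagonal m,
      poisWeight d x.1 * poisWeight e x.2 := by
  rw [Finset.Nat.sum_antidiagonal_eq_sum_range_succ (fun i j => poisWeight d i * poisWeight e j)]
  unfold poisWeight
  rw [add_pow, Finset.mul_sum, Finset.sum_div]
  refine Finset.sum_congr rfl fun k hk => ?_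
  rw [Nat.cast_choose ℝ (Nat.le_of_lt_succ (Finset.mem_range.1 hk)),
    show -(d + e) = -d + -e by ring, Real.exp_add]
  have : (m.factorial : ℝ) ≠ 0 := by exact_mod_cast m.factorial_ne_zero
  field_simp

theorem dom_poisWeight {d d' : ℝ} (hd : 0 ≤ d) (h : d ≤ d') :
    Dom (poisWeight d) (poisWeight d') := by
  intro u hu
  obtain ⟨e, he, rfl⟩ : ∃ e, 0 ≤ e ∧ d' = d + e := ⟨d' - d, by linarith, by ring⟩
  let g : ℕ × ℕ → ℝ≥0∞ := fun x =>
    ENNReal.ofReal (poisWeight d x.1) * ENNReal.ofReal (poisWeight e x.2) * u (x.1 + x.2)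
  have hr : ∑' k, ENNReal.ofReal (poisWeight (d + e) k) * u k = ∑' x, g x := by
    rw [← (Finset.HasAntidiagonal.sigmaAntidiagonalEquivProd (A := ℕ)).tsum_eq g, ENNReal.tsum_sigma']
    refine tsum_congr fun m => ?_
    rw [poisWeight_add, ENNReal.ofReal_sum_of_nonneg fun x _ =>
      mul_nonneg (poisWeight_nonneg hd _) (poisWeight_nonneg he _), Finset.sum_mul]
    refine Eq.trans ?_ (Finset.tsum_subtype _ g).symm
    refine Finset.sum_congr rfl fun x hx => ?_
    rw [ENNReal.ofReal_mul (poisWeight_nonneg hd _)]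
    simp [g, Finset.HasAntidiagonal.mem_antidiagonal.1 hx]
  rw [hr, ENNReal.tsum_prod']
  refine ENNReal.tsum_le_tsum fun k => ?_
  calc ENNReal.ofReal (poisWeight d k) * u k
      = ∑' j, ENNReal.ofReal (poisWeight d k) * ENNReal.ofReal (poisWeight e j) * u k := by
        rw [ENNReal.tsum_mul_right, ENNReal.tsum_mul_left, tsum_poisWeight he, mul_one]
    _ ≤ _ := ENNReal.tsum_le_tsum fun j => mul_le_mul_right (hu (Nat.le_add_right k j)) _

/-- Expectation over `k` independent trees. -/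
def piE (p : ℕ → ℝ) (n k : ℕ) (G : (Fin k → PTree n) → ℝ≥0∞) : ℝ≥0∞ :=
  ∑' ch : Fin k → PTree n, (∏ c, ENNReal.ofReal (gwWeight p n (ch c))) * G ch

theorem piE_succ (p : ℕ → ℝ) (n k : ℕ) (G : (Fin (k + 1) → PTree n) → ℝ≥0∞) :
    piE p n (k + 1) G = gwE p n fun x => piE p n k fun ch => G (Fin.cons x ch) := by
  unfold piE gwE
  rw [← (Fin.consEquiv fun _ => PTree n).tsum_eq, ENNReal.tsum_prod']
  refine tsum_congr fun x => ?_
  rw [← ENNReal.tsum_mul_left]
  refine tsum_congr fun ch => ?_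
  simp [Fin.prod_univ_succ, mul_assoc, Fin.consEquiv]

/-- Monotonicity in the offspring law, for functionals monotone under garbling. -/
theorem gwE_mono_law [NeZero q] (lam : ℝ) {p p' : ℕ → ℝ} (hp : ∀ k, 0 ≤ p k)
    (hp' : ∀ k, 0 ≤ p' k) (hp'1 : ∑' k, ENNReal.ofReal (p' k) = 1) (hdom : Dom p p') :
    ∀ (n : ℕ) (F : PTree n → ℝ≥0∞),
      (∀ t t', GarbT q lam t t' → F t ≤ F t') →
      gwE p n F ≤ gwE p' n F
  | 0, F, _ => le_rfl
  | n + 1, F, hF => by
      have hpi : ∀ (k : ℕ) (G : (Fin k → PTree n) → ℝ≥0∞),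
          (∀ ch ch', (∀ c, GarbT q lam (ch c) (ch' c)) → G ch ≤ G ch') →
          piE p n k G ≤ piE p' n k G := by
        intro k
        induction k with
        | zero => intro G _; simp [piE]
        | succ k ih =>
          intro G hG
          rw [piE_succ, piE_succ]
          refine le_trans (ENNReal.tsum_le_tsum fun x => mul_le_mul_right (ih _ fun ch ch' h =>
            hG _ _ fun c => ?_) _) (gwE_mono_law lam hp hp' hp'1 hdom n _ fun x x' hx =>
              ENNReal.tsum_le_tsum fun ch => mul_le_mul_right (hG _ _ fun c => ?_) _)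
          · refine Fin.cases ?_ (fun c => ?_) c
            · simpa using GarbT.refl lam x
            · simpa using h c
          · refine Fin.cases ?_ (fun c => ?_) c
            · simpa using hx
            · simpa using GarbT.refl lam (ch c)
      rw [gwE_succ hp, gwE_succ hp']
      refine le_trans (ENNReal.tsum_le_tsum fun k => mul_le_mul_right
        (hpi k (fun ch => F ⟨k, ch⟩) fun ch ch' h => hF _ _
          (garb_node fun c => (h c).channel (potts q lam))) _) ?_
      refine hdom (fun k => piE p' n k fun ch => F ⟨k, ch⟩) (monotone_nat_of_le_succ fun k => ?_)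
      rw [piE_succ]
      refine le_trans (le_of_eq ?_) (ENNReal.tsum_le_tsum fun x => mul_le_mul_right
        (ENNReal.tsum_le_tsum fun ch => mul_le_mul_right (hF ⟨k, ch⟩ _ ?_) _) _)
      · have h1 := gwE_one hp' hp'1 n
        simp only [gwE, mul_one] at h1
        rw [ENNReal.tsum_mul_right, h1, one_mul]
        rfl
      · have h : GarbT q lam (node fun c => (Fin.cons x ch : Fin (k + 1) → PTree n) c.succ)
            (node (Fin.cons x ch)) := garb_tail lam _
        simp only [Fin.cons_succ] at h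
        exact h

theorem aGW_eq_toReal (hq : 2 ≤ q) {lam : ℝ} (h0 : -1 / ((q : ℝ) - 1) ≤ lam) (h1 : lam ≤ 1)
    {p : ℕ → ℝ} (hp : ∀ k, 0 ≤ p k) (n : ℕ) :
    aGW q p lam n = (gwE p n fun t => ENNReal.ofReal (aTree q lam n t)).toReal := by
  have hne : ∀ t, ENNReal.ofReal (gwWeight p n t) * ENNReal.ofReal (aTree q lam n t) ≠ ∞ :=
    fun t => ENNReal.mul_ne_top ENNReal.ofReal_ne_top ENNReal.ofReal_ne_top
  simp only [gwE, ENNReal.tsum_toReal_eq hne, aGW, ENNReal.toReal_mul,
    ENNReal.toReal_ofReal (gwWeight_nonneg hp n _), ENNReal.toReal_ofReal (aTree_nonneg hq h0 h1 n _)]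

theorem scale_admissible (hq : 2 ≤ q) {lam r : ℝ} (h0 : -1 / ((q : ℝ) - 1) ≤ lam) (h1 : lam ≤ 1)
    (hr0 : 0 ≤ r) (hr1 : r ≤ 1) : -1 / ((q : ℝ) - 1) ≤ r * lam ∧ r * lam ≤ 1 := by
  have hq' : (2 : ℝ) ≤ q := by exact_mod_cast hq
  have hneg : -1 / ((q : ℝ) - 1) ≤ 0 := div_nonpos_of_nonpos_of_nonneg (by norm_num) (by linarith)
  constructor <;> nlinarith

/-- `a_n` is monotone in the channel and in the offspring law. -/
theorem aGW_mono (hq : 2 ≤ q) {lam r : ℝ} (h0 : -1 / ((q : ℝ) - 1) ≤ lam) (h1 : lam ≤ 1)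
    (hr0 : 0 ≤ r) (hr1 : r ≤ 1) {p p' : ℕ → ℝ} (hp : ∀ k, 0 ≤ p k) (hp' : ∀ k, 0 ≤ p' k)
    (hp'1 : ∑' k, ENNReal.ofReal (p' k) = 1) (hdom : Dom p p') (n : ℕ) :
    aGW q p (r * lam) n ≤ aGW q p' lam n := by
  have : NeZero q := ⟨by omega⟩
  obtain ⟨g0, g1⟩ := scale_admissible hq h0 h1 hr0 hr1
  rw [aGW_eq_toReal hq g0 g1 hp, aGW_eq_toReal hq h0 h1 hp']
  refine ENNReal.toReal_mono (ne_top_of_le_ne_top ENNReal.one_ne_top ?_) ?_
  · refine le_trans (ENNReal.tsum_le_tsum fun t => mul_le_mul_right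
      (ENNReal.ofReal_le_one.2 (aTree_le_one hq h0 h1 n t)) _) (le_of_eq (gwE_one hp' hp'1 n))
  · refine le_trans (ENNReal.tsum_le_tsum fun t => mul_le_mul_right
      (ENNReal.ofReal_le_ofReal (aTree_le_of_garb hq g0 g1 h0 h1 (garb_scale lam hr0 hr1 n t))) _)
      (gwE_mono_law (q := q) lam hp hp' hp'1 hdom n _ fun t t' h =>
        ENNReal.ofReal_le_ofReal (aTree_le_of_garb hq h0 h1 h0 h1 h))

theorem aGW_nonneg (hq : 2 ≤ q) {lam : ℝ} (h0 : -1 / ((q : ℝ) - 1) ≤ lam) (h1 : lam ≤ 1)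
    {p : ℕ → ℝ} (hp : ∀ k, 0 ≤ p k) (n : ℕ) : 0 ≤ aGW q p lam n := by
  rw [aGW_eq_toReal hq h0 h1 hp]; exact ENNReal.toReal_nonneg

/-- Nonreconstruction is inherited by channels closer to zero and by smaller offspring laws. -/
theorem aGW_tendsto_zero_mono (hq : 2 ≤ q) {lam r : ℝ} (h0 : -1 / ((q : ℝ) - 1) ≤ lam)
    (h1 : lam ≤ 1) (hr0 : 0 ≤ r) (hr1 : r ≤ 1) {p p' : ℕ → ℝ} (hp : ∀ k, 0 ≤ p k)
    (hp' : ∀ k, 0 ≤ p' k) (hp'1 : ∑' k, ENNReal.ofReal (p' k) = 1) (hdom : Dom p p')
    (h : Tendsto (fun n => aGW q p' lam n) atTop (𝓝 0)) :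
    Tendsto (fun n => aGW q p (r * lam) n) atTop (𝓝 0) := by
  obtain ⟨g0, g1⟩ := scale_admissible hq h0 h1 hr0 hr1
  exact squeeze_zero (fun n => aGW_nonneg hq g0 g1 hp n)
    (fun n => aGW_mono hq h0 h1 hr0 hr1 hp hp' hp'1 hdom n) h

theorem dirac_nonneg (d k : ℕ) : 0 ≤ dirac d k := by unfold dirac; split_ifs <;> norm_num

theorem tsum_dirac_one (d : ℕ) : ∑' k, ENNReal.ofReal (dirac d k) = 1 := by
  rw [tsum_eq_single d fun b hb => by simp [dirac, hb]]; simp [dirac]

/-- Regular trees: nonreconstruction at `(d', lam)` implies it at `(d, r * lam)` for `d ≤ d'`. -/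
theorem aReg_tendsto_zero_mono (hq : 2 ≤ q) {lam r : ℝ} (h0 : -1 / ((q : ℝ) - 1) ≤ lam)
    (h1 : lam ≤ 1) (hr0 : 0 ≤ r) (hr1 : r ≤ 1) {d d' : ℕ} (hd : d ≤ d')
    (h : Tendsto (fun n => aReg q d' lam n) atTop (𝓝 0)) :
    Tendsto (fun n => aReg q d (r * lam) n) atTop (𝓝 0) := by
  simp only [← aGW_dirac] at h ⊢
  exact aGW_tendsto_zero_mono hq h0 h1 hr0 hr1 (dirac_nonneg d) (dirac_nonneg d') (tsum_dirac_one d')
    (dom_dirac hd) h

/-- Poisson trees: nonreconstruction at `(d', lam)` implies it at `(d, r * lam)` for `d ≤ d'`. -/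
theorem aPois_tendsto_zero_mono (hq : 2 ≤ q) {lam r : ℝ} (h0 : -1 / ((q : ℝ) - 1) ≤ lam)
    (h1 : lam ≤ 1) (hr0 : 0 ≤ r) (hr1 : r ≤ 1) {d d' : ℝ} (hd0 : 0 ≤ d) (hd : d ≤ d')
    (h : Tendsto (fun n => aGW q (poisWeight d') lam n) atTop (𝓝 0)) :
    Tendsto (fun n => aGW q (poisWeight d) (r * lam) n) atTop (𝓝 0) :=
  aGW_tendsto_zero_mono hq h0 h1 hr0 hr1 (poisWeight_nonneg hd0)
    (poisWeight_nonneg (hd0.trans hd)) (tsum_poisWeight (hd0.trans hd)) (dom_poisWeight hd0 hd) h

/-- The critical channel `-1 / √d` controls the antiferromagnetic channels with `d * lam² ≤ 1`. -/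
theorem neg_scale_critical {lam c : ℝ} (hc : 0 < c) (hlam : lam ≤ 0) (h : -c ≤ lam) :
    ∃ r, 0 ≤ r ∧ r ≤ 1 ∧ lam = r * (-c) :=
  ⟨-lam / c, div_nonneg (by linarith) hc.le, (div_le_one hc).2 (by linarith), by field_simp⟩

end Vale.P154
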