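import Vale.Agent.P154.Q3Poly

/-! Generated Bernstein-positivity certificates. -/

namespace Vale.P154.Q3

set_option maxHeartbeats 2000000 in
theorem certB_hh (u v : ℝ) (hu : 0 ≤ u) (hu' : u ≤ 1) (hv : 0 ≤ v) (hv' : v ≤ 1) :
    0 ≤ Bb u v (u ^ (3 : ℕ)) (v ^ (3 : ℕ)) := by
  obtain ⟨a, ha, rfl⟩ : ∃ a, 0 ≤ a ∧ u = 1 - a := ⟨1 - u, by linarith, by ring⟩
  obtain ⟨b, hb, rfl⟩ : ∃ b, 0 ≤ b ∧ v = 1 - b := ⟨1 - v, by linarith, by ring⟩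
  have key : Bb (1 - a) (1 - b) ((1 - a) ^ (3 : ℕ)) ((1 - b) ^ (3 : ℕ)) =
      (1 - a) ^ (0 : ℕ) * a ^ (1 : ℕ) * ((1 - b) ^ (0 : ℕ) * b ^ (1 : ℕ)) * ((1 - a) ^ (0 : ℕ) * a ^ (5 : ℕ) * (2 * b ^ (5 : ℕ)
        + 12 * (1 - b) * b ^ (4 : ℕ)
        + 26 * (1 - b) ^ (2 : ℕ) * b ^ (3 : ℕ)
        + 24 * (1 - b) ^ (3 : ℕ) * b ^ (2 : ℕ)
        + 8 * (1 - b) ^ (4 : ℕ) * b)
      + (1 - a) ^ (1 : ℕ) * a ^ (4 : ℕ) * (12 * b ^ (5 : ℕ)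
        + 72 * (1 - b) * b ^ (4 : ℕ)
        + 156 * (1 - b) ^ (2 : ℕ) * b ^ (3 : ℕ)
        + 144 * (1 - b) ^ (3 : ℕ) * b ^ (2 : ℕ)
        + 48 * (1 - b) ^ (4 : ℕ) * b)
      + (1 - a) ^ (2 : ℕ) * a ^ (3 : ℕ) * (26 * b ^ (5 : ℕ)
        + 156 * (1 - b) * b ^ (4 : ℕ)
        + 340 * (1 - b) ^ (2 : ℕ) * b ^ (3 : ℕ)
        + 320 * (1 - b) ^ (3 : ℕ) * b ^ (2 : ℕ)
        + 114 * (1 - b) ^ (4 : ℕ) * b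
        + 4 * (1 - b) ^ (5 : ℕ))
      + (1 - a) ^ (3 : ℕ) * a ^ (2 : ℕ) * (24 * b ^ (5 : ℕ)
        + 144 * (1 - b) * b ^ (4 : ℕ)
        + 320 * (1 - b) ^ (2 : ℕ) * b ^ (3 : ℕ)
        + 320 * (1 - b) ^ (3 : ℕ) * b ^ (2 : ℕ)
        + 135 * (1 - b) ^ (4 : ℕ) * b
        + 14 * (1 - b) ^ (5 : ℕ))
      + (1 - a) ^ (4 : ℕ) * a ^ (1 : ℕ) * (8 * b ^ (5 : ℕ)
        + 48 * (1 - b) * b ^ (4 : ℕ)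
        + 114 * (1 - b) ^ (2 : ℕ) * b ^ (3 : ℕ)
        + 135 * (1 - b) ^ (3 : ℕ) * b ^ (2 : ℕ)
        + 78 * (1 - b) ^ (4 : ℕ) * b
        + 15 * (1 - b) ^ (5 : ℕ))
      + (1 - a) ^ (5 : ℕ) * a ^ (0 : ℕ) * (4 * (1 - b) ^ (2 : ℕ) * b ^ (3 : ℕ)
        + 14 * (1 - b) ^ (3 : ℕ) * b ^ (2 : ℕ)
        + 15 * (1 - b) ^ (4 : ℕ) * b
        + 4 * (1 - b) ^ (5 : ℕ))) := by
    unfold Bb; ring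
  rw [key]
  generalize 1 - a = c at hu ⊢
  generalize 1 - b = e at hv ⊢
  positivity

set_option maxHeartbeats 2000000 in
theorem certB_hn (u v : ℝ) (hu : 0 ≤ u) (hu' : u ≤ 1) (hv : 0 ≤ v) (hv' : v ≤ 1) :
    0 ≤ Bb u (v / 2) (u ^ (3 : ℕ)) (-(v / 2) ^ (3 : ℕ)) := by
  obtain ⟨a, ha, rfl⟩ : ∃ a, 0 ≤ a ∧ u = 1 - a := ⟨1 - u, by linarith, by ring⟩
  obtain ⟨b, hb, rfl⟩ : ∃ b, 0 ≤ b ∧ v = 1 - b := ⟨1 - v, by linarith, by ring⟩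
  have key : Bb (1 - a) ((1 - b) / 2) ((1 - a) ^ (3 : ℕ)) (-((1 - b) / 2) ^ (3 : ℕ)) =
      (1 - a) ^ (0 : ℕ) * a ^ (1 : ℕ) * ((1 - b) ^ (0 : ℕ) * b ^ (0 : ℕ)) * ((1 - a) ^ (0 : ℕ) * a ^ (5 : ℕ) * (2 * b ^ (6 : ℕ)
        + 12 * (1 - b) * b ^ (5 : ℕ)
        + 29 * (1 - b) ^ (2 : ℕ) * b ^ (4 : ℕ)
        + 36 * (1 - b) ^ (3 : ℕ) * b ^ (3 : ℕ)
        + (193 / 8) * (1 - b) ^ (4 : ℕ) * b ^ (2 : ℕ)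
        + (33 / 4) * (1 - b) ^ (5 : ℕ) * b
        + (9 / 8) * (1 - b) ^ (6 : ℕ))
      + (1 - a) ^ (1 : ℕ) * a ^ (4 : ℕ) * (12 * b ^ (6 : ℕ)
        + 72 * (1 - b) * b ^ (5 : ℕ)
        + 174 * (1 - b) ^ (2 : ℕ) * b ^ (4 : ℕ)
        + 216 * (1 - b) ^ (3 : ℕ) * b ^ (3 : ℕ)
        + (579 / 4) * (1 - b) ^ (4 : ℕ) * b ^ (2 : ℕ)
        + (99 / 2) * (1 - b) ^ (5 : ℕ) * b
        + (27 / 4) * (1 - b) ^ (6 : ℕ))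
      + (1 - a) ^ (2 : ℕ) * a ^ (3 : ℕ) * (26 * b ^ (6 : ℕ)
        + 156 * (1 - b) * b ^ (5 : ℕ)
        + (755 / 2) * (1 - b) ^ (2 : ℕ) * b ^ (4 : ℕ)
        + 470 * (1 - b) ^ (3 : ℕ) * b ^ (3 : ℕ)
        + (633 / 2) * (1 - b) ^ (4 : ℕ) * b ^ (2 : ℕ)
        + 109 * (1 - b) ^ (5 : ℕ) * b
        + 15 * (1 - b) ^ (6 : ℕ))
      + (1 - a) ^ (3 : ℕ) * a ^ (2 : ℕ) * (24 * b ^ (6 : ℕ)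
        + 144 * (1 - b) * b ^ (5 : ℕ)
        + 350 * (1 - b) ^ (2 : ℕ) * b ^ (4 : ℕ)
        + 440 * (1 - b) ^ (3 : ℕ) * b ^ (3 : ℕ)
        + (4815 / 16) * (1 - b) ^ (4 : ℕ) * b ^ (2 : ℕ)
        + (847 / 8) * (1 - b) ^ (5 : ℕ) * b
        + (957 / 64) * (1 - b) ^ (6 : ℕ))
      + (1 - a) ^ (4 : ℕ) * a ^ (1 : ℕ) * (8 * b ^ (6 : ℕ)
        + 48 * (1 - b) * b ^ (5 : ℕ)
        + (237 / 2) * (1 - b) ^ (2 : ℕ) * b ^ (4 : ℕ)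
        + (1233 / 8) * (1 - b) ^ (3 : ℕ) * b ^ (3 : ℕ)
        + (1779 / 16) * (1 - b) ^ (4 : ℕ) * b ^ (2 : ℕ)
        + 42 * (1 - b) ^ (5 : ℕ) * b
        + (207 / 32) * (1 - b) ^ (6 : ℕ))
      + (1 - a) ^ (5 : ℕ) * a ^ (0 : ℕ) * (1 * (1 - b) ^ (2 : ℕ) * b ^ (4 : ℕ)
        + (17 / 4) * (1 - b) ^ (3 : ℕ) * b ^ (3 : ℕ)
        + (105 / 16) * (1 - b) ^ (4 : ℕ) * b ^ (2 : ℕ)
        + (35 / 8) * (1 - b) ^ (5 : ℕ) * b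
        + (69 / 64) * (1 - b) ^ (6 : ℕ))) := by
    unfold Bb; ring
  rw [key]
  generalize 1 - a = c at hu ⊢
  generalize 1 - b = e at hv ⊢
  positivity

set_option maxHeartbeats 2000000 in
theorem certB_he (u v : ℝ) (hu : 0 ≤ u) (hu' : u ≤ 1) (hv : 0 ≤ v) (hv' : v ≤ 1) :
    0 ≤ Bb u ((1 + v) / 2) (u ^ (3 : ℕ)) ((3 * ((1 + v) / 2) ^ (2 : ℕ) - 1) / 2) := by
  obtain ⟨a, ha, rfl⟩ : ∃ a, 0 ≤ a ∧ u = 1 - a := ⟨1 - u, by linarith, by ring⟩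
  obtain ⟨b, hb, rfl⟩ : ∃ b, 0 ≤ b ∧ v = 1 - b := ⟨1 - v, by linarith, by ring⟩
  have key : Bb (1 - a) ((1 + (1 - b)) / 2) ((1 - a) ^ (3 : ℕ)) ((3 * ((1 + (1 - b)) / 2) ^ (2 : ℕ) - 1) / 2) =
      (1 - a) ^ (0 : ℕ) * a ^ (1 : ℕ) * ((1 - b) ^ (0 : ℕ) * b ^ (1 : ℕ)) * ((1 - a) ^ (0 : ℕ) * a ^ (5 : ℕ) * ((9 / 8) * b ^ (5 : ℕ)
        + (21 / 4) * (1 - b) * b ^ (4 : ℕ)
        + (73 / 8) * (1 - b) ^ (2 : ℕ) * b ^ (3 : ℕ)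
        + 7 * (1 - b) ^ (3 : ℕ) * b ^ (2 : ℕ)
        + 2 * (1 - b) ^ (4 : ℕ) * b)
      + (1 - a) ^ (1 : ℕ) * a ^ (4 : ℕ) * ((27 / 4) * b ^ (5 : ℕ)
        + (63 / 2) * (1 - b) * b ^ (4 : ℕ)
        + (219 / 4) * (1 - b) ^ (2 : ℕ) * b ^ (3 : ℕ)
        + 42 * (1 - b) ^ (3 : ℕ) * b ^ (2 : ℕ)
        + 12 * (1 - b) ^ (4 : ℕ) * b)
      + (1 - a) ^ (2 : ℕ) * a ^ (3 : ℕ) * (15 * b ^ (5 : ℕ)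
        + 71 * (1 - b) * b ^ (4 : ℕ)
        + (253 / 2) * (1 - b) ^ (2 : ℕ) * b ^ (3 : ℕ)
        + 102 * (1 - b) ^ (3 : ℕ) * b ^ (2 : ℕ)
        + (67 / 2) * (1 - b) ^ (4 : ℕ) * b
        + 2 * (1 - b) ^ (5 : ℕ))
      + (1 - a) ^ (3 : ℕ) * a ^ (2 : ℕ) * ((957 / 64) * b ^ (5 : ℕ)
        + (1177 / 16) * (1 - b) * b ^ (4 : ℕ)
        + (1115 / 8) * (1 - b) ^ (2 : ℕ) * b ^ (3 : ℕ)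
        + 125 * (1 - b) ^ (3 : ℕ) * b ^ (2 : ℕ)
        + (205 / 4) * (1 - b) ^ (4 : ℕ) * b
        + 7 * (1 - b) ^ (5 : ℕ))
      + (1 - a) ^ (4 : ℕ) * a ^ (1 : ℕ) * ((207 / 32) * b ^ (5 : ℕ)
        + (69 / 2) * (1 - b) * b ^ (4 : ℕ)
        + (1167 / 16) * (1 - b) ^ (2 : ℕ) * b ^ (3 : ℕ)
        + 76 * (1 - b) ^ (3 : ℕ) * b ^ (2 : ℕ)
        + (309 / 8) * (1 - b) ^ (4 : ℕ) * b
        + (15 / 2) * (1 - b) ^ (5 : ℕ))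
      + (1 - a) ^ (5 : ℕ) * a ^ (0 : ℕ) * ((69 / 64) * b ^ (5 : ℕ)
        + (101 / 16) * (1 - b) * b ^ (4 : ℕ)
        + (59 / 4) * (1 - b) ^ (2 : ℕ) * b ^ (3 : ℕ)
        + 17 * (1 - b) ^ (3 : ℕ) * b ^ (2 : ℕ)
        + (19 / 2) * (1 - b) ^ (4 : ℕ) * b
        + 2 * (1 - b) ^ (5 : ℕ))) := by
    unfold Bb; ring
  rw [key]
  generalize 1 - a = c at hu ⊢
  generalize 1 - b = e at hv ⊢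
  positivity

set_option maxHeartbeats 2000000 in
theorem certB_nn (u v : ℝ) (hu : 0 ≤ u) (hu' : u ≤ 1) (hv : 0 ≤ v) (hv' : v ≤ 1) :
    0 ≤ Bb (u / 2) (v / 2) (-(u / 2) ^ (3 : ℕ)) (-(v / 2) ^ (3 : ℕ)) := by
  obtain ⟨a, ha, rfl⟩ : ∃ a, 0 ≤ a ∧ u = 1 - a := ⟨1 - u, by linarith, by ring⟩
  obtain ⟨b, hb, rfl⟩ : ∃ b, 0 ≤ b ∧ v = 1 - b := ⟨1 - v, by linarith, by ring⟩
  have key : Bb ((1 - a) / 2) ((1 - b) / 2) (-((1 - a) / 2) ^ (3 : ℕ)) (-((1 - b) / 2) ^ (3 : ℕ)) =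
      (1 - a) ^ (0 : ℕ) * a ^ (0 : ℕ) * ((1 - b) ^ (0 : ℕ) * b ^ (0 : ℕ)) * ((1 - a) ^ (0 : ℕ) * a ^ (6 : ℕ) * (2 * b ^ (6 : ℕ)
        + 12 * (1 - b) * b ^ (5 : ℕ)
        + 29 * (1 - b) ^ (2 : ℕ) * b ^ (4 : ℕ)
        + 36 * (1 - b) ^ (3 : ℕ) * b ^ (3 : ℕ)
        + (193 / 8) * (1 - b) ^ (4 : ℕ) * b ^ (2 : ℕ)
        + (33 / 4) * (1 - b) ^ (5 : ℕ) * b
        + (9 / 8) * (1 - b) ^ (6 : ℕ))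
      + (1 - a) ^ (1 : ℕ) * a ^ (5 : ℕ) * (12 * b ^ (6 : ℕ)
        + 72 * (1 - b) * b ^ (5 : ℕ)
        + 174 * (1 - b) ^ (2 : ℕ) * b ^ (4 : ℕ)
        + 216 * (1 - b) ^ (3 : ℕ) * b ^ (3 : ℕ)
        + (579 / 4) * (1 - b) ^ (4 : ℕ) * b ^ (2 : ℕ)
        + (99 / 2) * (1 - b) ^ (5 : ℕ) * b
        + (27 / 4) * (1 - b) ^ (6 : ℕ))
      + (1 - a) ^ (2 : ℕ) * a ^ (4 : ℕ) * (29 * b ^ (6 : ℕ)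
        + 174 * (1 - b) * b ^ (5 : ℕ)
        + (3365 / 8) * (1 - b) ^ (2 : ℕ) * b ^ (4 : ℕ)
        + (1045 / 2) * (1 - b) ^ (3 : ℕ) * b ^ (3 : ℕ)
        + (11217 / 32) * (1 - b) ^ (4 : ℕ) * b ^ (2 : ℕ)
        + (1921 / 16) * (1 - b) ^ (5 : ℕ) * b
        + (525 / 32) * (1 - b) ^ (6 : ℕ))
      + (1 - a) ^ (3 : ℕ) * a ^ (3 : ℕ) * (36 * b ^ (6 : ℕ)
        + 216 * (1 - b) * b ^ (5 : ℕ)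
        + (1045 / 2) * (1 - b) ^ (2 : ℕ) * b ^ (4 : ℕ)
        + 650 * (1 - b) ^ (3 : ℕ) * b ^ (3 : ℕ)
        + (55953 / 128) * (1 - b) ^ (4 : ℕ) * b ^ (2 : ℕ)
        + (9617 / 64) * (1 - b) ^ (5 : ℕ) * b
        + (10563 / 512) * (1 - b) ^ (6 : ℕ))
      + (1 - a) ^ (4 : ℕ) * a ^ (2 : ℕ) * ((193 / 8) * b ^ (6 : ℕ)
        + (579 / 4) * (1 - b) * b ^ (5 : ℕ)
        + (11217 / 32) * (1 - b) ^ (2 : ℕ) * b ^ (4 : ℕ)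
        + (55953 / 128) * (1 - b) ^ (3 : ℕ) * b ^ (3 : ℕ)
        + (37785 / 128) * (1 - b) ^ (4 : ℕ) * b ^ (2 : ℕ)
        + (13071 / 128) * (1 - b) ^ (5 : ℕ) * b
        + (14481 / 1024) * (1 - b) ^ (6 : ℕ))
      + (1 - a) ^ (5 : ℕ) * a ^ (1 : ℕ) * ((33 / 4) * b ^ (6 : ℕ)
        + (99 / 2) * (1 - b) * b ^ (5 : ℕ)
        + (1921 / 16) * (1 - b) ^ (2 : ℕ) * b ^ (4 : ℕ)
        + (9617 / 64) * (1 - b) ^ (3 : ℕ) * b ^ (3 : ℕ)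
        + (13071 / 128) * (1 - b) ^ (4 : ℕ) * b ^ (2 : ℕ)
        + (571 / 16) * (1 - b) ^ (5 : ℕ) * b
        + (321 / 64) * (1 - b) ^ (6 : ℕ))
      + (1 - a) ^ (6 : ℕ) * a ^ (0 : ℕ) * ((9 / 8) * b ^ (6 : ℕ)
        + (27 / 4) * (1 - b) * b ^ (5 : ℕ)
        + (525 / 32) * (1 - b) ^ (2 : ℕ) * b ^ (4 : ℕ)
        + (10563 / 512) * (1 - b) ^ (3 : ℕ) * b ^ (3 : ℕ)
        + (14481 / 1024) * (1 - b) ^ (4 : ℕ) * b ^ (2 : ℕ)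
        + (321 / 64) * (1 - b) ^ (5 : ℕ) * b
        + (369 / 512) * (1 - b) ^ (6 : ℕ))) := by
    unfold Bb; ring
  rw [key]
  generalize 1 - a = c at hu ⊢
  generalize 1 - b = e at hv ⊢
  positivity

set_option maxHeartbeats 2000000 in
theorem certB_ne (u v : ℝ) (hu : 0 ≤ u) (hu' : u ≤ 1) (hv : 0 ≤ v) (hv' : v ≤ 1) :
    0 ≤ Bb (u / 2) ((1 + v) / 2) (-(u / 2) ^ (3 : ℕ)) ((3 * ((1 + v) / 2) ^ (2 : ℕ) - 1) / 2) := by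
  obtain ⟨a, ha, rfl⟩ : ∃ a, 0 ≤ a ∧ u = 1 - a := ⟨1 - u, by linarith, by ring⟩
  obtain ⟨b, hb, rfl⟩ : ∃ b, 0 ≤ b ∧ v = 1 - b := ⟨1 - v, by linarith, by ring⟩
  have key : Bb ((1 - a) / 2) ((1 + (1 - b)) / 2) (-((1 - a) / 2) ^ (3 : ℕ)) ((3 * ((1 + (1 - b)) / 2) ^ (2 : ℕ) - 1) / 2) =
      (1 - a) ^ (0 : ℕ) * a ^ (0 : ℕ) * ((1 - b) ^ (0 : ℕ) * b ^ (1 : ℕ)) * ((1 - a) ^ (0 : ℕ) * a ^ (6 : ℕ) * ((9 / 8) * b ^ (5 : ℕ)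
        + (21 / 4) * (1 - b) * b ^ (4 : ℕ)
        + (73 / 8) * (1 - b) ^ (2 : ℕ) * b ^ (3 : ℕ)
        + 7 * (1 - b) ^ (3 : ℕ) * b ^ (2 : ℕ)
        + 2 * (1 - b) ^ (4 : ℕ) * b)
      + (1 - a) ^ (1 : ℕ) * a ^ (5 : ℕ) * ((27 / 4) * b ^ (5 : ℕ)
        + (63 / 2) * (1 - b) * b ^ (4 : ℕ)
        + (219 / 4) * (1 - b) ^ (2 : ℕ) * b ^ (3 : ℕ)
        + 42 * (1 - b) ^ (3 : ℕ) * b ^ (2 : ℕ)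
        + 12 * (1 - b) ^ (4 : ℕ) * b)
      + (1 - a) ^ (2 : ℕ) * a ^ (4 : ℕ) * ((525 / 32) * b ^ (5 : ℕ)
        + (1229 / 16) * (1 - b) * b ^ (4 : ℕ)
        + (4297 / 32) * (1 - b) ^ (2 : ℕ) * b ^ (3 : ℕ)
        + (417 / 4) * (1 - b) ^ (3 : ℕ) * b ^ (2 : ℕ)
        + (247 / 8) * (1 - b) ^ (4 : ℕ) * b
        + (1 / 2) * (1 - b) ^ (5 : ℕ))
      + (1 - a) ^ (3 : ℕ) * a ^ (3 : ℕ) * ((10563 / 512) * b ^ (5 : ℕ)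
        + (12455 / 128) * (1 - b) * b ^ (4 : ℕ)
        + (11029 / 64) * (1 - b) ^ (2 : ℕ) * b ^ (3 : ℕ)
        + (1099 / 8) * (1 - b) ^ (3 : ℕ) * b ^ (2 : ℕ)
        + (1403 / 32) * (1 - b) ^ (4 : ℕ) * b
        + (17 / 8) * (1 - b) ^ (5 : ℕ))
      + (1 - a) ^ (4 : ℕ) * a ^ (2 : ℕ) * ((14481 / 1024) * b ^ (5 : ℕ)
        + (17283 / 256) * (1 - b) * b ^ (4 : ℕ)
        + (31263 / 256) * (1 - b) ^ (2 : ℕ) * b ^ (3 : ℕ)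
        + (203 / 2) * (1 - b) ^ (3 : ℕ) * b ^ (2 : ℕ)
        + (4611 / 128) * (1 - b) ^ (4 : ℕ) * b
        + (105 / 32) * (1 - b) ^ (5 : ℕ))
      + (1 - a) ^ (5 : ℕ) * a ^ (1 : ℕ) * ((321 / 64) * b ^ (5 : ℕ)
        + (1559 / 64) * (1 - b) * b ^ (4 : ℕ)
        + (5809 / 128) * (1 - b) ^ (2 : ℕ) * b ^ (3 : ℕ)
        + (319 / 8) * (1 - b) ^ (3 : ℕ) * b ^ (2 : ℕ)
        + (1025 / 64) * (1 - b) ^ (4 : ℕ) * b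
        + (35 / 16) * (1 - b) ^ (5 : ℕ))
      + (1 - a) ^ (6 : ℕ) * a ^ (0 : ℕ) * ((369 / 512) * b ^ (5 : ℕ)
        + (1833 / 512) * (1 - b) * b ^ (4 : ℕ)
        + (7095 / 1024) * (1 - b) ^ (2 : ℕ) * b ^ (3 : ℕ)
        + (417 / 64) * (1 - b) ^ (3 : ℕ) * b ^ (2 : ℕ)
        + (1527 / 512) * (1 - b) ^ (4 : ℕ) * b
        + (69 / 128) * (1 - b) ^ (5 : ℕ))) := by
    unfold Bb; ring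
  rw [key]
  generalize 1 - a = c at hu ⊢
  generalize 1 - b = e at hv ⊢
  positivity

set_option maxHeartbeats 2000000 in
theorem certB_ee (u v : ℝ) (hu : 0 ≤ u) (hu' : u ≤ 1) (hv : 0 ≤ v) (hv' : v ≤ 1) :
    0 ≤ Bb ((1 + u) / 2) ((1 + v) / 2) ((3 * ((1 + u) / 2) ^ (2 : ℕ) - 1) / 2) ((3 * ((1 + v) / 2) ^ (2 : ℕ) - 1) / 2) := by
  obtain ⟨a, ha, rfl⟩ : ∃ a, 0 ≤ a ∧ u = 1 - a := ⟨1 - u, by linarith, by ring⟩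
  obtain ⟨b, hb, rfl⟩ : ∃ b, 0 ≤ b ∧ v = 1 - b := ⟨1 - v, by linarith, by ring⟩
  have key : Bb ((1 + (1 - a)) / 2) ((1 + (1 - b)) / 2) ((3 * ((1 + (1 - a)) / 2) ^ (2 : ℕ) - 1) / 2) ((3 * ((1 + (1 - b)) / 2) ^ (2 : ℕ) - 1) / 2) =
      (1 - a) ^ (0 : ℕ) * a ^ (1 : ℕ) * ((1 - b) ^ (0 : ℕ) * b ^ (1 : ℕ)) * ((1 - a) ^ (0 : ℕ) * a ^ (5 : ℕ) * ((369 / 512) * b ^ (5 : ℕ)
        + (1833 / 512) * (1 - b) * b ^ (4 : ℕ)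
        + (7095 / 1024) * (1 - b) ^ (2 : ℕ) * b ^ (3 : ℕ)
        + (417 / 64) * (1 - b) ^ (3 : ℕ) * b ^ (2 : ℕ)
        + (1527 / 512) * (1 - b) ^ (4 : ℕ) * b
        + (69 / 128) * (1 - b) ^ (5 : ℕ))
      + (1 - a) ^ (1 : ℕ) * a ^ (4 : ℕ) * ((1833 / 512) * b ^ (5 : ℕ)
        + (1159 / 64) * (1 - b) * b ^ (4 : ℕ)
        + (9199 / 256) * (1 - b) ^ (2 : ℕ) * b ^ (3 : ℕ)
        + (559 / 16) * (1 - b) ^ (3 : ℕ) * b ^ (2 : ℕ)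
        + (2135 / 128) * (1 - b) ^ (4 : ℕ) * b
        + (101 / 32) * (1 - b) ^ (5 : ℕ))
      + (1 - a) ^ (2 : ℕ) * a ^ (3 : ℕ) * ((7095 / 1024) * b ^ (5 : ℕ)
        + (9199 / 256) * (1 - b) * b ^ (4 : ℕ)
        + (2357 / 32) * (1 - b) ^ (2 : ℕ) * b ^ (3 : ℕ)
        + (1193 / 16) * (1 - b) ^ (3 : ℕ) * b ^ (2 : ℕ)
        + (1193 / 32) * (1 - b) ^ (4 : ℕ) * b
        + (59 / 8) * (1 - b) ^ (5 : ℕ))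
      + (1 - a) ^ (3 : ℕ) * a ^ (2 : ℕ) * ((417 / 64) * b ^ (5 : ℕ)
        + (559 / 16) * (1 - b) * b ^ (4 : ℕ)
        + (1193 / 16) * (1 - b) ^ (2 : ℕ) * b ^ (3 : ℕ)
        + 79 * (1 - b) ^ (3 : ℕ) * b ^ (2 : ℕ)
        + (331 / 8) * (1 - b) ^ (4 : ℕ) * b
        + (17 / 2) * (1 - b) ^ (5 : ℕ))
      + (1 - a) ^ (4 : ℕ) * a ^ (1 : ℕ) * ((1527 / 512) * b ^ (5 : ℕ)
        + (2135 / 128) * (1 - b) * b ^ (4 : ℕ)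
        + (1193 / 32) * (1 - b) ^ (2 : ℕ) * b ^ (3 : ℕ)
        + (331 / 8) * (1 - b) ^ (3 : ℕ) * b ^ (2 : ℕ)
        + (361 / 16) * (1 - b) ^ (4 : ℕ) * b
        + (19 / 4) * (1 - b) ^ (5 : ℕ))
      + (1 - a) ^ (5 : ℕ) * a ^ (0 : ℕ) * ((69 / 128) * b ^ (5 : ℕ)
        + (101 / 32) * (1 - b) * b ^ (4 : ℕ)
        + (59 / 8) * (1 - b) ^ (2 : ℕ) * b ^ (3 : ℕ)
        + (17 / 2) * (1 - b) ^ (3 : ℕ) * b ^ (2 : ℕ)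
        + (19 / 4) * (1 - b) ^ (4 : ℕ) * b
        + 1 * (1 - b) ^ (5 : ℕ))) := by
    unfold Bb; ring
  rw [key]
  generalize 1 - a = c at hu ⊢
  generalize 1 - b = e at hv ⊢
  positivity

end Vale.P154.Q3
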