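import Vale.Agent.P154.Q3Poly

/-! Generated Bernstein-positivity certificates. -/

namespace Vale.P154.Q3

set_option maxHeartbeats 2000000 in
theorem certF_hh (u v : ℝ) (hu : 0 ≤ u) (hu' : u ≤ 1) (hv : 0 ≤ v) (hv' : v ≤ 1) :
    0 ≤ Fp u v (u ^ (3 : ℕ)) (v ^ (3 : ℕ)) := by
  obtain ⟨a, ha, rfl⟩ : ∃ a, 0 ≤ a ∧ u = 1 - a := ⟨1 - u, by linarith, by ring⟩
  obtain ⟨b, hb, rfl⟩ : ∃ b, 0 ≤ b ∧ v = 1 - b := ⟨1 - v, by linarith, by ring⟩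
  have key : Fp (1 - a) (1 - b) ((1 - a) ^ (3 : ℕ)) ((1 - b) ^ (3 : ℕ)) =
      (1 - a) ^ (2 : ℕ) * a ^ (1 : ℕ) * ((1 - b) ^ (2 : ℕ) * b ^ (1 : ℕ)) * ((1 - a) ^ (0 : ℕ) * a ^ (6 : ℕ) * ((7 / 4) * b ^ (6 : ℕ)
        + (53 / 4) * (1 - b) * b ^ (5 : ℕ)
        + 40 * (1 - b) ^ (2 : ℕ) * b ^ (4 : ℕ)
        + (117 / 2) * (1 - b) ^ (3 : ℕ) * b ^ (3 : ℕ)
        + (167 / 4) * (1 - b) ^ (4 : ℕ) * b ^ (2 : ℕ)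
        + (49 / 4) * (1 - b) ^ (5 : ℕ) * b
        + (1 / 2) * (1 - b) ^ (6 : ℕ))
      + (1 - a) ^ (1 : ℕ) * a ^ (5 : ℕ) * ((53 / 4) * b ^ (6 : ℕ)
        + (383 / 4) * (1 - b) * b ^ (5 : ℕ)
        + 275 * (1 - b) ^ (2 : ℕ) * b ^ (4 : ℕ)
        + (765 / 2) * (1 - b) ^ (3 : ℕ) * b ^ (3 : ℕ)
        + (1041 / 4) * (1 - b) ^ (4 : ℕ) * b ^ (2 : ℕ)
        + (295 / 4) * (1 - b) ^ (5 : ℕ) * b
        + (7 / 2) * (1 - b) ^ (6 : ℕ))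
      + (1 - a) ^ (2 : ℕ) * a ^ (4 : ℕ) * (40 * b ^ (6 : ℕ)
        + 275 * (1 - b) * b ^ (5 : ℕ)
        + (2963 / 4) * (1 - b) ^ (2 : ℕ) * b ^ (4 : ℕ)
        + (3839 / 4) * (1 - b) ^ (3 : ℕ) * b ^ (3 : ℕ)
        + (2435 / 4) * (1 - b) ^ (4 : ℕ) * b ^ (2 : ℕ)
        + (665 / 4) * (1 - b) ^ (5 : ℕ) * b
        + (23 / 2) * (1 - b) ^ (6 : ℕ))
      + (1 - a) ^ (3 : ℕ) * a ^ (3 : ℕ) * ((117 / 2) * b ^ (6 : ℕ)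
        + (765 / 2) * (1 - b) * b ^ (5 : ℕ)
        + (3839 / 4) * (1 - b) ^ (2 : ℕ) * b ^ (4 : ℕ)
        + (4645 / 4) * (1 - b) ^ (3 : ℕ) * b ^ (3 : ℕ)
        + (2853 / 4) * (1 - b) ^ (4 : ℕ) * b ^ (2 : ℕ)
        + (845 / 4) * (1 - b) ^ (5 : ℕ) * b
        + (47 / 2) * (1 - b) ^ (6 : ℕ))
      + (1 - a) ^ (4 : ℕ) * a ^ (2 : ℕ) * ((167 / 4) * b ^ (6 : ℕ)
        + (1041 / 4) * (1 - b) * b ^ (5 : ℕ)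
        + (2435 / 4) * (1 - b) ^ (2 : ℕ) * b ^ (4 : ℕ)
        + (2853 / 4) * (1 - b) ^ (3 : ℕ) * b ^ (3 : ℕ)
        + (937 / 2) * (1 - b) ^ (4 : ℕ) * b ^ (2 : ℕ)
        + (321 / 2) * (1 - b) ^ (5 : ℕ) * b
        + 21 * (1 - b) ^ (6 : ℕ))
      + (1 - a) ^ (5 : ℕ) * a ^ (1 : ℕ) * ((49 / 4) * b ^ (6 : ℕ)
        + (295 / 4) * (1 - b) * b ^ (5 : ℕ)
        + (665 / 4) * (1 - b) ^ (2 : ℕ) * b ^ (4 : ℕ)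
        + (845 / 4) * (1 - b) ^ (3 : ℕ) * b ^ (3 : ℕ)
        + (321 / 2) * (1 - b) ^ (4 : ℕ) * b ^ (2 : ℕ)
        + 42 * (1 - b) ^ (5 : ℕ) * b)
      + (1 - a) ^ (6 : ℕ) * a ^ (0 : ℕ) * ((1 / 2) * b ^ (6 : ℕ)
        + (7 / 2) * (1 - b) * b ^ (5 : ℕ)
        + (23 / 2) * (1 - b) ^ (2 : ℕ) * b ^ (4 : ℕ)
        + (47 / 2) * (1 - b) ^ (3 : ℕ) * b ^ (3 : ℕ)
        + 21 * (1 - b) ^ (4 : ℕ) * b ^ (2 : ℕ))) := by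
    unfold Fp Tt Nn; ring
  rw [key]
  generalize 1 - a = c at hu ⊢
  generalize 1 - b = e at hv ⊢
  positivity

set_option maxHeartbeats 2000000 in
theorem certF_hn (u v : ℝ) (hu : 0 ≤ u) (hu' : u ≤ 1) (hv : 0 ≤ v) (hv' : v ≤ 1) :
    0 ≤ Fp u (v / 2) (u ^ (3 : ℕ)) (-(v / 2) ^ (3 : ℕ)) := by
  obtain ⟨a, ha, rfl⟩ : ∃ a, 0 ≤ a ∧ u = 1 - a := ⟨1 - u, by linarith, by ring⟩
  obtain ⟨b, hb, rfl⟩ : ∃ b, 0 ≤ b ∧ v = 1 - b := ⟨1 - v, by linarith, by ring⟩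
  have key : Fp (1 - a) ((1 - b) / 2) ((1 - a) ^ (3 : ℕ)) (-((1 - b) / 2) ^ (3 : ℕ)) =
      (1 - a) ^ (2 : ℕ) * a ^ (1 : ℕ) * ((1 - b) ^ (2 : ℕ) * b ^ (0 : ℕ)) * ((1 - a) ^ (0 : ℕ) * a ^ (8 : ℕ) * ((7 / 16) * b ^ (9 : ℕ)
        + (61 / 16) * (1 - b) * b ^ (8 : ℕ)
        + (933 / 64) * (1 - b) ^ (2 : ℕ) * b ^ (7 : ℕ)
        + (2059 / 64) * (1 - b) ^ (3 : ℕ) * b ^ (6 : ℕ)
        + (2901 / 64) * (1 - b) ^ (4 : ℕ) * b ^ (5 : ℕ)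
        + (2723 / 64) * (1 - b) ^ (5 : ℕ) * b ^ (4 : ℕ)
        + (1719 / 64) * (1 - b) ^ (6 : ℕ) * b ^ (3 : ℕ)
        + (713 / 64) * (1 - b) ^ (7 : ℕ) * b ^ (2 : ℕ)
        + (179 / 64) * (1 - b) ^ (8 : ℕ) * b
        + (21 / 64) * (1 - b) ^ (9 : ℕ))
      + (1 - a) ^ (1 : ℕ) * a ^ (7 : ℕ) * ((67 / 16) * b ^ (9 : ℕ)
        + (577 / 16) * (1 - b) * b ^ (8 : ℕ)
        + (8709 / 64) * (1 - b) ^ (2 : ℕ) * b ^ (7 : ℕ)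
        + (18939 / 64) * (1 - b) ^ (3 : ℕ) * b ^ (6 : ℕ)
        + (13131 / 32) * (1 - b) ^ (4 : ℕ) * b ^ (5 : ℕ)
        + (12123 / 32) * (1 - b) ^ (5 : ℕ) * b ^ (4 : ℕ)
        + (15065 / 64) * (1 - b) ^ (6 : ℕ) * b ^ (3 : ℕ)
        + (6167 / 64) * (1 - b) ^ (7 : ℕ) * b ^ (2 : ℕ)
        + 24 * (1 - b) ^ (8 : ℕ) * b
        + (45 / 16) * (1 - b) ^ (9 : ℕ))
      + (1 - a) ^ (2 : ℕ) * a ^ (6 : ℕ) * ((273 / 16) * b ^ (9 : ℕ)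
        + (2325 / 16) * (1 - b) * b ^ (8 : ℕ)
        + (17315 / 32) * (1 - b) ^ (2 : ℕ) * b ^ (7 : ℕ)
        + (9265 / 8) * (1 - b) ^ (3 : ℕ) * b ^ (6 : ℕ)
        + (403349 / 256) * (1 - b) ^ (4 : ℕ) * b ^ (5 : ℕ)
        + (364049 / 256) * (1 - b) ^ (5 : ℕ) * b ^ (4 : ℕ)
        + (110197 / 128) * (1 - b) ^ (6 : ℕ) * b ^ (3 : ℕ)
        + (43873 / 128) * (1 - b) ^ (7 : ℕ) * b ^ (2 : ℕ)
        + (21289 / 256) * (1 - b) ^ (8 : ℕ) * b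
        + (2445 / 256) * (1 - b) ^ (9 : ℕ))
      + (1 - a) ^ (3 : ℕ) * a ^ (5 : ℕ) * ((607 / 16) * b ^ (9 : ℕ)
        + (5115 / 16) * (1 - b) * b ^ (8 : ℕ)
        + (37603 / 32) * (1 - b) ^ (2 : ℕ) * b ^ (7 : ℕ)
        + (158371 / 64) * (1 - b) ^ (3 : ℕ) * b ^ (6 : ℕ)
        + (843963 / 256) * (1 - b) ^ (4 : ℕ) * b ^ (5 : ℕ)
        + (46319 / 16) * (1 - b) ^ (5 : ℕ) * b ^ (4 : ℕ)
        + (432867 / 256) * (1 - b) ^ (6 : ℕ) * b ^ (3 : ℕ)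
        + (164763 / 256) * (1 - b) ^ (7 : ℕ) * b ^ (2 : ℕ)
        + (18987 / 128) * (1 - b) ^ (8 : ℕ) * b
        + (4149 / 256) * (1 - b) ^ (9 : ℕ))
      + (1 - a) ^ (4 : ℕ) * a ^ (4 : ℕ) * ((795 / 16) * b ^ (9 : ℕ)
        + (6633 / 16) * (1 - b) * b ^ (8 : ℕ)
        + (96341 / 64) * (1 - b) ^ (2 : ℕ) * b ^ (7 : ℕ)
        + (199683 / 64) * (1 - b) ^ (3 : ℕ) * b ^ (6 : ℕ)
        + (65071 / 16) * (1 - b) ^ (4 : ℕ) * b ^ (5 : ℕ)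
        + (442951 / 128) * (1 - b) ^ (5 : ℕ) * b ^ (4 : ℕ)
        + (493881 / 256) * (1 - b) ^ (6 : ℕ) * b ^ (3 : ℕ)
        + (43897 / 64) * (1 - b) ^ (7 : ℕ) * b ^ (2 : ℕ)
        + (36849 / 256) * (1 - b) ^ (8 : ℕ) * b
        + (225 / 16) * (1 - b) ^ (9 : ℕ))
      + (1 - a) ^ (5 : ℕ) * a ^ (3 : ℕ) * ((617 / 16) * b ^ (9 : ℕ)
        + (5103 / 16) * (1 - b) * b ^ (8 : ℕ)
        + (73337 / 64) * (1 - b) ^ (2 : ℕ) * b ^ (7 : ℕ)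
        + (149879 / 64) * (1 - b) ^ (3 : ℕ) * b ^ (6 : ℕ)
        + (382741 / 128) * (1 - b) ^ (4 : ℕ) * b ^ (5 : ℕ)
        + (157547 / 64) * (1 - b) ^ (5 : ℕ) * b ^ (4 : ℕ)
        + (166101 / 128) * (1 - b) ^ (6 : ℕ) * b ^ (3 : ℕ)
        + (53551 / 128) * (1 - b) ^ (7 : ℕ) * b ^ (2 : ℕ)
        + (2367 / 32) * (1 - b) ^ (8 : ℕ) * b
        + (693 / 128) * (1 - b) ^ (9 : ℕ))
      + (1 - a) ^ (6 : ℕ) * a ^ (2 : ℕ) * ((267 / 16) * b ^ (9 : ℕ)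
        + (2195 / 16) * (1 - b) * b ^ (8 : ℕ)
        + (7835 / 16) * (1 - b) ^ (2 : ℕ) * b ^ (7 : ℕ)
        + (15879 / 16) * (1 - b) ^ (3 : ℕ) * b ^ (6 : ℕ)
        + (320097 / 256) * (1 - b) ^ (4 : ℕ) * b ^ (5 : ℕ)
        + (257013 / 256) * (1 - b) ^ (5 : ℕ) * b ^ (4 : ℕ)
        + (32181 / 64) * (1 - b) ^ (6 : ℕ) * b ^ (3 : ℕ)
        + (18539 / 128) * (1 - b) ^ (7 : ℕ) * b ^ (2 : ℕ)
        + (4927 / 256) * (1 - b) ^ (8 : ℕ) * b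
        + (105 / 256) * (1 - b) ^ (9 : ℕ))
      + (1 - a) ^ (7 : ℕ) * a ^ (1 : ℕ) * ((53 / 16) * b ^ (9 : ℕ)
        + (437 / 16) * (1 - b) * b ^ (8 : ℕ)
        + (1571 / 16) * (1 - b) ^ (2 : ℕ) * b ^ (7 : ℕ)
        + (12891 / 64) * (1 - b) ^ (3 : ℕ) * b ^ (6 : ℕ)
        + (66067 / 256) * (1 - b) ^ (4 : ℕ) * b ^ (5 : ℕ)
        + (13523 / 64) * (1 - b) ^ (5 : ℕ) * b ^ (4 : ℕ)
        + (27583 / 256) * (1 - b) ^ (6 : ℕ) * b ^ (3 : ℕ)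
        + (8003 / 256) * (1 - b) ^ (7 : ℕ) * b ^ (2 : ℕ)
        + (513 / 128) * (1 - b) ^ (8 : ℕ) * b
        + (9 / 256) * (1 - b) ^ (9 : ℕ))
      + (1 - a) ^ (8 : ℕ) * a ^ (0 : ℕ) * ((1 / 8) * b ^ (9 : ℕ)
        + (9 / 8) * (1 - b) * b ^ (8 : ℕ)
        + (73 / 16) * (1 - b) ^ (2 : ℕ) * b ^ (7 : ℕ)
        + (351 / 32) * (1 - b) ^ (3 : ℕ) * b ^ (6 : ℕ)
        + (2187 / 128) * (1 - b) ^ (4 : ℕ) * b ^ (5 : ℕ)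
        + (141 / 8) * (1 - b) ^ (5 : ℕ) * b ^ (4 : ℕ)
        + (3037 / 256) * (1 - b) ^ (6 : ℕ) * b ^ (3 : ℕ)
        + (159 / 32) * (1 - b) ^ (7 : ℕ) * b ^ (2 : ℕ)
        + (299 / 256) * (1 - b) ^ (8 : ℕ) * b
        + (15 / 128) * (1 - b) ^ (9 : ℕ))) := by
    unfold Fp Tt Nn; ring
  rw [key]
  generalize 1 - a = c at hu ⊢
  generalize 1 - b = e at hv ⊢
  positivity

set_option maxHeartbeats 2000000 in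
theorem certF_he (u v : ℝ) (hu : 0 ≤ u) (hu' : u ≤ 1) (hv : 0 ≤ v) (hv' : v ≤ 1) :
    0 ≤ Fp u ((1 + v) / 2) (u ^ (3 : ℕ)) ((3 * ((1 + v) / 2) ^ (2 : ℕ) - 1) / 2) := by
  obtain ⟨a, ha, rfl⟩ : ∃ a, 0 ≤ a ∧ u = 1 - a := ⟨1 - u, by linarith, by ring⟩
  obtain ⟨b, hb, rfl⟩ : ∃ b, 0 ≤ b ∧ v = 1 - b := ⟨1 - v, by linarith, by ring⟩
  have key : Fp (1 - a) ((1 + (1 - b)) / 2) ((1 - a) ^ (3 : ℕ)) ((3 * ((1 + (1 - b)) / 2) ^ (2 : ℕ) - 1) / 2) =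
      (1 - a) ^ (2 : ℕ) * a ^ (1 : ℕ) * ((1 - b) ^ (0 : ℕ) * b ^ (1 : ℕ)) * ((1 - a) ^ (0 : ℕ) * a ^ (8 : ℕ) * ((21 / 64) * b ^ (10 : ℕ)
        + (283 / 64) * (1 - b) * b ^ (9 : ℕ)
        + (1609 / 64) * (1 - b) ^ (2 : ℕ) * b ^ (8 : ℕ)
        + (5151 / 64) * (1 - b) ^ (3 : ℕ) * b ^ (7 : ℕ)
        + (10339 / 64) * (1 - b) ^ (4 : ℕ) * b ^ (6 : ℕ)
        + (13597 / 64) * (1 - b) ^ (5 : ℕ) * b ^ (5 : ℕ)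
        + (11803 / 64) * (1 - b) ^ (6 : ℕ) * b ^ (4 : ℕ)
        + (6589 / 64) * (1 - b) ^ (7 : ℕ) * b ^ (3 : ℕ)
        + (549 / 16) * (1 - b) ^ (8 : ℕ) * b ^ (2 : ℕ)
        + (91 / 16) * (1 - b) ^ (9 : ℕ) * b
        + (1 / 4) * (1 - b) ^ (10 : ℕ))
      + (1 - a) ^ (1 : ℕ) * a ^ (7 : ℕ) * ((45 / 16) * b ^ (10 : ℕ)
        + (303 / 8) * (1 - b) * b ^ (9 : ℕ)
        + (13751 / 64) * (1 - b) ^ (2 : ℕ) * b ^ (8 : ℕ)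
        + (43885 / 64) * (1 - b) ^ (3 : ℕ) * b ^ (7 : ℕ)
        + (43883 / 32) * (1 - b) ^ (4 : ℕ) * b ^ (6 : ℕ)
        + (57491 / 32) * (1 - b) ^ (5 : ℕ) * b ^ (5 : ℕ)
        + (99451 / 64) * (1 - b) ^ (6 : ℕ) * b ^ (4 : ℕ)
        + (55369 / 64) * (1 - b) ^ (7 : ℕ) * b ^ (3 : ℕ)
        + (4613 / 16) * (1 - b) ^ (8 : ℕ) * b ^ (2 : ℕ)
        + (771 / 16) * (1 - b) ^ (9 : ℕ) * b
        + (9 / 4) * (1 - b) ^ (10 : ℕ))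
      + (1 - a) ^ (2 : ℕ) * a ^ (6 : ℕ) * ((2445 / 256) * b ^ (10 : ℕ)
        + (33149 / 256) * (1 - b) * b ^ (9 : ℕ)
        + (94245 / 128) * (1 - b) ^ (2 : ℕ) * b ^ (8 : ℕ)
        + (300803 / 128) * (1 - b) ^ (3 : ℕ) * b ^ (7 : ℕ)
        + (1202033 / 256) * (1 - b) ^ (4 : ℕ) * b ^ (6 : ℕ)
        + (1573233 / 256) * (1 - b) ^ (5 : ℕ) * b ^ (5 : ℕ)
        + (170121 / 32) * (1 - b) ^ (6 : ℕ) * b ^ (4 : ℕ)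
        + (190079 / 64) * (1 - b) ^ (7 : ℕ) * b ^ (3 : ℕ)
        + (4005 / 4) * (1 - b) ^ (8 : ℕ) * b ^ (2 : ℕ)
        + (1387 / 8) * (1 - b) ^ (9 : ℕ) * b
        + (19 / 2) * (1 - b) ^ (10 : ℕ))
      + (1 - a) ^ (3 : ℕ) * a ^ (5 : ℕ) * ((4149 / 256) * b ^ (10 : ℕ)
        + (7203 / 32) * (1 - b) * b ^ (9 : ℕ)
        + (332247 / 256) * (1 - b) ^ (2 : ℕ) * b ^ (8 : ℕ)
        + (1070427 / 256) * (1 - b) ^ (3 : ℕ) * b ^ (7 : ℕ)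
        + (67361 / 8) * (1 - b) ^ (4 : ℕ) * b ^ (6 : ℕ)
        + (2845381 / 256) * (1 - b) ^ (5 : ℕ) * b ^ (5 : ℕ)
        + (155671 / 16) * (1 - b) ^ (6 : ℕ) * b ^ (4 : ℕ)
        + (354629 / 64) * (1 - b) ^ (7 : ℕ) * b ^ (3 : ℕ)
        + (30967 / 16) * (1 - b) ^ (8 : ℕ) * b ^ (2 : ℕ)
        + (1447 / 4) * (1 - b) ^ (9 : ℕ) * b
        + 25 * (1 - b) ^ (10 : ℕ))
      + (1 - a) ^ (4 : ℕ) * a ^ (4 : ℕ) * ((225 / 16) * b ^ (10 : ℕ)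
        + (53367 / 256) * (1 - b) * b ^ (9 : ℕ)
        + (19993 / 16) * (1 - b) ^ (2 : ℕ) * b ^ (8 : ℕ)
        + (1060035 / 256) * (1 - b) ^ (3 : ℕ) * b ^ (7 : ℕ)
        + (1093679 / 128) * (1 - b) ^ (4 : ℕ) * b ^ (6 : ℕ)
        + (740103 / 64) * (1 - b) ^ (5 : ℕ) * b ^ (5 : ℕ)
        + (667257 / 64) * (1 - b) ^ (6 : ℕ) * b ^ (4 : ℕ)
        + (395203 / 64) * (1 - b) ^ (7 : ℕ) * b ^ (3 : ℕ)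
        + (36569 / 16) * (1 - b) ^ (8 : ℕ) * b ^ (2 : ℕ)
        + (7533 / 16) * (1 - b) ^ (9 : ℕ) * b
        + (159 / 4) * (1 - b) ^ (10 : ℕ))
      + (1 - a) ^ (5 : ℕ) * a ^ (3 : ℕ) * ((693 / 128) * b ^ (10 : ℕ)
        + (6237 / 64) * (1 - b) * b ^ (9 : ℕ)
        + (82495 / 128) * (1 - b) ^ (2 : ℕ) * b ^ (8 : ℕ)
        + (291741 / 128) * (1 - b) ^ (3 : ℕ) * b ^ (7 : ℕ)
        + (316831 / 64) * (1 - b) ^ (4 : ℕ) * b ^ (6 : ℕ)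
        + (897871 / 128) * (1 - b) ^ (5 : ℕ) * b ^ (5 : ℕ)
        + (423431 / 64) * (1 - b) ^ (6 : ℕ) * b ^ (4 : ℕ)
        + (263061 / 64) * (1 - b) ^ (7 : ℕ) * b ^ (3 : ℕ)
        + (25695 / 16) * (1 - b) ^ (8 : ℕ) * b ^ (2 : ℕ)
        + (5657 / 16) * (1 - b) ^ (9 : ℕ) * b
        + (131 / 4) * (1 - b) ^ (10 : ℕ))
      + (1 - a) ^ (6 : ℕ) * a ^ (2 : ℕ) * ((105 / 256) * b ^ (10 : ℕ)
        + (5159 / 256) * (1 - b) * b ^ (9 : ℕ)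
        + (21859 / 128) * (1 - b) ^ (2 : ℕ) * b ^ (8 : ℕ)
        + (43797 / 64) * (1 - b) ^ (3 : ℕ) * b ^ (7 : ℕ)
        + (411957 / 256) * (1 - b) ^ (4 : ℕ) * b ^ (6 : ℕ)
        + (616773 / 256) * (1 - b) ^ (5 : ℕ) * b ^ (5 : ℕ)
        + (75477 / 32) * (1 - b) ^ (6 : ℕ) * b ^ (4 : ℕ)
        + (95659 / 64) * (1 - b) ^ (7 : ℕ) * b ^ (3 : ℕ)
        + 583 * (1 - b) ^ (8 : ℕ) * b ^ (2 : ℕ)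
        + (993 / 8) * (1 - b) ^ (9 : ℕ) * b
        + (21 / 2) * (1 - b) ^ (10 : ℕ))
      + (1 - a) ^ (7 : ℕ) * a ^ (1 : ℕ) * ((9 / 256) * b ^ (10 : ℕ)
        + (225 / 64) * (1 - b) * b ^ (9 : ℕ)
        + (8183 / 256) * (1 - b) ^ (2 : ℕ) * b ^ (8 : ℕ)
        + (33623 / 256) * (1 - b) ^ (3 : ℕ) * b ^ (7 : ℕ)
        + (19803 / 64) * (1 - b) ^ (4 : ℕ) * b ^ (6 : ℕ)
        + (116069 / 256) * (1 - b) ^ (5 : ℕ) * b ^ (5 : ℕ)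
        + (13471 / 32) * (1 - b) ^ (6 : ℕ) * b ^ (4 : ℕ)
        + (15405 / 64) * (1 - b) ^ (7 : ℕ) * b ^ (3 : ℕ)
        + (1233 / 16) * (1 - b) ^ (8 : ℕ) * b ^ (2 : ℕ)
        + (21 / 2) * (1 - b) ^ (9 : ℕ) * b)
      + (1 - a) ^ (8 : ℕ) * a ^ (0 : ℕ) * ((15 / 128) * b ^ (10 : ℕ)
        + (361 / 256) * (1 - b) * b ^ (9 : ℕ)
        + (473 / 64) * (1 - b) ^ (2 : ℕ) * b ^ (8 : ℕ)
        + (5639 / 256) * (1 - b) ^ (3 : ℕ) * b ^ (7 : ℕ)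
        + (653 / 16) * (1 - b) ^ (4 : ℕ) * b ^ (6 : ℕ)
        + (6157 / 128) * (1 - b) ^ (5 : ℕ) * b ^ (5 : ℕ)
        + (563 / 16) * (1 - b) ^ (6 : ℕ) * b ^ (4 : ℕ)
        + (467 / 32) * (1 - b) ^ (7 : ℕ) * b ^ (3 : ℕ)
        + (21 / 8) * (1 - b) ^ (8 : ℕ) * b ^ (2 : ℕ))) := by
    unfold Fp Tt Nn; ring
  rw [key]
  generalize 1 - a = c at hu ⊢
  generalize 1 - b = e at hv ⊢
  positivity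

set_option maxHeartbeats 2000000 in
theorem certF_nn (u v : ℝ) (hu : 0 ≤ u) (hu' : u ≤ 1) (hv : 0 ≤ v) (hv' : v ≤ 1) :
    0 ≤ Fp (u / 2) (v / 2) (-(u / 2) ^ (3 : ℕ)) (-(v / 2) ^ (3 : ℕ)) := by
  obtain ⟨a, ha, rfl⟩ : ∃ a, 0 ≤ a ∧ u = 1 - a := ⟨1 - u, by linarith, by ring⟩
  obtain ⟨b, hb, rfl⟩ : ∃ b, 0 ≤ b ∧ v = 1 - b := ⟨1 - v, by linarith, by ring⟩
  have key : Fp ((1 - a) / 2) ((1 - b) / 2) (-((1 - a) / 2) ^ (3 : ℕ)) (-((1 - b) / 2) ^ (3 : ℕ)) =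
      (1 - a) ^ (2 : ℕ) * a ^ (0 : ℕ) * ((1 - b) ^ (2 : ℕ) * b ^ (0 : ℕ)) * ((1 - a) ^ (0 : ℕ) * a ^ (7 : ℕ) * ((7 / 64) * b ^ (7 : ℕ)
        + (47 / 64) * (1 - b) * b ^ (6 : ℕ)
        + (529 / 256) * (1 - b) ^ (2 : ℕ) * b ^ (5 : ℕ)
        + (813 / 256) * (1 - b) ^ (3 : ℕ) * b ^ (4 : ℕ)
        + (373 / 128) * (1 - b) ^ (4 : ℕ) * b ^ (3 : ℕ)
        + (209 / 128) * (1 - b) ^ (5 : ℕ) * b ^ (2 : ℕ)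
        + (137 / 256) * (1 - b) ^ (6 : ℕ) * b
        + (21 / 256) * (1 - b) ^ (7 : ℕ))
      + (1 - a) ^ (1 : ℕ) * a ^ (6 : ℕ) * ((47 / 64) * b ^ (7 : ℕ)
        + (311 / 64) * (1 - b) * b ^ (6 : ℕ)
        + (3443 / 256) * (1 - b) ^ (2 : ℕ) * b ^ (5 : ℕ)
        + (5199 / 256) * (1 - b) ^ (3 : ℕ) * b ^ (4 : ℕ)
        + (9387 / 512) * (1 - b) ^ (4 : ℕ) * b ^ (3 : ℕ)
        + (5207 / 512) * (1 - b) ^ (5 : ℕ) * b ^ (2 : ℕ)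
        + (1711 / 512) * (1 - b) ^ (6 : ℕ) * b
        + (267 / 512) * (1 - b) ^ (7 : ℕ))
      + (1 - a) ^ (2 : ℕ) * a ^ (5 : ℕ) * ((529 / 256) * b ^ (7 : ℕ)
        + (3443 / 256) * (1 - b) * b ^ (6 : ℕ)
        + (18685 / 512) * (1 - b) ^ (2 : ℕ) * b ^ (5 : ℕ)
        + (6895 / 128) * (1 - b) ^ (3 : ℕ) * b ^ (4 : ℕ)
        + (194525 / 4096) * (1 - b) ^ (4 : ℕ) * b ^ (3 : ℕ)
        + (105863 / 4096) * (1 - b) ^ (5 : ℕ) * b ^ (2 : ℕ)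
        + (34591 / 4096) * (1 - b) ^ (6 : ℕ) * b
        + (5469 / 4096) * (1 - b) ^ (7 : ℕ))
      + (1 - a) ^ (3 : ℕ) * a ^ (4 : ℕ) * ((813 / 256) * b ^ (7 : ℕ)
        + (5199 / 256) * (1 - b) * b ^ (6 : ℕ)
        + (6895 / 128) * (1 - b) ^ (2 : ℕ) * b ^ (5 : ℕ)
        + (158195 / 2048) * (1 - b) ^ (3 : ℕ) * b ^ (4 : ℕ)
        + (269481 / 4096) * (1 - b) ^ (4 : ℕ) * b ^ (3 : ℕ)
        + (283363 / 8192) * (1 - b) ^ (5 : ℕ) * b ^ (2 : ℕ)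
        + (90647 / 8192) * (1 - b) ^ (6 : ℕ) * b
        + (7197 / 4096) * (1 - b) ^ (7 : ℕ))
      + (1 - a) ^ (4 : ℕ) * a ^ (3 : ℕ) * ((373 / 128) * b ^ (7 : ℕ)
        + (9387 / 512) * (1 - b) * b ^ (6 : ℕ)
        + (194525 / 4096) * (1 - b) ^ (2 : ℕ) * b ^ (5 : ℕ)
        + (269481 / 4096) * (1 - b) ^ (3 : ℕ) * b ^ (4 : ℕ)
        + (874667 / 16384) * (1 - b) ^ (4 : ℕ) * b ^ (3 : ℕ)
        + (433185 / 16384) * (1 - b) ^ (5 : ℕ) * b ^ (2 : ℕ)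
        + (32895 / 4096) * (1 - b) ^ (6 : ℕ) * b
        + (20601 / 16384) * (1 - b) ^ (7 : ℕ))
      + (1 - a) ^ (5 : ℕ) * a ^ (2 : ℕ) * ((209 / 128) * b ^ (7 : ℕ)
        + (5207 / 512) * (1 - b) * b ^ (6 : ℕ)
        + (105863 / 4096) * (1 - b) ^ (2 : ℕ) * b ^ (5 : ℕ)
        + (283363 / 8192) * (1 - b) ^ (3 : ℕ) * b ^ (4 : ℕ)
        + (433185 / 16384) * (1 - b) ^ (4 : ℕ) * b ^ (3 : ℕ)
        + (390693 / 32768) * (1 - b) ^ (5 : ℕ) * b ^ (2 : ℕ)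
        + (53127 / 16384) * (1 - b) ^ (6 : ℕ) * b
        + (3915 / 8192) * (1 - b) ^ (7 : ℕ))
      + (1 - a) ^ (6 : ℕ) * a ^ (1 : ℕ) * ((137 / 256) * b ^ (7 : ℕ)
        + (1711 / 512) * (1 - b) * b ^ (6 : ℕ)
        + (34591 / 4096) * (1 - b) ^ (2 : ℕ) * b ^ (5 : ℕ)
        + (90647 / 8192) * (1 - b) ^ (3 : ℕ) * b ^ (4 : ℕ)
        + (32895 / 4096) * (1 - b) ^ (4 : ℕ) * b ^ (3 : ℕ)
        + (53127 / 16384) * (1 - b) ^ (5 : ℕ) * b ^ (2 : ℕ)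
        + (11907 / 16384) * (1 - b) ^ (6 : ℕ) * b
        + (729 / 8192) * (1 - b) ^ (7 : ℕ))
      + (1 - a) ^ (7 : ℕ) * a ^ (0 : ℕ) * ((21 / 256) * b ^ (7 : ℕ)
        + (267 / 512) * (1 - b) * b ^ (6 : ℕ)
        + (5469 / 4096) * (1 - b) ^ (2 : ℕ) * b ^ (5 : ℕ)
        + (7197 / 4096) * (1 - b) ^ (3 : ℕ) * b ^ (4 : ℕ)
        + (20601 / 16384) * (1 - b) ^ (4 : ℕ) * b ^ (3 : ℕ)
        + (3915 / 8192) * (1 - b) ^ (5 : ℕ) * b ^ (2 : ℕ)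
        + (729 / 8192) * (1 - b) ^ (6 : ℕ) * b
        + (243 / 32768) * (1 - b) ^ (7 : ℕ))) := by
    unfold Fp Tt Nn; ring
  rw [key]
  generalize 1 - a = c at hu ⊢
  generalize 1 - b = e at hv ⊢
  positivity

set_option maxHeartbeats 2000000 in
theorem certF_ne (u v : ℝ) (hu : 0 ≤ u) (hu' : u ≤ 1) (hv : 0 ≤ v) (hv' : v ≤ 1) :
    0 ≤ Fp (u / 2) ((1 + v) / 2) (-(u / 2) ^ (3 : ℕ)) ((3 * ((1 + v) / 2) ^ (2 : ℕ) - 1) / 2) := by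
  obtain ⟨a, ha, rfl⟩ : ∃ a, 0 ≤ a ∧ u = 1 - a := ⟨1 - u, by linarith, by ring⟩
  obtain ⟨b, hb, rfl⟩ : ∃ b, 0 ≤ b ∧ v = 1 - b := ⟨1 - v, by linarith, by ring⟩
  have key : Fp ((1 - a) / 2) ((1 + (1 - b)) / 2) (-((1 - a) / 2) ^ (3 : ℕ)) ((3 * ((1 + (1 - b)) / 2) ^ (2 : ℕ) - 1) / 2) =
      (1 - a) ^ (2 : ℕ) * a ^ (0 : ℕ) * ((1 - b) ^ (0 : ℕ) * b ^ (1 : ℕ)) * ((1 - a) ^ (0 : ℕ) * a ^ (7 : ℕ) * ((21 / 256) * b ^ (8 : ℕ)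
        + (241 / 256) * (1 - b) * b ^ (7 : ℕ)
        + (553 / 128) * (1 - b) ^ (2 : ℕ) * b ^ (6 : ℕ)
        + (1349 / 128) * (1 - b) ^ (3 : ℕ) * b ^ (5 : ℕ)
        + (3837 / 256) * (1 - b) ^ (4 : ℕ) * b ^ (4 : ℕ)
        + (3225 / 256) * (1 - b) ^ (5 : ℕ) * b ^ (3 : ℕ)
        + (379 / 64) * (1 - b) ^ (6 : ℕ) * b ^ (2 : ℕ)
        + (83 / 64) * (1 - b) ^ (7 : ℕ) * b
        + (1 / 16) * (1 - b) ^ (8 : ℕ))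
      + (1 - a) ^ (1 : ℕ) * a ^ (6 : ℕ) * ((267 / 512) * b ^ (8 : ℕ)
        + (3095 / 512) * (1 - b) * b ^ (7 : ℕ)
        + (14263 / 512) * (1 - b) ^ (2 : ℕ) * b ^ (6 : ℕ)
        + (34839 / 512) * (1 - b) ^ (3 : ℕ) * b ^ (5 : ℕ)
        + (24771 / 256) * (1 - b) ^ (4 : ℕ) * b ^ (4 : ℕ)
        + (20813 / 256) * (1 - b) ^ (5 : ℕ) * b ^ (3 : ℕ)
        + (2449 / 64) * (1 - b) ^ (6 : ℕ) * b ^ (2 : ℕ)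
        + (541 / 64) * (1 - b) ^ (7 : ℕ) * b
        + (7 / 16) * (1 - b) ^ (8 : ℕ))
      + (1 - a) ^ (2 : ℕ) * a ^ (5 : ℕ) * ((5469 / 4096) * b ^ (8 : ℕ)
        + (64499 / 4096) * (1 - b) * b ^ (7 : ℕ)
        + (299623 / 4096) * (1 - b) ^ (2 : ℕ) * b ^ (6 : ℕ)
        + (734629 / 4096) * (1 - b) ^ (3 : ℕ) * b ^ (5 : ℕ)
        + (65421 / 256) * (1 - b) ^ (4 : ℕ) * b ^ (4 : ℕ)
        + (220359 / 1024) * (1 - b) ^ (5 : ℕ) * b ^ (3 : ℕ)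
        + (815 / 8) * (1 - b) ^ (6 : ℕ) * b ^ (2 : ℕ)
        + (2939 / 128) * (1 - b) ^ (7 : ℕ) * b
        + (43 / 32) * (1 - b) ^ (8 : ℕ))
      + (1 - a) ^ (3 : ℕ) * a ^ (4 : ℕ) * ((7197 / 4096) * b ^ (8 : ℕ)
        + (174709 / 8192) * (1 - b) * b ^ (7 : ℕ)
        + (822587 / 8192) * (1 - b) ^ (2 : ℕ) * b ^ (6 : ℕ)
        + (126933 / 512) * (1 - b) ^ (3 : ℕ) * b ^ (5 : ℕ)
        + (363353 / 1024) * (1 - b) ^ (4 : ℕ) * b ^ (4 : ℕ)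
        + (307649 / 1024) * (1 - b) ^ (5 : ℕ) * b ^ (3 : ℕ)
        + (73719 / 512) * (1 - b) ^ (6 : ℕ) * b ^ (2 : ℕ)
        + (8619 / 256) * (1 - b) ^ (7 : ℕ) * b
        + (151 / 64) * (1 - b) ^ (8 : ℕ))
      + (1 - a) ^ (4 : ℕ) * a ^ (3 : ℕ) * ((20601 / 16384) * b ^ (8 : ℕ)
        + (131067 / 8192) * (1 - b) * b ^ (7 : ℕ)
        + (1259889 / 16384) * (1 - b) ^ (2 : ℕ) * b ^ (6 : ℕ)
        + (3141955 / 16384) * (1 - b) ^ (3 : ℕ) * b ^ (5 : ℕ)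
        + (1131221 / 4096) * (1 - b) ^ (4 : ℕ) * b ^ (4 : ℕ)
        + (482661 / 2048) * (1 - b) ^ (5 : ℕ) * b ^ (3 : ℕ)
        + (117843 / 1024) * (1 - b) ^ (6 : ℕ) * b ^ (2 : ℕ)
        + (29133 / 1024) * (1 - b) ^ (7 : ℕ) * b
        + (635 / 256) * (1 - b) ^ (8 : ℕ))
      + (1 - a) ^ (5 : ℕ) * a ^ (2 : ℕ) * ((3915 / 8192) * b ^ (8 : ℕ)
        + (107469 / 16384) * (1 - b) * b ^ (7 : ℕ)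
        + (1061877 / 32768) * (1 - b) ^ (2 : ℕ) * b ^ (6 : ℕ)
        + (668613 / 8192) * (1 - b) ^ (3 : ℕ) * b ^ (5 : ℕ)
        + (483013 / 4096) * (1 - b) ^ (4 : ℕ) * b ^ (4 : ℕ)
        + (12949 / 128) * (1 - b) ^ (5 : ℕ) * b ^ (3 : ℕ)
        + (103429 / 2048) * (1 - b) ^ (6 : ℕ) * b ^ (2 : ℕ)
        + (1723 / 128) * (1 - b) ^ (7 : ℕ) * b
        + (191 / 128) * (1 - b) ^ (8 : ℕ))
      + (1 - a) ^ (6 : ℕ) * a ^ (1 : ℕ) * ((729 / 8192) * b ^ (8 : ℕ)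
        + (22275 / 16384) * (1 - b) * b ^ (7 : ℕ)
        + (112743 / 16384) * (1 - b) ^ (2 : ℕ) * b ^ (6 : ℕ)
        + (141453 / 8192) * (1 - b) ^ (3 : ℕ) * b ^ (5 : ℕ)
        + (201305 / 8192) * (1 - b) ^ (4 : ℕ) * b ^ (4 : ℕ)
        + (170661 / 8192) * (1 - b) ^ (5 : ℕ) * b ^ (3 : ℕ)
        + (21731 / 2048) * (1 - b) ^ (6 : ℕ) * b ^ (2 : ℕ)
        + (6477 / 2048) * (1 - b) ^ (7 : ℕ) * b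
        + (239 / 512) * (1 - b) ^ (8 : ℕ))
      + (1 - a) ^ (7 : ℕ) * a ^ (0 : ℕ) * ((243 / 32768) * b ^ (8 : ℕ)
        + (243 / 2048) * (1 - b) * b ^ (7 : ℕ)
        + (9531 / 16384) * (1 - b) ^ (2 : ℕ) * b ^ (6 : ℕ)
        + (5589 / 4096) * (1 - b) ^ (3 : ℕ) * b ^ (5 : ℕ)
        + (28995 / 16384) * (1 - b) ^ (4 : ℕ) * b ^ (4 : ℕ)
        + (5607 / 4096) * (1 - b) ^ (5 : ℕ) * b ^ (3 : ℕ)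
        + (2859 / 4096) * (1 - b) ^ (6 : ℕ) * b ^ (2 : ℕ)
        + (135 / 512) * (1 - b) ^ (7 : ℕ) * b
        + (15 / 256) * (1 - b) ^ (8 : ℕ))) := by
    unfold Fp Tt Nn; ring
  rw [key]
  generalize 1 - a = c at hu ⊢
  generalize 1 - b = e at hv ⊢
  positivity

set_option maxHeartbeats 2000000 in
theorem certF_ee (u v : ℝ) (hu : 0 ≤ u) (hu' : u ≤ 1) (hv : 0 ≤ v) (hv' : v ≤ 1) :
    0 ≤ Fp ((1 + u) / 2) ((1 + v) / 2) ((3 * ((1 + u) / 2) ^ (2 : ℕ) - 1) / 2) ((3 * ((1 + v) / 2) ^ (2 : ℕ) - 1) / 2) := by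
  obtain ⟨a, ha, rfl⟩ : ∃ a, 0 ≤ a ∧ u = 1 - a := ⟨1 - u, by linarith, by ring⟩
  obtain ⟨b, hb, rfl⟩ : ∃ b, 0 ≤ b ∧ v = 1 - b := ⟨1 - v, by linarith, by ring⟩
  have key : Fp ((1 + (1 - a)) / 2) ((1 + (1 - b)) / 2) ((3 * ((1 + (1 - a)) / 2) ^ (2 : ℕ) - 1) / 2) ((3 * ((1 + (1 - b)) / 2) ^ (2 : ℕ) - 1) / 2) =
      (1 - a) ^ (0 : ℕ) * a ^ (1 : ℕ) * ((1 - b) ^ (0 : ℕ) * b ^ (1 : ℕ)) * ((1 - a) ^ (0 : ℕ) * a ^ (8 : ℕ) * ((243 / 32768) * b ^ (8 : ℕ)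
        + (243 / 2048) * (1 - b) * b ^ (7 : ℕ)
        + (9531 / 16384) * (1 - b) ^ (2 : ℕ) * b ^ (6 : ℕ)
        + (5589 / 4096) * (1 - b) ^ (3 : ℕ) * b ^ (5 : ℕ)
        + (28995 / 16384) * (1 - b) ^ (4 : ℕ) * b ^ (4 : ℕ)
        + (5607 / 4096) * (1 - b) ^ (5 : ℕ) * b ^ (3 : ℕ)
        + (2859 / 4096) * (1 - b) ^ (6 : ℕ) * b ^ (2 : ℕ)
        + (135 / 512) * (1 - b) ^ (7 : ℕ) * b
        + (15 / 256) * (1 - b) ^ (8 : ℕ))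
      + (1 - a) ^ (1 : ℕ) * a ^ (7 : ℕ) * ((243 / 2048) * b ^ (8 : ℕ)
        + (26649 / 16384) * (1 - b) * b ^ (7 : ℕ)
        + (126423 / 16384) * (1 - b) ^ (2 : ℕ) * b ^ (6 : ℕ)
        + (149607 / 8192) * (1 - b) ^ (3 : ℕ) * b ^ (5 : ℕ)
        + (100349 / 4096) * (1 - b) ^ (4 : ℕ) * b ^ (4 : ℕ)
        + (161655 / 8192) * (1 - b) ^ (5 : ℕ) * b ^ (3 : ℕ)
        + (319 / 32) * (1 - b) ^ (6 : ℕ) * b ^ (2 : ℕ)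
        + (6699 / 2048) * (1 - b) ^ (7 : ℕ) * b
        + (301 / 512) * (1 - b) ^ (8 : ℕ))
      + (1 - a) ^ (2 : ℕ) * a ^ (6 : ℕ) * ((9531 / 16384) * b ^ (8 : ℕ)
        + (126423 / 16384) * (1 - b) * b ^ (7 : ℕ)
        + (1199109 / 32768) * (1 - b) ^ (2 : ℕ) * b ^ (6 : ℕ)
        + (720237 / 8192) * (1 - b) ^ (3 : ℕ) * b ^ (5 : ℕ)
        + (495597 / 4096) * (1 - b) ^ (4 : ℕ) * b ^ (4 : ℕ)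
        + (25667 / 256) * (1 - b) ^ (5 : ℕ) * b ^ (3 : ℕ)
        + (104429 / 2048) * (1 - b) ^ (6 : ℕ) * b ^ (2 : ℕ)
        + (1007 / 64) * (1 - b) ^ (7 : ℕ) * b
        + (315 / 128) * (1 - b) ^ (8 : ℕ))
      + (1 - a) ^ (3 : ℕ) * a ^ (5 : ℕ) * ((5589 / 4096) * b ^ (8 : ℕ)
        + (149607 / 8192) * (1 - b) * b ^ (7 : ℕ)
        + (720237 / 8192) * (1 - b) ^ (2 : ℕ) * b ^ (6 : ℕ)
        + (3532313 / 16384) * (1 - b) ^ (3 : ℕ) * b ^ (5 : ℕ)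
        + (1246085 / 4096) * (1 - b) ^ (4 : ℕ) * b ^ (4 : ℕ)
        + (529211 / 2048) * (1 - b) ^ (5 : ℕ) * b ^ (3 : ℕ)
        + (2121 / 16) * (1 - b) ^ (6 : ℕ) * b ^ (2 : ℕ)
        + (40267 / 1024) * (1 - b) ^ (7 : ℕ) * b
        + (1409 / 256) * (1 - b) ^ (8 : ℕ))
      + (1 - a) ^ (4 : ℕ) * a ^ (4 : ℕ) * ((28995 / 16384) * b ^ (8 : ℕ)
        + (100349 / 4096) * (1 - b) * b ^ (7 : ℕ)
        + (495597 / 4096) * (1 - b) ^ (2 : ℕ) * b ^ (6 : ℕ)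
        + (1246085 / 4096) * (1 - b) ^ (3 : ℕ) * b ^ (5 : ℕ)
        + (112677 / 256) * (1 - b) ^ (4 : ℕ) * b ^ (4 : ℕ)
        + (390649 / 1024) * (1 - b) ^ (5 : ℕ) * b ^ (3 : ℕ)
        + (50185 / 256) * (1 - b) ^ (6 : ℕ) * b ^ (2 : ℕ)
        + (3563 / 64) * (1 - b) ^ (7 : ℕ) * b
        + (111 / 16) * (1 - b) ^ (8 : ℕ))
      + (1 - a) ^ (5 : ℕ) * a ^ (3 : ℕ) * ((5607 / 4096) * b ^ (8 : ℕ)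
        + (161655 / 8192) * (1 - b) * b ^ (7 : ℕ)
        + (25667 / 256) * (1 - b) ^ (2 : ℕ) * b ^ (6 : ℕ)
        + (529211 / 2048) * (1 - b) ^ (3 : ℕ) * b ^ (5 : ℕ)
        + (390649 / 1024) * (1 - b) ^ (4 : ℕ) * b ^ (4 : ℕ)
        + (341607 / 1024) * (1 - b) ^ (5 : ℕ) * b ^ (3 : ℕ)
        + (43097 / 256) * (1 - b) ^ (6 : ℕ) * b ^ (2 : ℕ)
        + (11361 / 256) * (1 - b) ^ (7 : ℕ) * b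
        + (299 / 64) * (1 - b) ^ (8 : ℕ))
      + (1 - a) ^ (6 : ℕ) * a ^ (2 : ℕ) * ((2859 / 4096) * b ^ (8 : ℕ)
        + (319 / 32) * (1 - b) * b ^ (7 : ℕ)
        + (104429 / 2048) * (1 - b) ^ (2 : ℕ) * b ^ (6 : ℕ)
        + (2121 / 16) * (1 - b) ^ (3 : ℕ) * b ^ (5 : ℕ)
        + (50185 / 256) * (1 - b) ^ (4 : ℕ) * b ^ (4 : ℕ)
        + (43097 / 256) * (1 - b) ^ (5 : ℕ) * b ^ (3 : ℕ)
        + (10219 / 128) * (1 - b) ^ (6 : ℕ) * b ^ (2 : ℕ)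
        + (1149 / 64) * (1 - b) ^ (7 : ℕ) * b
        + (21 / 16) * (1 - b) ^ (8 : ℕ))
      + (1 - a) ^ (7 : ℕ) * a ^ (1 : ℕ) * ((135 / 512) * b ^ (8 : ℕ)
        + (6699 / 2048) * (1 - b) * b ^ (7 : ℕ)
        + (1007 / 64) * (1 - b) ^ (2 : ℕ) * b ^ (6 : ℕ)
        + (40267 / 1024) * (1 - b) ^ (3 : ℕ) * b ^ (5 : ℕ)
        + (3563 / 64) * (1 - b) ^ (4 : ℕ) * b ^ (4 : ℕ)
        + (11361 / 256) * (1 - b) ^ (5 : ℕ) * b ^ (3 : ℕ)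
        + (1149 / 64) * (1 - b) ^ (6 : ℕ) * b ^ (2 : ℕ)
        + (21 / 8) * (1 - b) ^ (7 : ℕ) * b)
      + (1 - a) ^ (8 : ℕ) * a ^ (0 : ℕ) * ((15 / 256) * b ^ (8 : ℕ)
        + (301 / 512) * (1 - b) * b ^ (7 : ℕ)
        + (315 / 128) * (1 - b) ^ (2 : ℕ) * b ^ (6 : ℕ)
        + (1409 / 256) * (1 - b) ^ (3 : ℕ) * b ^ (5 : ℕ)
        + (111 / 16) * (1 - b) ^ (4 : ℕ) * b ^ (4 : ℕ)
        + (299 / 64) * (1 - b) ^ (5 : ℕ) * b ^ (3 : ℕ)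
        + (21 / 16) * (1 - b) ^ (6 : ℕ) * b ^ (2 : ℕ))) := by
    unfold Fp Tt Nn; ring
  rw [key]
  generalize 1 - a = c at hu ⊢
  generalize 1 - b = e at hv ⊢
  positivity

end Vale.P154.Q3
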