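import Vale.Agent.P154.Q3Poly

/-! Generated Bernstein-positivity certificates. -/

namespace Vale.P154.Q3

set_option maxHeartbeats 2000000 in
theorem certG_hh (u v : ℝ) (hu : 0 ≤ u) (hu' : u ≤ 1) (hv : 0 ≤ v) (hv' : v ≤ 1) :
    0 ≤ Gp u v (u ^ (3 : ℕ)) (v ^ (3 : ℕ)) (u ^ (3 : ℕ)) := by
  obtain ⟨a, ha, rfl⟩ : ∃ a, 0 ≤ a ∧ u = 1 - a := ⟨1 - u, by linarith, by ring⟩
  obtain ⟨b, hb, rfl⟩ : ∃ b, 0 ≤ b ∧ v = 1 - b := ⟨1 - v, by linarith, by ring⟩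
  have key : Gp (1 - a) (1 - b) ((1 - a) ^ (3 : ℕ)) ((1 - b) ^ (3 : ℕ)) ((1 - a) ^ (3 : ℕ)) =
      (1 - a) ^ (2 : ℕ) * a ^ (2 : ℕ) * ((1 - b) ^ (2 : ℕ) * b ^ (2 : ℕ)) * ((1 - a) ^ (0 : ℕ) * a ^ (6 : ℕ) * (2 * b ^ (6 : ℕ)
        + 10 * (1 - b) * b ^ (5 : ℕ)
        + 20 * (1 - b) ^ (2 : ℕ) * b ^ (4 : ℕ)
        + 24 * (1 - b) ^ (3 : ℕ) * b ^ (3 : ℕ)
        + 22 * (1 - b) ^ (4 : ℕ) * b ^ (2 : ℕ)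
        + 14 * (1 - b) ^ (5 : ℕ) * b
        + 4 * (1 - b) ^ (6 : ℕ))
      + (1 - a) ^ (1 : ℕ) * a ^ (5 : ℕ) * (10 * b ^ (6 : ℕ)
        + 46 * (1 - b) * b ^ (5 : ℕ)
        + 87 * (1 - b) ^ (2 : ℕ) * b ^ (4 : ℕ)
        + 115 * (1 - b) ^ (3 : ℕ) * b ^ (3 : ℕ)
        + 129 * (1 - b) ^ (4 : ℕ) * b ^ (2 : ℕ)
        + 91 * (1 - b) ^ (5 : ℕ) * b
        + 26 * (1 - b) ^ (6 : ℕ))
      + (1 - a) ^ (2 : ℕ) * a ^ (4 : ℕ) * (20 * b ^ (6 : ℕ)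
        + 87 * (1 - b) * b ^ (5 : ℕ)
        + 168 * (1 - b) ^ (2 : ℕ) * b ^ (4 : ℕ)
        + 263 * (1 - b) ^ (3 : ℕ) * b ^ (3 : ℕ)
        + 327 * (1 - b) ^ (4 : ℕ) * b ^ (2 : ℕ)
        + 222 * (1 - b) ^ (5 : ℕ) * b
        + 57 * (1 - b) ^ (6 : ℕ))
      + (1 - a) ^ (3 : ℕ) * a ^ (3 : ℕ) * (24 * b ^ (6 : ℕ)
        + 115 * (1 - b) * b ^ (5 : ℕ)
        + 263 * (1 - b) ^ (2 : ℕ) * b ^ (4 : ℕ)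
        + 430 * (1 - b) ^ (3 : ℕ) * b ^ (3 : ℕ)
        + 457 * (1 - b) ^ (4 : ℕ) * b ^ (2 : ℕ)
        + 248 * (1 - b) ^ (5 : ℕ) * b
        + 49 * (1 - b) ^ (6 : ℕ))
      + (1 - a) ^ (4 : ℕ) * a ^ (2 : ℕ) * (22 * b ^ (6 : ℕ)
        + 129 * (1 - b) * b ^ (5 : ℕ)
        + 327 * (1 - b) ^ (2 : ℕ) * b ^ (4 : ℕ)
        + 457 * (1 - b) ^ (3 : ℕ) * b ^ (3 : ℕ)
        + 346 * (1 - b) ^ (4 : ℕ) * b ^ (2 : ℕ)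
        + 123 * (1 - b) ^ (5 : ℕ) * b
        + 12 * (1 - b) ^ (6 : ℕ))
      + (1 - a) ^ (5 : ℕ) * a ^ (1 : ℕ) * (14 * b ^ (6 : ℕ)
        + 91 * (1 - b) * b ^ (5 : ℕ)
        + 222 * (1 - b) ^ (2 : ℕ) * b ^ (4 : ℕ)
        + 248 * (1 - b) ^ (3 : ℕ) * b ^ (3 : ℕ)
        + 123 * (1 - b) ^ (4 : ℕ) * b ^ (2 : ℕ)
        + 24 * (1 - b) ^ (5 : ℕ) * b)
      + (1 - a) ^ (6 : ℕ) * a ^ (0 : ℕ) * (4 * b ^ (6 : ℕ)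
        + 26 * (1 - b) * b ^ (5 : ℕ)
        + 57 * (1 - b) ^ (2 : ℕ) * b ^ (4 : ℕ)
        + 49 * (1 - b) ^ (3 : ℕ) * b ^ (3 : ℕ)
        + 12 * (1 - b) ^ (4 : ℕ) * b ^ (2 : ℕ))) := by
    unfold Gp Bb QQ Nn; ring
  rw [key]
  generalize 1 - a = c at hu ⊢
  generalize 1 - b = e at hv ⊢
  positivity

set_option maxHeartbeats 2000000 in
theorem certG_hn (u v : ℝ) (hu : 0 ≤ u) (hu' : u ≤ 1) (hv : 0 ≤ v) (hv' : v ≤ 1) :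
    0 ≤ Gp u (v / 2) (u ^ (3 : ℕ)) (-(v / 2) ^ (3 : ℕ)) (u ^ (3 : ℕ)) := by
  obtain ⟨a, ha, rfl⟩ : ∃ a, 0 ≤ a ∧ u = 1 - a := ⟨1 - u, by linarith, by ring⟩
  obtain ⟨b, hb, rfl⟩ : ∃ b, 0 ≤ b ∧ v = 1 - b := ⟨1 - v, by linarith, by ring⟩
  have key : Gp (1 - a) ((1 - b) / 2) ((1 - a) ^ (3 : ℕ)) (-((1 - b) / 2) ^ (3 : ℕ)) ((1 - a) ^ (3 : ℕ)) =
      (1 - a) ^ (2 : ℕ) * a ^ (2 : ℕ) * ((1 - b) ^ (2 : ℕ) * b ^ (0 : ℕ)) * ((1 - a) ^ (0 : ℕ) * a ^ (7 : ℕ) * ((1 / 2) * b ^ (8 : ℕ)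
        + (17 / 4) * (1 - b) * b ^ (7 : ℕ)
        + (125 / 8) * (1 - b) ^ (2 : ℕ) * b ^ (6 : ℕ)
        + (517 / 16) * (1 - b) ^ (3 : ℕ) * b ^ (5 : ℕ)
        + (655 / 16) * (1 - b) ^ (4 : ℕ) * b ^ (4 : ℕ)
        + (1037 / 32) * (1 - b) ^ (5 : ℕ) * b ^ (3 : ℕ)
        + (499 / 32) * (1 - b) ^ (6 : ℕ) * b ^ (2 : ℕ)
        + (133 / 32) * (1 - b) ^ (7 : ℕ) * b
        + (15 / 32) * (1 - b) ^ (8 : ℕ))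
      + (1 - a) ^ (1 : ℕ) * a ^ (6 : ℕ) * (3 * b ^ (8 : ℕ)
        + 25 * (1 - b) * b ^ (7 : ℕ)
        + (1451 / 16) * (1 - b) ^ (2 : ℕ) * b ^ (6 : ℕ)
        + (5957 / 32) * (1 - b) ^ (3 : ℕ) * b ^ (5 : ℕ)
        + (15059 / 64) * (1 - b) ^ (4 : ℕ) * b ^ (4 : ℕ)
        + (23879 / 128) * (1 - b) ^ (5 : ℕ) * b ^ (3 : ℕ)
        + (11539 / 128) * (1 - b) ^ (6 : ℕ) * b ^ (2 : ℕ)
        + (3093 / 128) * (1 - b) ^ (7 : ℕ) * b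
        + (351 / 128) * (1 - b) ^ (8 : ℕ))
      + (1 - a) ^ (2 : ℕ) * a ^ (5 : ℕ) * ((15 / 2) * b ^ (8 : ℕ)
        + (479 / 8) * (1 - b) * b ^ (7 : ℕ)
        + (839 / 4) * (1 - b) ^ (2 : ℕ) * b ^ (6 : ℕ)
        + (13437 / 32) * (1 - b) ^ (3 : ℕ) * b ^ (5 : ℕ)
        + (16731 / 32) * (1 - b) ^ (4 : ℕ) * b ^ (4 : ℕ)
        + 412 * (1 - b) ^ (5 : ℕ) * b ^ (3 : ℕ)
        + (12751 / 64) * (1 - b) ^ (6 : ℕ) * b ^ (2 : ℕ)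
        + (859 / 16) * (1 - b) ^ (7 : ℕ) * b
        + (393 / 64) * (1 - b) ^ (8 : ℕ))
      + (1 - a) ^ (3 : ℕ) * a ^ (4 : ℕ) * (11 * b ^ (8 : ℕ)
        + (331 / 4) * (1 - b) * b ^ (7 : ℕ)
        + (4377 / 16) * (1 - b) ^ (2 : ℕ) * b ^ (6 : ℕ)
        + (16657 / 32) * (1 - b) ^ (3 : ℕ) * b ^ (5 : ℕ)
        + (4985 / 8) * (1 - b) ^ (4 : ℕ) * b ^ (4 : ℕ)
        + (30609 / 64) * (1 - b) ^ (5 : ℕ) * b ^ (3 : ℕ)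
        + (58353 / 256) * (1 - b) ^ (6 : ℕ) * b ^ (2 : ℕ)
        + (31263 / 512) * (1 - b) ^ (7 : ℕ) * b
        + (3573 / 512) * (1 - b) ^ (8 : ℕ))
      + (1 - a) ^ (4 : ℕ) * a ^ (3 : ℕ) * ((23 / 2) * b ^ (8 : ℕ)
        + 84 * (1 - b) * b ^ (7 : ℕ)
        + (2135 / 8) * (1 - b) ^ (2 : ℕ) * b ^ (6 : ℕ)
        + (15481 / 32) * (1 - b) ^ (3 : ℕ) * b ^ (5 : ℕ)
        + (17561 / 32) * (1 - b) ^ (4 : ℕ) * b ^ (4 : ℕ)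
        + (51025 / 128) * (1 - b) ^ (5 : ℕ) * b ^ (3 : ℕ)
        + (5765 / 32) * (1 - b) ^ (6 : ℕ) * b ^ (2 : ℕ)
        + (11749 / 256) * (1 - b) ^ (7 : ℕ) * b
        + (2559 / 512) * (1 - b) ^ (8 : ℕ))
      + (1 - a) ^ (5 : ℕ) * a ^ (2 : ℕ) * (9 * b ^ (8 : ℕ)
        + (135 / 2) * (1 - b) * b ^ (7 : ℕ)
        + (3481 / 16) * (1 - b) ^ (2 : ℕ) * b ^ (6 : ℕ)
        + (12579 / 32) * (1 - b) ^ (3 : ℕ) * b ^ (5 : ℕ)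
        + (27805 / 64) * (1 - b) ^ (4 : ℕ) * b ^ (4 : ℕ)
        + (38341 / 128) * (1 - b) ^ (5 : ℕ) * b ^ (3 : ℕ)
        + (7995 / 64) * (1 - b) ^ (6 : ℕ) * b ^ (2 : ℕ)
        + (1821 / 64) * (1 - b) ^ (7 : ℕ) * b
        + (1359 / 512) * (1 - b) ^ (8 : ℕ))
      + (1 - a) ^ (6 : ℕ) * a ^ (1 : ℕ) * ((9 / 2) * b ^ (8 : ℕ)
        + (279 / 8) * (1 - b) * b ^ (7 : ℕ)
        + (459 / 4) * (1 - b) ^ (2 : ℕ) * b ^ (6 : ℕ)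
        + (3331 / 16) * (1 - b) ^ (3 : ℕ) * b ^ (5 : ℕ)
        + (7233 / 32) * (1 - b) ^ (4 : ℕ) * b ^ (4 : ℕ)
        + (19021 / 128) * (1 - b) ^ (5 : ℕ) * b ^ (3 : ℕ)
        + (7235 / 128) * (1 - b) ^ (6 : ℕ) * b ^ (2 : ℕ)
        + (2767 / 256) * (1 - b) ^ (7 : ℕ) * b
        + (345 / 512) * (1 - b) ^ (8 : ℕ))
      + (1 - a) ^ (7 : ℕ) * a ^ (0 : ℕ) * (1 * b ^ (8 : ℕ)
        + (31 / 4) * (1 - b) * b ^ (7 : ℕ)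
        + (403 / 16) * (1 - b) ^ (2 : ℕ) * b ^ (6 : ℕ)
        + (1421 / 32) * (1 - b) ^ (3 : ℕ) * b ^ (5 : ℕ)
        + (1465 / 32) * (1 - b) ^ (4 : ℕ) * b ^ (4 : ℕ)
        + (441 / 16) * (1 - b) ^ (5 : ℕ) * b ^ (3 : ℕ)
        + (2295 / 256) * (1 - b) ^ (6 : ℕ) * b ^ (2 : ℕ)
        + (621 / 512) * (1 - b) ^ (7 : ℕ) * b)) := by
    unfold Gp Bb QQ Nn; ring
  rw [key]
  generalize 1 - a = c at hu ⊢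
  generalize 1 - b = e at hv ⊢
  positivity

set_option maxHeartbeats 2000000 in
theorem certG_he (u v : ℝ) (hu : 0 ≤ u) (hu' : u ≤ 1) (hv : 0 ≤ v) (hv' : v ≤ 1) :
    0 ≤ Gp u ((1 + v) / 2) (u ^ (3 : ℕ)) ((3 * ((1 + v) / 2) ^ (2 : ℕ) - 1) / 2) (u ^ (3 : ℕ)) := by
  obtain ⟨a, ha, rfl⟩ : ∃ a, 0 ≤ a ∧ u = 1 - a := ⟨1 - u, by linarith, by ring⟩
  obtain ⟨b, hb, rfl⟩ : ∃ b, 0 ≤ b ∧ v = 1 - b := ⟨1 - v, by linarith, by ring⟩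
  have key : Gp (1 - a) ((1 + (1 - b)) / 2) ((1 - a) ^ (3 : ℕ)) ((3 * ((1 + (1 - b)) / 2) ^ (2 : ℕ) - 1) / 2) ((1 - a) ^ (3 : ℕ)) =
      (1 - a) ^ (2 : ℕ) * a ^ (3 : ℕ) * ((1 - b) ^ (0 : ℕ) * b ^ (2 : ℕ)) * ((1 - a) ^ (0 : ℕ) * a ^ (6 : ℕ) * ((15 / 32) * b ^ (7 : ℕ)
        + (49 / 16) * (1 - b) * b ^ (6 : ℕ)
        + (275 / 32) * (1 - b) ^ (2 : ℕ) * b ^ (5 : ℕ)
        + (111 / 8) * (1 - b) ^ (3 : ℕ) * b ^ (4 : ℕ)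
        + (117 / 8) * (1 - b) ^ (4 : ℕ) * b ^ (3 : ℕ)
        + (21 / 2) * (1 - b) ^ (5 : ℕ) * b ^ (2 : ℕ)
        + (19 / 4) * (1 - b) ^ (6 : ℕ) * b
        + 1 * (1 - b) ^ (7 : ℕ))
      + (1 - a) ^ (1 : ℕ) * a ^ (5 : ℕ) * ((351 / 128) * b ^ (7 : ℕ)
        + (1167 / 64) * (1 - b) * b ^ (6 : ℕ)
        + (6775 / 128) * (1 - b) ^ (2 : ℕ) * b ^ (5 : ℕ)
        + (721 / 8) * (1 - b) ^ (3 : ℕ) * b ^ (4 : ℕ)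
        + (1621 / 16) * (1 - b) ^ (4 : ℕ) * b ^ (3 : ℕ)
        + (307 / 4) * (1 - b) ^ (5 : ℕ) * b ^ (2 : ℕ)
        + (285 / 8) * (1 - b) ^ (6 : ℕ) * b
        + (15 / 2) * (1 - b) ^ (7 : ℕ))
      + (1 - a) ^ (2 : ℕ) * a ^ (4 : ℕ) * ((393 / 64) * b ^ (7 : ℕ)
        + (1363 / 32) * (1 - b) * b ^ (6 : ℕ)
        + (8399 / 64) * (1 - b) ^ (2 : ℕ) * b ^ (5 : ℕ)
        + (957 / 4) * (1 - b) ^ (3 : ℕ) * b ^ (4 : ℕ)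
        + (9105 / 32) * (1 - b) ^ (4 : ℕ) * b ^ (3 : ℕ)
        + (1767 / 8) * (1 - b) ^ (5 : ℕ) * b ^ (2 : ℕ)
        + (1625 / 16) * (1 - b) ^ (6 : ℕ) * b
        + (83 / 4) * (1 - b) ^ (7 : ℕ))
      + (1 - a) ^ (3 : ℕ) * a ^ (3 : ℕ) * ((3573 / 512) * b ^ (7 : ℕ)
        + (417 / 8) * (1 - b) * b ^ (6 : ℕ)
        + (11115 / 64) * (1 - b) ^ (2 : ℕ) * b ^ (5 : ℕ)
        + (5391 / 16) * (1 - b) ^ (3 : ℕ) * b ^ (4 : ℕ)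
        + (13165 / 32) * (1 - b) ^ (4 : ℕ) * b ^ (3 : ℕ)
        + (2515 / 8) * (1 - b) ^ (5 : ℕ) * b ^ (2 : ℕ)
        + (1103 / 8) * (1 - b) ^ (6 : ℕ) * b
        + (53 / 2) * (1 - b) ^ (7 : ℕ))
      + (1 - a) ^ (4 : ℕ) * a ^ (2 : ℕ) * ((2559 / 512) * b ^ (7 : ℕ)
        + (10181 / 256) * (1 - b) * b ^ (6 : ℕ)
        + (17671 / 128) * (1 - b) ^ (2 : ℕ) * b ^ (5 : ℕ)
        + (4309 / 16) * (1 - b) ^ (3 : ℕ) * b ^ (4 : ℕ)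
        + (20297 / 64) * (1 - b) ^ (4 : ℕ) * b ^ (3 : ℕ)
        + (3597 / 16) * (1 - b) ^ (5 : ℕ) * b ^ (2 : ℕ)
        + (1423 / 16) * (1 - b) ^ (6 : ℕ) * b
        + (61 / 4) * (1 - b) ^ (7 : ℕ))
      + (1 - a) ^ (5 : ℕ) * a ^ (1 : ℕ) * ((1359 / 512) * b ^ (7 : ℕ)
        + (2595 / 128) * (1 - b) * b ^ (6 : ℕ)
        + (4215 / 64) * (1 - b) ^ (2 : ℕ) * b ^ (5 : ℕ)
        + (7475 / 64) * (1 - b) ^ (3 : ℕ) * b ^ (4 : ℕ)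
        + (7733 / 64) * (1 - b) ^ (4 : ℕ) * b ^ (3 : ℕ)
        + (2309 / 32) * (1 - b) ^ (5 : ℕ) * b ^ (2 : ℕ)
        + (183 / 8) * (1 - b) ^ (6 : ℕ) * b
        + 3 * (1 - b) ^ (7 : ℕ))
      + (1 - a) ^ (6 : ℕ) * a ^ (0 : ℕ) * ((345 / 512) * b ^ (7 : ℕ)
        + (1217 / 256) * (1 - b) * b ^ (6 : ℕ)
        + (893 / 64) * (1 - b) ^ (2 : ℕ) * b ^ (5 : ℕ)
        + (347 / 16) * (1 - b) ^ (3 : ℕ) * b ^ (4 : ℕ)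
        + (299 / 16) * (1 - b) ^ (4 : ℕ) * b ^ (3 : ℕ)
        + (67 / 8) * (1 - b) ^ (5 : ℕ) * b ^ (2 : ℕ)
        + (3 / 2) * (1 - b) ^ (6 : ℕ) * b)) := by
    unfold Gp Bb QQ Nn; ring
  rw [key]
  generalize 1 - a = c at hu ⊢
  generalize 1 - b = e at hv ⊢
  positivity

set_option maxHeartbeats 2000000 in
theorem certG_nn (u v : ℝ) (hu : 0 ≤ u) (hu' : u ≤ 1) (hv : 0 ≤ v) (hv' : v ≤ 1) :
    0 ≤ Gp (u / 2) (v / 2) (-(u / 2) ^ (3 : ℕ)) (-(v / 2) ^ (3 : ℕ)) (-(u / 2) ^ (3 : ℕ)) := by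
  obtain ⟨a, ha, rfl⟩ : ∃ a, 0 ≤ a ∧ u = 1 - a := ⟨1 - u, by linarith, by ring⟩
  obtain ⟨b, hb, rfl⟩ : ∃ b, 0 ≤ b ∧ v = 1 - b := ⟨1 - v, by linarith, by ring⟩
  have key : Gp ((1 - a) / 2) ((1 - b) / 2) (-((1 - a) / 2) ^ (3 : ℕ)) (-((1 - b) / 2) ^ (3 : ℕ)) (-((1 - a) / 2) ^ (3 : ℕ)) =
      (1 - a) ^ (2 : ℕ) * a ^ (0 : ℕ) * ((1 - b) ^ (2 : ℕ) * b ^ (0 : ℕ)) * ((1 - a) ^ (0 : ℕ) * a ^ (9 : ℕ) * ((1 / 8) * b ^ (9 : ℕ)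
        + (19 / 16) * (1 - b) * b ^ (8 : ℕ)
        + (159 / 32) * (1 - b) ^ (2 : ℕ) * b ^ (7 : ℕ)
        + (767 / 64) * (1 - b) ^ (3 : ℕ) * b ^ (6 : ℕ)
        + (293 / 16) * (1 - b) ^ (4 : ℕ) * b ^ (5 : ℕ)
        + (2347 / 128) * (1 - b) ^ (5 : ℕ) * b ^ (4 : ℕ)
        + 12 * (1 - b) ^ (6 : ℕ) * b ^ (3 : ℕ)
        + (79 / 16) * (1 - b) ^ (7 : ℕ) * b ^ (2 : ℕ)
        + (37 / 32) * (1 - b) ^ (8 : ℕ) * b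
        + (15 / 128) * (1 - b) ^ (9 : ℕ))
      + (1 - a) ^ (1 : ℕ) * a ^ (8 : ℕ) * ((19 / 16) * b ^ (9 : ℕ)
        + (351 / 32) * (1 - b) * b ^ (8 : ℕ)
        + (5731 / 128) * (1 - b) ^ (2 : ℕ) * b ^ (7 : ℕ)
        + (27067 / 256) * (1 - b) ^ (3 : ℕ) * b ^ (6 : ℕ)
        + (81267 / 512) * (1 - b) ^ (4 : ℕ) * b ^ (5 : ℕ)
        + (160375 / 1024) * (1 - b) ^ (5 : ℕ) * b ^ (4 : ℕ)
        + (51847 / 512) * (1 - b) ^ (6 : ℕ) * b ^ (3 : ℕ)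
        + (21119 / 512) * (1 - b) ^ (7 : ℕ) * b ^ (2 : ℕ)
        + (613 / 64) * (1 - b) ^ (8 : ℕ) * b
        + (987 / 1024) * (1 - b) ^ (9 : ℕ))
      + (1 - a) ^ (2 : ℕ) * a ^ (7 : ℕ) * ((159 / 32) * b ^ (9 : ℕ)
        + (5731 / 128) * (1 - b) * b ^ (8 : ℕ)
        + (1429 / 8) * (1 - b) ^ (2 : ℕ) * b ^ (7 : ℕ)
        + (211611 / 512) * (1 - b) ^ (3 : ℕ) * b ^ (6 : ℕ)
        + (312121 / 512) * (1 - b) ^ (4 : ℕ) * b ^ (5 : ℕ)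
        + (606791 / 1024) * (1 - b) ^ (5 : ℕ) * b ^ (4 : ℕ)
        + (387409 / 1024) * (1 - b) ^ (6 : ℕ) * b ^ (3 : ℕ)
        + (156131 / 1024) * (1 - b) ^ (7 : ℕ) * b ^ (2 : ℕ)
        + (35929 / 1024) * (1 - b) ^ (8 : ℕ) * b
        + (897 / 256) * (1 - b) ^ (9 : ℕ))
      + (1 - a) ^ (3 : ℕ) * a ^ (6 : ℕ) * ((767 / 64) * b ^ (9 : ℕ)
        + (27067 / 256) * (1 - b) * b ^ (8 : ℕ)
        + (211611 / 512) * (1 - b) ^ (2 : ℕ) * b ^ (7 : ℕ)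
        + (480491 / 512) * (1 - b) ^ (3 : ℕ) * b ^ (6 : ℕ)
        + (696899 / 512) * (1 - b) ^ (4 : ℕ) * b ^ (5 : ℕ)
        + (667563 / 512) * (1 - b) ^ (5 : ℕ) * b ^ (4 : ℕ)
        + (6733799 / 8192) * (1 - b) ^ (6 : ℕ) * b ^ (3 : ℕ)
        + (5369023 / 16384) * (1 - b) ^ (7 : ℕ) * b ^ (2 : ℕ)
        + (306005 / 4096) * (1 - b) ^ (8 : ℕ) * b
        + (121251 / 16384) * (1 - b) ^ (9 : ℕ))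
      + (1 - a) ^ (4 : ℕ) * a ^ (5 : ℕ) * ((293 / 16) * b ^ (9 : ℕ)
        + (81267 / 512) * (1 - b) * b ^ (8 : ℕ)
        + (312121 / 512) * (1 - b) ^ (2 : ℕ) * b ^ (7 : ℕ)
        + (696899 / 512) * (1 - b) ^ (3 : ℕ) * b ^ (6 : ℕ)
        + (3981199 / 2048) * (1 - b) ^ (4 : ℕ) * b ^ (5 : ℕ)
        + (15045623 / 8192) * (1 - b) ^ (5 : ℕ) * b ^ (4 : ℕ)
        + (9370995 / 8192) * (1 - b) ^ (6 : ℕ) * b ^ (3 : ℕ)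
        + (7392461 / 16384) * (1 - b) ^ (7 : ℕ) * b ^ (2 : ℕ)
        + (3339085 / 32768) * (1 - b) ^ (8 : ℕ) * b
        + (82005 / 8192) * (1 - b) ^ (9 : ℕ))
      + (1 - a) ^ (5 : ℕ) * a ^ (4 : ℕ) * ((2347 / 128) * b ^ (9 : ℕ)
        + (160375 / 1024) * (1 - b) * b ^ (8 : ℕ)
        + (606791 / 1024) * (1 - b) ^ (2 : ℕ) * b ^ (7 : ℕ)
        + (667563 / 512) * (1 - b) ^ (3 : ℕ) * b ^ (6 : ℕ)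
        + (15045623 / 8192) * (1 - b) ^ (4 : ℕ) * b ^ (5 : ℕ)
        + (3509251 / 2048) * (1 - b) ^ (5 : ℕ) * b ^ (4 : ℕ)
        + (34576527 / 32768) * (1 - b) ^ (6 : ℕ) * b ^ (3 : ℕ)
        + (26999157 / 65536) * (1 - b) ^ (7 : ℕ) * b ^ (2 : ℕ)
        + (3020683 / 32768) * (1 - b) ^ (8 : ℕ) * b
        + (294225 / 32768) * (1 - b) ^ (9 : ℕ))
      + (1 - a) ^ (6 : ℕ) * a ^ (3 : ℕ) * (12 * b ^ (9 : ℕ)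
        + (51847 / 512) * (1 - b) * b ^ (8 : ℕ)
        + (387409 / 1024) * (1 - b) ^ (2 : ℕ) * b ^ (7 : ℕ)
        + (6733799 / 8192) * (1 - b) ^ (3 : ℕ) * b ^ (6 : ℕ)
        + (9370995 / 8192) * (1 - b) ^ (4 : ℕ) * b ^ (5 : ℕ)
        + (34576527 / 32768) * (1 - b) ^ (5 : ℕ) * b ^ (4 : ℕ)
        + (10535447 / 16384) * (1 - b) ^ (6 : ℕ) * b ^ (3 : ℕ)
        + (16294827 / 65536) * (1 - b) ^ (7 : ℕ) * b ^ (2 : ℕ)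
        + (7226379 / 131072) * (1 - b) ^ (8 : ℕ) * b
        + (697761 / 131072) * (1 - b) ^ (9 : ℕ))
      + (1 - a) ^ (7 : ℕ) * a ^ (2 : ℕ) * ((79 / 16) * b ^ (9 : ℕ)
        + (21119 / 512) * (1 - b) * b ^ (8 : ℕ)
        + (156131 / 1024) * (1 - b) ^ (2 : ℕ) * b ^ (7 : ℕ)
        + (5369023 / 16384) * (1 - b) ^ (3 : ℕ) * b ^ (6 : ℕ)
        + (7392461 / 16384) * (1 - b) ^ (4 : ℕ) * b ^ (5 : ℕ)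
        + (26999157 / 65536) * (1 - b) ^ (5 : ℕ) * b ^ (4 : ℕ)
        + (16294827 / 65536) * (1 - b) ^ (6 : ℕ) * b ^ (3 : ℕ)
        + (1560695 / 16384) * (1 - b) ^ (7 : ℕ) * b ^ (2 : ℕ)
        + (2743731 / 131072) * (1 - b) ^ (8 : ℕ) * b
        + (262539 / 131072) * (1 - b) ^ (9 : ℕ))
      + (1 - a) ^ (8 : ℕ) * a ^ (1 : ℕ) * ((37 / 32) * b ^ (9 : ℕ)
        + (613 / 64) * (1 - b) * b ^ (8 : ℕ)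
        + (35929 / 1024) * (1 - b) ^ (2 : ℕ) * b ^ (7 : ℕ)
        + (306005 / 4096) * (1 - b) ^ (3 : ℕ) * b ^ (6 : ℕ)
        + (3339085 / 32768) * (1 - b) ^ (4 : ℕ) * b ^ (5 : ℕ)
        + (3020683 / 32768) * (1 - b) ^ (5 : ℕ) * b ^ (4 : ℕ)
        + (7226379 / 131072) * (1 - b) ^ (6 : ℕ) * b ^ (3 : ℕ)
        + (2743731 / 131072) * (1 - b) ^ (7 : ℕ) * b ^ (2 : ℕ)
        + (298729 / 65536) * (1 - b) ^ (8 : ℕ) * b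
        + (28311 / 65536) * (1 - b) ^ (9 : ℕ))
      + (1 - a) ^ (9 : ℕ) * a ^ (0 : ℕ) * ((15 / 128) * b ^ (9 : ℕ)
        + (987 / 1024) * (1 - b) * b ^ (8 : ℕ)
        + (897 / 256) * (1 - b) ^ (2 : ℕ) * b ^ (7 : ℕ)
        + (121251 / 16384) * (1 - b) ^ (3 : ℕ) * b ^ (6 : ℕ)
        + (82005 / 8192) * (1 - b) ^ (4 : ℕ) * b ^ (5 : ℕ)
        + (294225 / 32768) * (1 - b) ^ (5 : ℕ) * b ^ (4 : ℕ)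
        + (697761 / 131072) * (1 - b) ^ (6 : ℕ) * b ^ (3 : ℕ)
        + (262539 / 131072) * (1 - b) ^ (7 : ℕ) * b ^ (2 : ℕ)
        + (28311 / 65536) * (1 - b) ^ (8 : ℕ) * b
        + (2655 / 65536) * (1 - b) ^ (9 : ℕ))) := by
    unfold Gp Bb QQ Nn; ring
  rw [key]
  generalize 1 - a = c at hu ⊢
  generalize 1 - b = e at hv ⊢
  positivity

set_option maxHeartbeats 2000000 in
theorem certG_ne (u v : ℝ) (hu : 0 ≤ u) (hu' : u ≤ 1) (hv : 0 ≤ v) (hv' : v ≤ 1) :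
    0 ≤ Gp (u / 2) ((1 + v) / 2) (-(u / 2) ^ (3 : ℕ)) ((3 * ((1 + v) / 2) ^ (2 : ℕ) - 1) / 2) (-(u / 2) ^ (3 : ℕ)) := by
  obtain ⟨a, ha, rfl⟩ : ∃ a, 0 ≤ a ∧ u = 1 - a := ⟨1 - u, by linarith, by ring⟩
  obtain ⟨b, hb, rfl⟩ : ∃ b, 0 ≤ b ∧ v = 1 - b := ⟨1 - v, by linarith, by ring⟩
  have key : Gp ((1 - a) / 2) ((1 + (1 - b)) / 2) (-((1 - a) / 2) ^ (3 : ℕ)) ((3 * ((1 + (1 - b)) / 2) ^ (2 : ℕ) - 1) / 2) (-((1 - a) / 2) ^ (3 : ℕ)) =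
      (1 - a) ^ (2 : ℕ) * a ^ (0 : ℕ) * ((1 - b) ^ (0 : ℕ) * b ^ (2 : ℕ)) * ((1 - a) ^ (0 : ℕ) * a ^ (9 : ℕ) * ((15 / 128) * b ^ (9 : ℕ)
        + 1 * (1 - b) * b ^ (8 : ℕ)
        + (243 / 64) * (1 - b) ^ (2 : ℕ) * b ^ (7 : ℕ)
        + (273 / 32) * (1 - b) ^ (3 : ℕ) * b ^ (6 : ℕ)
        + (1631 / 128) * (1 - b) ^ (4 : ℕ) * b ^ (5 : ℕ)
        + (429 / 32) * (1 - b) ^ (5 : ℕ) * b ^ (4 : ℕ)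
        + (323 / 32) * (1 - b) ^ (6 : ℕ) * b ^ (3 : ℕ)
        + (21 / 4) * (1 - b) ^ (7 : ℕ) * b ^ (2 : ℕ)
        + (27 / 16) * (1 - b) ^ (8 : ℕ) * b
        + (1 / 4) * (1 - b) ^ (9 : ℕ))
      + (1 - a) ^ (1 : ℕ) * a ^ (8 : ℕ) * ((987 / 1024) * b ^ (9 : ℕ)
        + (2099 / 256) * (1 - b) * b ^ (8 : ℕ)
        + (7961 / 256) * (1 - b) ^ (2 : ℕ) * b ^ (7 : ℕ)
        + (8969 / 128) * (1 - b) ^ (3 : ℕ) * b ^ (6 : ℕ)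
        + (108085 / 1024) * (1 - b) ^ (4 : ℕ) * b ^ (5 : ℕ)
        + (14421 / 128) * (1 - b) ^ (5 : ℕ) * b ^ (4 : ℕ)
        + (11047 / 128) * (1 - b) ^ (6 : ℕ) * b ^ (3 : ℕ)
        + (729 / 16) * (1 - b) ^ (7 : ℕ) * b ^ (2 : ℕ)
        + (945 / 64) * (1 - b) ^ (8 : ℕ) * b
        + (35 / 16) * (1 - b) ^ (9 : ℕ))
      + (1 - a) ^ (2 : ℕ) * a ^ (7 : ℕ) * ((897 / 256) * b ^ (9 : ℕ)
        + (1901 / 64) * (1 - b) * b ^ (8 : ℕ)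
        + (57567 / 512) * (1 - b) ^ (2 : ℕ) * b ^ (7 : ℕ)
        + (32465 / 128) * (1 - b) ^ (3 : ℕ) * b ^ (6 : ℕ)
        + (98379 / 256) * (1 - b) ^ (4 : ℕ) * b ^ (5 : ℕ)
        + (53059 / 128) * (1 - b) ^ (5 : ℕ) * b ^ (4 : ℕ)
        + (164615 / 512) * (1 - b) ^ (6 : ℕ) * b ^ (3 : ℕ)
        + (10971 / 64) * (1 - b) ^ (7 : ℕ) * b ^ (2 : ℕ)
        + (14277 / 256) * (1 - b) ^ (8 : ℕ) * b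
        + (527 / 64) * (1 - b) ^ (9 : ℕ))
      + (1 - a) ^ (3 : ℕ) * a ^ (6 : ℕ) * ((121251 / 16384) * b ^ (9 : ℕ)
        + (511979 / 8192) * (1 - b) * b ^ (8 : ℕ)
        + (3863643 / 16384) * (1 - b) ^ (2 : ℕ) * b ^ (7 : ℕ)
        + (135993 / 256) * (1 - b) ^ (3 : ℕ) * b ^ (6 : ℕ)
        + (1651207 / 2048) * (1 - b) ^ (4 : ℕ) * b ^ (5 : ℕ)
        + (223743 / 256) * (1 - b) ^ (5 : ℕ) * b ^ (4 : ℕ)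
        + (174619 / 256) * (1 - b) ^ (6 : ℕ) * b ^ (3 : ℕ)
        + (93479 / 256) * (1 - b) ^ (7 : ℕ) * b ^ (2 : ℕ)
        + (60769 / 512) * (1 - b) ^ (8 : ℕ) * b
        + (2227 / 128) * (1 - b) ^ (9 : ℕ))
      + (1 - a) ^ (4 : ℕ) * a ^ (5 : ℕ) * ((82005 / 8192) * b ^ (9 : ℕ)
        + (1379395 / 16384) * (1 - b) * b ^ (8 : ℕ)
        + (10361099 / 32768) * (1 - b) ^ (2 : ℕ) * b ^ (7 : ℕ)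
        + (11615779 / 16384) * (1 - b) ^ (3 : ℕ) * b ^ (6 : ℕ)
        + (8781713 / 8192) * (1 - b) ^ (4 : ℕ) * b ^ (5 : ℕ)
        + (2374421 / 2048) * (1 - b) ^ (5 : ℕ) * b ^ (4 : ℕ)
        + (3700291 / 4096) * (1 - b) ^ (6 : ℕ) * b ^ (3 : ℕ)
        + (493753 / 1024) * (1 - b) ^ (7 : ℕ) * b ^ (2 : ℕ)
        + (39857 / 256) * (1 - b) ^ (8 : ℕ) * b
        + (1443 / 64) * (1 - b) ^ (9 : ℕ))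
      + (1 - a) ^ (5 : ℕ) * a ^ (4 : ℕ) * ((294225 / 32768) * b ^ (9 : ℕ)
        + (2463905 / 32768) * (1 - b) * b ^ (8 : ℕ)
        + (18391247 / 65536) * (1 - b) ^ (2 : ℕ) * b ^ (7 : ℕ)
        + (20443287 / 32768) * (1 - b) ^ (3 : ℕ) * b ^ (6 : ℕ)
        + (15294823 / 16384) * (1 - b) ^ (4 : ℕ) * b ^ (5 : ℕ)
        + (8177379 / 8192) * (1 - b) ^ (5 : ℕ) * b ^ (4 : ℕ)
        + (1574835 / 2048) * (1 - b) ^ (6 : ℕ) * b ^ (3 : ℕ)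
        + (1661163 / 4096) * (1 - b) ^ (7 : ℕ) * b ^ (2 : ℕ)
        + (132187 / 1024) * (1 - b) ^ (8 : ℕ) * b
        + (2347 / 128) * (1 - b) ^ (9 : ℕ))
      + (1 - a) ^ (6 : ℕ) * a ^ (3 : ℕ) * ((697761 / 131072) * b ^ (9 : ℕ)
        + (1454157 / 32768) * (1 - b) * b ^ (8 : ℕ)
        + (21534213 / 131072) * (1 - b) ^ (2 : ℕ) * b ^ (7 : ℕ)
        + (23629641 / 65536) * (1 - b) ^ (3 : ℕ) * b ^ (6 : ℕ)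
        + (1084721 / 2048) * (1 - b) ^ (4 : ℕ) * b ^ (5 : ℕ)
        + (2267353 / 4096) * (1 - b) ^ (5 : ℕ) * b ^ (4 : ℕ)
        + (3408163 / 8192) * (1 - b) ^ (6 : ℕ) * b ^ (3 : ℕ)
        + (219179 / 1024) * (1 - b) ^ (7 : ℕ) * b ^ (2 : ℕ)
        + (271821 / 4096) * (1 - b) ^ (8 : ℕ) * b
        + (9351 / 1024) * (1 - b) ^ (9 : ℕ))
      + (1 - a) ^ (7 : ℕ) * a ^ (2 : ℕ) * ((262539 / 131072) * b ^ (9 : ℕ)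
        + (2177487 / 131072) * (1 - b) * b ^ (8 : ℕ)
        + (7979281 / 131072) * (1 - b) ^ (2 : ℕ) * b ^ (7 : ℕ)
        + (17195609 / 131072) * (1 - b) ^ (3 : ℕ) * b ^ (6 : ℕ)
        + (1534297 / 8192) * (1 - b) ^ (4 : ℕ) * b ^ (5 : ℕ)
        + (1542699 / 8192) * (1 - b) ^ (5 : ℕ) * b ^ (4 : ℕ)
        + (2217035 / 16384) * (1 - b) ^ (6 : ℕ) * b ^ (3 : ℕ)
        + (544159 / 8192) * (1 - b) ^ (7 : ℕ) * b ^ (2 : ℕ)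
        + (160589 / 8192) * (1 - b) ^ (8 : ℕ) * b
        + (5211 / 2048) * (1 - b) ^ (9 : ℕ))
      + (1 - a) ^ (8 : ℕ) * a ^ (1 : ℕ) * ((28311 / 65536) * b ^ (9 : ℕ)
        + (233357 / 65536) * (1 - b) * b ^ (8 : ℕ)
        + (1687523 / 131072) * (1 - b) ^ (2 : ℕ) * b ^ (7 : ℕ)
        + (443219 / 16384) * (1 - b) ^ (3 : ℕ) * b ^ (6 : ℕ)
        + (4849319 / 131072) * (1 - b) ^ (4 : ℕ) * b ^ (5 : ℕ)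
        + (1143251 / 32768) * (1 - b) ^ (5 : ℕ) * b ^ (4 : ℕ)
        + (1511561 / 65536) * (1 - b) ^ (6 : ℕ) * b ^ (3 : ℕ)
        + (168291 / 16384) * (1 - b) ^ (7 : ℕ) * b ^ (2 : ℕ)
        + (22183 / 8192) * (1 - b) ^ (8 : ℕ) * b
        + (621 / 2048) * (1 - b) ^ (9 : ℕ))
      + (1 - a) ^ (9 : ℕ) * a ^ (0 : ℕ) * ((2655 / 65536) * b ^ (9 : ℕ)
        + (10851 / 32768) * (1 - b) * b ^ (8 : ℕ)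
        + (154101 / 131072) * (1 - b) ^ (2 : ℕ) * b ^ (7 : ℕ)
        + (312297 / 131072) * (1 - b) ^ (3 : ℕ) * b ^ (6 : ℕ)
        + (399513 / 131072) * (1 - b) ^ (4 : ℕ) * b ^ (5 : ℕ)
        + (335793 / 131072) * (1 - b) ^ (5 : ℕ) * b ^ (4 : ℕ)
        + (92217 / 65536) * (1 - b) ^ (6 : ℕ) * b ^ (3 : ℕ)
        + (30627 / 65536) * (1 - b) ^ (7 : ℕ) * b ^ (2 : ℕ)
        + (1173 / 16384) * (1 - b) ^ (8 : ℕ) * b)) := by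
    unfold Gp Bb QQ Nn; ring
  rw [key]
  generalize 1 - a = c at hu ⊢
  generalize 1 - b = e at hv ⊢
  positivity

set_option maxHeartbeats 2000000 in
theorem certG_ee (u v : ℝ) (hu : 0 ≤ u) (hu' : u ≤ 1) (hv : 0 ≤ v) (hv' : v ≤ 1) :
    0 ≤ Gp ((1 + u) / 2) ((1 + v) / 2) ((3 * ((1 + u) / 2) ^ (2 : ℕ) - 1) / 2) ((3 * ((1 + v) / 2) ^ (2 : ℕ) - 1) / 2) ((3 * ((1 + u) / 2) ^ (2 : ℕ) - 1) / 2) := by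
  obtain ⟨a, ha, rfl⟩ : ∃ a, 0 ≤ a ∧ u = 1 - a := ⟨1 - u, by linarith, by ring⟩
  obtain ⟨b, hb, rfl⟩ : ∃ b, 0 ≤ b ∧ v = 1 - b := ⟨1 - v, by linarith, by ring⟩
  have key : Gp ((1 + (1 - a)) / 2) ((1 + (1 - b)) / 2) ((3 * ((1 + (1 - a)) / 2) ^ (2 : ℕ) - 1) / 2) ((3 * ((1 + (1 - b)) / 2) ^ (2 : ℕ) - 1) / 2) ((3 * ((1 + (1 - a)) / 2) ^ (2 : ℕ) - 1) / 2) =
      (1 - a) ^ (0 : ℕ) * a ^ (3 : ℕ) * ((1 - b) ^ (0 : ℕ) * b ^ (3 : ℕ)) * ((1 - a) ^ (0 : ℕ) * a ^ (8 : ℕ) * ((2655 / 65536) * b ^ (8 : ℕ)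
        + (10851 / 32768) * (1 - b) * b ^ (7 : ℕ)
        + (154101 / 131072) * (1 - b) ^ (2 : ℕ) * b ^ (6 : ℕ)
        + (312297 / 131072) * (1 - b) ^ (3 : ℕ) * b ^ (5 : ℕ)
        + (399513 / 131072) * (1 - b) ^ (4 : ℕ) * b ^ (4 : ℕ)
        + (335793 / 131072) * (1 - b) ^ (5 : ℕ) * b ^ (3 : ℕ)
        + (92217 / 65536) * (1 - b) ^ (6 : ℕ) * b ^ (2 : ℕ)
        + (30627 / 65536) * (1 - b) ^ (7 : ℕ) * b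
        + (1173 / 16384) * (1 - b) ^ (8 : ℕ))
      + (1 - a) ^ (1 : ℕ) * a ^ (7 : ℕ) * ((10851 / 32768) * b ^ (8 : ℕ)
        + (89999 / 32768) * (1 - b) * b ^ (7 : ℕ)
        + (1299751 / 131072) * (1 - b) ^ (2 : ℕ) * b ^ (6 : ℕ)
        + (1340803 / 65536) * (1 - b) ^ (3 : ℕ) * b ^ (5 : ℕ)
        + (871981 / 32768) * (1 - b) ^ (4 : ℕ) * b ^ (4 : ℕ)
        + (1482407 / 65536) * (1 - b) ^ (5 : ℕ) * b ^ (3 : ℕ)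
        + (407615 / 32768) * (1 - b) ^ (6 : ℕ) * b ^ (2 : ℕ)
        + (133875 / 32768) * (1 - b) ^ (7 : ℕ) * b
        + (5021 / 8192) * (1 - b) ^ (8 : ℕ))
      + (1 - a) ^ (2 : ℕ) * a ^ (6 : ℕ) * ((154101 / 131072) * b ^ (8 : ℕ)
        + (1299751 / 131072) * (1 - b) * b ^ (7 : ℕ)
        + (37341 / 1024) * (1 - b) ^ (2 : ℕ) * b ^ (6 : ℕ)
        + (10043895 / 131072) * (1 - b) ^ (3 : ℕ) * b ^ (5 : ℕ)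
        + (13268307 / 131072) * (1 - b) ^ (4 : ℕ) * b ^ (4 : ℕ)
        + (2843921 / 32768) * (1 - b) ^ (5 : ℕ) * b ^ (3 : ℕ)
        + (3119725 / 65536) * (1 - b) ^ (6 : ℕ) * b ^ (2 : ℕ)
        + (252125 / 16384) * (1 - b) ^ (7 : ℕ) * b
        + (4605 / 2048) * (1 - b) ^ (8 : ℕ))
      + (1 - a) ^ (3 : ℕ) * a ^ (5 : ℕ) * ((312297 / 131072) * b ^ (8 : ℕ)
        + (1340803 / 65536) * (1 - b) * b ^ (7 : ℕ)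
        + (10043895 / 131072) * (1 - b) ^ (2 : ℕ) * b ^ (6 : ℕ)
        + (5365889 / 32768) * (1 - b) ^ (3 : ℕ) * b ^ (5 : ℕ)
        + (14350905 / 65536) * (1 - b) ^ (4 : ℕ) * b ^ (4 : ℕ)
        + (6174455 / 32768) * (1 - b) ^ (5 : ℕ) * b ^ (3 : ℕ)
        + (1678539 / 16384) * (1 - b) ^ (6 : ℕ) * b ^ (2 : ℕ)
        + (132569 / 4096) * (1 - b) ^ (7 : ℕ) * b
        + (2339 / 512) * (1 - b) ^ (8 : ℕ))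
      + (1 - a) ^ (4 : ℕ) * a ^ (4 : ℕ) * ((399513 / 131072) * b ^ (8 : ℕ)
        + (871981 / 32768) * (1 - b) * b ^ (7 : ℕ)
        + (13268307 / 131072) * (1 - b) ^ (2 : ℕ) * b ^ (6 : ℕ)
        + (14350905 / 65536) * (1 - b) ^ (3 : ℕ) * b ^ (5 : ℕ)
        + (603201 / 2048) * (1 - b) ^ (4 : ℕ) * b ^ (4 : ℕ)
        + (2067317 / 8192) * (1 - b) ^ (5 : ℕ) * b ^ (3 : ℕ)
        + (551875 / 4096) * (1 - b) ^ (6 : ℕ) * b ^ (2 : ℕ)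
        + (84227 / 2048) * (1 - b) ^ (7 : ℕ) * b
        + (2831 / 512) * (1 - b) ^ (8 : ℕ))
      + (1 - a) ^ (5 : ℕ) * a ^ (3 : ℕ) * ((335793 / 131072) * b ^ (8 : ℕ)
        + (1482407 / 65536) * (1 - b) * b ^ (7 : ℕ)
        + (2843921 / 32768) * (1 - b) ^ (2 : ℕ) * b ^ (6 : ℕ)
        + (6174455 / 32768) * (1 - b) ^ (3 : ℕ) * b ^ (5 : ℕ)
        + (2067317 / 8192) * (1 - b) ^ (4 : ℕ) * b ^ (4 : ℕ)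
        + (217871 / 1024) * (1 - b) ^ (5 : ℕ) * b ^ (3 : ℕ)
        + (56295 / 512) * (1 - b) ^ (6 : ℕ) * b ^ (2 : ℕ)
        + (32573 / 1024) * (1 - b) ^ (7 : ℕ) * b
        + (1015 / 256) * (1 - b) ^ (8 : ℕ))
      + (1 - a) ^ (6 : ℕ) * a ^ (2 : ℕ) * ((92217 / 65536) * b ^ (8 : ℕ)
        + (407615 / 32768) * (1 - b) * b ^ (7 : ℕ)
        + (3119725 / 65536) * (1 - b) ^ (2 : ℕ) * b ^ (6 : ℕ)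
        + (1678539 / 16384) * (1 - b) ^ (3 : ℕ) * b ^ (5 : ℕ)
        + (551875 / 4096) * (1 - b) ^ (4 : ℕ) * b ^ (4 : ℕ)
        + (56295 / 512) * (1 - b) ^ (5 : ℕ) * b ^ (3 : ℕ)
        + (110163 / 2048) * (1 - b) ^ (6 : ℕ) * b ^ (2 : ℕ)
        + (7291 / 512) * (1 - b) ^ (7 : ℕ) * b
        + (99 / 64) * (1 - b) ^ (8 : ℕ))
      + (1 - a) ^ (7 : ℕ) * a ^ (1 : ℕ) * ((30627 / 65536) * b ^ (8 : ℕ)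
        + (133875 / 32768) * (1 - b) * b ^ (7 : ℕ)
        + (252125 / 16384) * (1 - b) ^ (2 : ℕ) * b ^ (6 : ℕ)
        + (132569 / 4096) * (1 - b) ^ (3 : ℕ) * b ^ (5 : ℕ)
        + (84227 / 2048) * (1 - b) ^ (4 : ℕ) * b ^ (4 : ℕ)
        + (32573 / 1024) * (1 - b) ^ (5 : ℕ) * b ^ (3 : ℕ)
        + (7291 / 512) * (1 - b) ^ (6 : ℕ) * b ^ (2 : ℕ)
        + (411 / 128) * (1 - b) ^ (7 : ℕ) * b
        + (1 / 4) * (1 - b) ^ (8 : ℕ))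
      + (1 - a) ^ (8 : ℕ) * a ^ (0 : ℕ) * ((1173 / 16384) * b ^ (8 : ℕ)
        + (5021 / 8192) * (1 - b) * b ^ (7 : ℕ)
        + (4605 / 2048) * (1 - b) ^ (2 : ℕ) * b ^ (6 : ℕ)
        + (2339 / 512) * (1 - b) ^ (3 : ℕ) * b ^ (5 : ℕ)
        + (2831 / 512) * (1 - b) ^ (4 : ℕ) * b ^ (4 : ℕ)
        + (1015 / 256) * (1 - b) ^ (5 : ℕ) * b ^ (3 : ℕ)
        + (99 / 64) * (1 - b) ^ (6 : ℕ) * b ^ (2 : ℕ)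
        + (1 / 4) * (1 - b) ^ (7 : ℕ) * b)) := by
    unfold Gp Bb QQ Nn; ring
  rw [key]
  generalize 1 - a = c at hu ⊢
  generalize 1 - b = e at hv ⊢
  positivity

end Vale.P154.Q3
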