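import Vale.Agent.P154.Q3Poly

/-! Generated Bernstein-positivity certificates. -/

namespace Vale.P154.Q3

set_option maxHeartbeats 2000000 in
theorem certX_nn (u v : ℝ) (hu : 0 ≤ u) (hu' : u ≤ 1) (hv : 0 ≤ v) (hv' : v ≤ 1) :
    0 ≤ Gp (u / 2) (v / 2) (-(u / 2) ^ (3 : ℕ)) (-(v / 2) ^ (3 : ℕ)) ((u / 2) ^ (3 : ℕ)) := by
  obtain ⟨a, ha, rfl⟩ : ∃ a, 0 ≤ a ∧ u = 1 - a := ⟨1 - u, by linarith, by ring⟩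
  obtain ⟨b, hb, rfl⟩ : ∃ b, 0 ≤ b ∧ v = 1 - b := ⟨1 - v, by linarith, by ring⟩
  have key : Gp ((1 - a) / 2) ((1 - b) / 2) (-((1 - a) / 2) ^ (3 : ℕ)) (-((1 - b) / 2) ^ (3 : ℕ)) (((1 - a) / 2) ^ (3 : ℕ)) =
      (1 - a) ^ (2 : ℕ) * a ^ (0 : ℕ) * ((1 - b) ^ (2 : ℕ) * b ^ (0 : ℕ)) * ((1 - a) ^ (0 : ℕ) * a ^ (9 : ℕ) * ((1 / 8) * b ^ (8 : ℕ)
        + (17 / 16) * (1 - b) * b ^ (7 : ℕ)
        + (125 / 32) * (1 - b) ^ (2 : ℕ) * b ^ (6 : ℕ)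
        + (517 / 64) * (1 - b) ^ (3 : ℕ) * b ^ (5 : ℕ)
        + (655 / 64) * (1 - b) ^ (4 : ℕ) * b ^ (4 : ℕ)
        + (1037 / 128) * (1 - b) ^ (5 : ℕ) * b ^ (3 : ℕ)
        + (499 / 128) * (1 - b) ^ (6 : ℕ) * b ^ (2 : ℕ)
        + (133 / 128) * (1 - b) ^ (7 : ℕ) * b
        + (15 / 128) * (1 - b) ^ (8 : ℕ))
      + (1 - a) ^ (1 : ℕ) * a ^ (8 : ℕ) * ((19 / 16) * b ^ (8 : ℕ)
        + (313 / 32) * (1 - b) * b ^ (7 : ℕ)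
        + (4471 / 128) * (1 - b) ^ (2 : ℕ) * b ^ (6 : ℕ)
        + (18021 / 256) * (1 - b) ^ (3 : ℕ) * b ^ (5 : ℕ)
        + (44665 / 512) * (1 - b) ^ (4 : ℕ) * b ^ (4 : ℕ)
        + (69429 / 1024) * (1 - b) ^ (5 : ℕ) * b ^ (3 : ℕ)
        + (32917 / 1024) * (1 - b) ^ (6 : ℕ) * b ^ (2 : ℕ)
        + (8671 / 1024) * (1 - b) ^ (7 : ℕ) * b
        + (969 / 1024) * (1 - b) ^ (8 : ℕ))
      + (1 - a) ^ (2 : ℕ) * a ^ (7 : ℕ) * ((159 / 32) * b ^ (8 : ℕ)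
        + (5103 / 128) * (1 - b) * b ^ (7 : ℕ)
        + (17757 / 128) * (1 - b) ^ (2 : ℕ) * b ^ (6 : ℕ)
        + (139687 / 512) * (1 - b) ^ (3 : ℕ) * b ^ (5 : ℕ)
        + (84661 / 256) * (1 - b) ^ (4 : ℕ) * b ^ (4 : ℕ)
        + (258183 / 1024) * (1 - b) ^ (5 : ℕ) * b ^ (3 : ℕ)
        + (15055 / 128) * (1 - b) ^ (6 : ℕ) * b ^ (2 : ℕ)
        + (31309 / 1024) * (1 - b) ^ (7 : ℕ) * b
        + (1731 / 512) * (1 - b) ^ (8 : ℕ))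
      + (1 - a) ^ (3 : ℕ) * a ^ (6 : ℕ) * ((767 / 64) * b ^ (8 : ℕ)
        + (24111 / 256) * (1 - b) * b ^ (7 : ℕ)
        + (164189 / 512) * (1 - b) ^ (2 : ℕ) * b ^ (6 : ℕ)
        + (157979 / 256) * (1 - b) ^ (3 : ℕ) * b ^ (5 : ℕ)
        + (375115 / 512) * (1 - b) ^ (4 : ℕ) * b ^ (4 : ℕ)
        + (280593 / 512) * (1 - b) ^ (5 : ℕ) * b ^ (3 : ℕ)
        + (2059391 / 8192) * (1 - b) ^ (6 : ℕ) * b ^ (2 : ℕ)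
        + (1055449 / 16384) * (1 - b) ^ (7 : ℕ) * b
        + (115323 / 16384) * (1 - b) ^ (8 : ℕ))
      + (1 - a) ^ (4 : ℕ) * a ^ (5 : ℕ) * ((293 / 16) * b ^ (8 : ℕ)
        + (72547 / 512) * (1 - b) * b ^ (7 : ℕ)
        + (121399 / 256) * (1 - b) ^ (2 : ℕ) * b ^ (6 : ℕ)
        + (458823 / 512) * (1 - b) ^ (3 : ℕ) * b ^ (5 : ℕ)
        + (2139359 / 2048) * (1 - b) ^ (4 : ℕ) * b ^ (4 : ℕ)
        + (6288627 / 8192) * (1 - b) ^ (5 : ℕ) * b ^ (3 : ℕ)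
        + (1418725 / 4096) * (1 - b) ^ (6 : ℕ) * b ^ (2 : ℕ)
        + (1432775 / 16384) * (1 - b) ^ (7 : ℕ) * b
        + (309057 / 32768) * (1 - b) ^ (8 : ℕ))
      + (1 - a) ^ (5 : ℕ) * a ^ (4 : ℕ) * ((2347 / 128) * b ^ (8 : ℕ)
        + (143679 / 1024) * (1 - b) * b ^ (7 : ℕ)
        + (118677 / 256) * (1 - b) ^ (2 : ℕ) * b ^ (6 : ℕ)
        + (221083 / 256) * (1 - b) ^ (3 : ℕ) * b ^ (5 : ℕ)
        + (8122175 / 8192) * (1 - b) ^ (4 : ℕ) * b ^ (4 : ℕ)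
        + (5876497 / 8192) * (1 - b) ^ (5 : ℕ) * b ^ (3 : ℕ)
        + (10444123 / 32768) * (1 - b) ^ (6 : ℕ) * b ^ (2 : ℕ)
        + (5196795 / 65536) * (1 - b) ^ (7 : ℕ) * b
        + (552843 / 65536) * (1 - b) ^ (8 : ℕ))
      + (1 - a) ^ (6 : ℕ) * a ^ (3 : ℕ) * (12 * b ^ (8 : ℕ)
        + (46665 / 512) * (1 - b) * b ^ (7 : ℕ)
        + (305549 / 1024) * (1 - b) ^ (2 : ℕ) * b ^ (6 : ℕ)
        + (4505207 / 8192) * (1 - b) ^ (3 : ℕ) * b ^ (5 : ℕ)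
        + (2555253 / 4096) * (1 - b) ^ (4 : ℕ) * b ^ (4 : ℕ)
        + (14598579 / 32768) * (1 - b) ^ (5 : ℕ) * b ^ (3 : ℕ)
        + (6398111 / 32768) * (1 - b) ^ (6 : ℕ) * b ^ (2 : ℕ)
        + (3139187 / 65536) * (1 - b) ^ (7 : ℕ) * b
        + (658527 / 131072) * (1 - b) ^ (8 : ℕ))
      + (1 - a) ^ (7 : ℕ) * a ^ (2 : ℕ) * ((79 / 16) * b ^ (8 : ℕ)
        + (19109 / 512) * (1 - b) * b ^ (7 : ℕ)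
        + (124347 / 1024) * (1 - b) ^ (2 : ℕ) * b ^ (6 : ℕ)
        + (3638943 / 16384) * (1 - b) ^ (3 : ℕ) * b ^ (5 : ℕ)
        + (2045233 / 8192) * (1 - b) ^ (4 : ℕ) * b ^ (4 : ℕ)
        + (11562745 / 65536) * (1 - b) ^ (5 : ℕ) * b ^ (3 : ℕ)
        + (2504029 / 32768) * (1 - b) ^ (6 : ℕ) * b ^ (2 : ℕ)
        + (1212659 / 65536) * (1 - b) ^ (7 : ℕ) * b
        + (250791 / 131072) * (1 - b) ^ (8 : ℕ))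
      + (1 - a) ^ (8 : ℕ) * a ^ (1 : ℕ) * ((37 / 32) * b ^ (8 : ℕ)
        + (2231 / 256) * (1 - b) * b ^ (7 : ℕ)
        + (28919 / 1024) * (1 - b) ^ (2 : ℕ) * b ^ (6 : ℕ)
        + (210461 / 4096) * (1 - b) ^ (3 : ℕ) * b ^ (5 : ℕ)
        + (1880011 / 32768) * (1 - b) ^ (4 : ℕ) * b ^ (4 : ℕ)
        + (658847 / 16384) * (1 - b) ^ (5 : ℕ) * b ^ (3 : ℕ)
        + (2260245 / 131072) * (1 - b) ^ (6 : ℕ) * b ^ (2 : ℕ)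
        + (135209 / 32768) * (1 - b) ^ (7 : ℕ) * b
        + (27573 / 65536) * (1 - b) ^ (8 : ℕ))
      + (1 - a) ^ (9 : ℕ) * a ^ (0 : ℕ) * ((15 / 128) * b ^ (8 : ℕ)
        + (903 / 1024) * (1 - b) * b ^ (7 : ℕ)
        + (2919 / 1024) * (1 - b) ^ (2 : ℕ) * b ^ (6 : ℕ)
        + (84675 / 16384) * (1 - b) ^ (3 : ℕ) * b ^ (5 : ℕ)
        + (47049 / 8192) * (1 - b) ^ (4 : ℕ) * b ^ (4 : ℕ)
        + (131073 / 32768) * (1 - b) ^ (5 : ℕ) * b ^ (3 : ℕ)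
        + (222975 / 131072) * (1 - b) ^ (6 : ℕ) * b ^ (2 : ℕ)
        + (13197 / 32768) * (1 - b) ^ (7 : ℕ) * b
        + (2655 / 65536) * (1 - b) ^ (8 : ℕ))) := by
    unfold Gp Bb QQ Nn; ring
  rw [key]
  generalize 1 - a = c at hu ⊢
  generalize 1 - b = e at hv ⊢
  positivity

set_option maxHeartbeats 2000000 in
theorem certX_ne (u v : ℝ) (hu : 0 ≤ u) (hu' : u ≤ 1) (hv : 0 ≤ v) (hv' : v ≤ 1) :
    0 ≤ Gp (u / 2) ((1 + v) / 2) (-(u / 2) ^ (3 : ℕ)) ((3 * ((1 + v) / 2) ^ (2 : ℕ) - 1) / 2) ((u / 2) ^ (3 : ℕ)) := by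
  obtain ⟨a, ha, rfl⟩ : ∃ a, 0 ≤ a ∧ u = 1 - a := ⟨1 - u, by linarith, by ring⟩
  obtain ⟨b, hb, rfl⟩ : ∃ b, 0 ≤ b ∧ v = 1 - b := ⟨1 - v, by linarith, by ring⟩
  have key : Gp ((1 - a) / 2) ((1 + (1 - b)) / 2) (-((1 - a) / 2) ^ (3 : ℕ)) ((3 * ((1 + (1 - b)) / 2) ^ (2 : ℕ) - 1) / 2) (((1 - a) / 2) ^ (3 : ℕ)) =
      (1 - a) ^ (2 : ℕ) * a ^ (0 : ℕ) * ((1 - b) ^ (0 : ℕ) * b ^ (2 : ℕ)) * ((1 - a) ^ (0 : ℕ) * a ^ (9 : ℕ) * ((15 / 128) * b ^ (7 : ℕ)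
        + (49 / 64) * (1 - b) * b ^ (6 : ℕ)
        + (275 / 128) * (1 - b) ^ (2 : ℕ) * b ^ (5 : ℕ)
        + (111 / 32) * (1 - b) ^ (3 : ℕ) * b ^ (4 : ℕ)
        + (117 / 32) * (1 - b) ^ (4 : ℕ) * b ^ (3 : ℕ)
        + (21 / 8) * (1 - b) ^ (5 : ℕ) * b ^ (2 : ℕ)
        + (19 / 16) * (1 - b) ^ (6 : ℕ) * b
        + (1 / 4) * (1 - b) ^ (7 : ℕ))
      + (1 - a) ^ (1 : ℕ) * a ^ (8 : ℕ) * ((969 / 1024) * b ^ (7 : ℕ)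
        + (3277 / 512) * (1 - b) * b ^ (6 : ℕ)
        + (19217 / 1024) * (1 - b) ^ (2 : ℕ) * b ^ (5 : ℕ)
        + (4063 / 128) * (1 - b) ^ (3 : ℕ) * b ^ (4 : ℕ)
        + (4425 / 128) * (1 - b) ^ (4 : ℕ) * b ^ (3 : ℕ)
        + (795 / 32) * (1 - b) ^ (5 : ℕ) * b ^ (2 : ℕ)
        + (697 / 64) * (1 - b) ^ (6 : ℕ) * b
        + (35 / 16) * (1 - b) ^ (7 : ℕ))
      + (1 - a) ^ (2 : ℕ) * a ^ (7 : ℕ) * ((1731 / 512) * b ^ (7 : ℕ)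
        + (6077 / 256) * (1 - b) * b ^ (6 : ℕ)
        + (18591 / 256) * (1 - b) ^ (2 : ℕ) * b ^ (5 : ℕ)
        + (32701 / 256) * (1 - b) ^ (3 : ℕ) * b ^ (4 : ℕ)
        + (72829 / 512) * (1 - b) ^ (4 : ℕ) * b ^ (3 : ℕ)
        + (13003 / 128) * (1 - b) ^ (5 : ℕ) * b ^ (2 : ℕ)
        + (11021 / 256) * (1 - b) ^ (6 : ℕ) * b
        + (527 / 64) * (1 - b) ^ (7 : ℕ))
      + (1 - a) ^ (3 : ℕ) * a ^ (6 : ℕ) * ((115323 / 16384) * b ^ (7 : ℕ)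
        + (26281 / 512) * (1 - b) * b ^ (6 : ℕ)
        + (334237 / 2048) * (1 - b) ^ (2 : ℕ) * b ^ (5 : ℕ)
        + (75807 / 256) * (1 - b) ^ (3 : ℕ) * b ^ (4 : ℕ)
        + (171111 / 512) * (1 - b) ^ (4 : ℕ) * b ^ (3 : ℕ)
        + (15101 / 64) * (1 - b) ^ (5 : ℕ) * b ^ (2 : ℕ)
        + (49401 / 512) * (1 - b) ^ (6 : ℕ) * b
        + (2243 / 128) * (1 - b) ^ (7 : ℕ))
      + (1 - a) ^ (4 : ℕ) * a ^ (5 : ℕ) * ((309057 / 32768) * b ^ (7 : ℕ)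
        + (1168003 / 16384) * (1 - b) * b ^ (6 : ℕ)
        + (1918683 / 8192) * (1 - b) ^ (2 : ℕ) * b ^ (5 : ℕ)
        + (445319 / 1024) * (1 - b) ^ (3 : ℕ) * b ^ (4 : ℕ)
        + (2023279 / 4096) * (1 - b) ^ (4 : ℕ) * b ^ (3 : ℕ)
        + (351805 / 1024) * (1 - b) ^ (5 : ℕ) * b ^ (2 : ℕ)
        + (34659 / 256) * (1 - b) ^ (6 : ℕ) * b
        + (1489 / 64) * (1 - b) ^ (7 : ℕ))
      + (1 - a) ^ (5 : ℕ) * a ^ (4 : ℕ) * ((552843 / 65536) * b ^ (7 : ℕ)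
        + (2156415 / 32768) * (1 - b) * b ^ (6 : ℕ)
        + (3636203 / 16384) * (1 - b) ^ (2 : ℕ) * b ^ (5 : ℕ)
        + (3429987 / 8192) * (1 - b) ^ (3 : ℕ) * b ^ (4 : ℕ)
        + (1950353 / 4096) * (1 - b) ^ (4 : ℕ) * b ^ (3 : ℕ)
        + (1333551 / 4096) * (1 - b) ^ (5 : ℕ) * b ^ (2 : ℕ)
        + (126533 / 1024) * (1 - b) ^ (6 : ℕ) * b
        + (1281 / 64) * (1 - b) ^ (7 : ℕ))
      + (1 - a) ^ (6 : ℕ) * a ^ (3 : ℕ) * ((658527 / 131072) * b ^ (7 : ℕ)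
        + (2636737 / 65536) * (1 - b) * b ^ (6 : ℕ)
        + (2267271 / 16384) * (1 - b) ^ (2 : ℕ) * b ^ (5 : ℕ)
        + (1080249 / 4096) * (1 - b) ^ (3 : ℕ) * b ^ (4 : ℕ)
        + (612819 / 2048) * (1 - b) ^ (4 : ℕ) * b ^ (3 : ℕ)
        + (411577 / 2048) * (1 - b) ^ (5 : ℕ) * b ^ (2 : ℕ)
        + (300945 / 4096) * (1 - b) ^ (6 : ℕ) * b
        + (11443 / 1024) * (1 - b) ^ (7 : ℕ))
      + (1 - a) ^ (7 : ℕ) * a ^ (2 : ℕ) * ((250791 / 131072) * b ^ (7 : ℕ)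
        + (2050037 / 131072) * (1 - b) * b ^ (6 : ℕ)
        + (893929 / 16384) * (1 - b) ^ (2 : ℕ) * b ^ (5 : ℕ)
        + (1713653 / 16384) * (1 - b) ^ (3 : ℕ) * b ^ (4 : ℕ)
        + (967807 / 8192) * (1 - b) ^ (4 : ℕ) * b ^ (3 : ℕ)
        + (638535 / 8192) * (1 - b) ^ (5 : ℕ) * b ^ (2 : ℕ)
        + (225081 / 8192) * (1 - b) ^ (6 : ℕ) * b
        + (8007 / 2048) * (1 - b) ^ (7 : ℕ))
      + (1 - a) ^ (8 : ℕ) * a ^ (1 : ℕ) * ((27573 / 65536) * b ^ (7 : ℕ)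
        + (228917 / 65536) * (1 - b) * b ^ (6 : ℕ)
        + (1612787 / 131072) * (1 - b) ^ (2 : ℕ) * b ^ (5 : ℕ)
        + (387581 / 16384) * (1 - b) ^ (3 : ℕ) * b ^ (4 : ℕ)
        + (1741463 / 65536) * (1 - b) ^ (4 : ℕ) * b ^ (3 : ℕ)
        + (282419 / 16384) * (1 - b) ^ (5 : ℕ) * b ^ (2 : ℕ)
        + (48069 / 8192) * (1 - b) ^ (6 : ℕ) * b
        + (1595 / 2048) * (1 - b) ^ (7 : ℕ))
      + (1 - a) ^ (9 : ℕ) * a ^ (0 : ℕ) * ((2655 / 65536) * b ^ (7 : ℕ)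
        + (2787 / 8192) * (1 - b) * b ^ (6 : ℕ)
        + (158115 / 131072) * (1 - b) ^ (2 : ℕ) * b ^ (5 : ℕ)
        + (304287 / 131072) * (1 - b) ^ (3 : ℕ) * b ^ (4 : ℕ)
        + (169905 / 65536) * (1 - b) ^ (4 : ℕ) * b ^ (3 : ℕ)
        + (108507 / 65536) * (1 - b) ^ (5 : ℕ) * b ^ (2 : ℕ)
        + (8937 / 16384) * (1 - b) ^ (6 : ℕ) * b
        + (69 / 1024) * (1 - b) ^ (7 : ℕ))) := by
    unfold Gp Bb QQ Nn; ring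
  rw [key]
  generalize 1 - a = c at hu ⊢
  generalize 1 - b = e at hv ⊢
  positivity

set_option maxHeartbeats 2000000 in
theorem certX_en (u v : ℝ) (hu : 0 ≤ u) (hu' : u ≤ 1) (hv : 0 ≤ v) (hv' : v ≤ 1) :
    0 ≤ Gp ((1 + u) / 2) (v / 2) ((3 * ((1 + u) / 2) ^ (2 : ℕ) - 1) / 2) (-(v / 2) ^ (3 : ℕ)) (((1 + u) / 2) ^ (3 : ℕ)) := by
  obtain ⟨a, ha, rfl⟩ : ∃ a, 0 ≤ a ∧ u = 1 - a := ⟨1 - u, by linarith, by ring⟩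
  obtain ⟨b, hb, rfl⟩ : ∃ b, 0 ≤ b ∧ v = 1 - b := ⟨1 - v, by linarith, by ring⟩
  have key : Gp ((1 + (1 - a)) / 2) ((1 - b) / 2) ((3 * ((1 + (1 - a)) / 2) ^ (2 : ℕ) - 1) / 2) (-((1 - b) / 2) ^ (3 : ℕ)) (((1 + (1 - a)) / 2) ^ (3 : ℕ)) =
      (1 - a) ^ (0 : ℕ) * a ^ (2 : ℕ) * ((1 - b) ^ (2 : ℕ) * b ^ (0 : ℕ)) * ((1 - a) ^ (0 : ℕ) * a ^ (9 : ℕ) * ((15 / 128) * b ^ (8 : ℕ)
        + (903 / 1024) * (1 - b) * b ^ (7 : ℕ)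
        + (2919 / 1024) * (1 - b) ^ (2 : ℕ) * b ^ (6 : ℕ)
        + (84675 / 16384) * (1 - b) ^ (3 : ℕ) * b ^ (5 : ℕ)
        + (47049 / 8192) * (1 - b) ^ (4 : ℕ) * b ^ (4 : ℕ)
        + (131073 / 32768) * (1 - b) ^ (5 : ℕ) * b ^ (3 : ℕ)
        + (222975 / 131072) * (1 - b) ^ (6 : ℕ) * b ^ (2 : ℕ)
        + (13197 / 32768) * (1 - b) ^ (7 : ℕ) * b
        + (2655 / 65536) * (1 - b) ^ (8 : ℕ))
      + (1 - a) ^ (1 : ℕ) * a ^ (8 : ℕ) * (1 * b ^ (8 : ℕ)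
        + (3851 / 512) * (1 - b) * b ^ (7 : ℕ)
        + (24895 / 1024) * (1 - b) ^ (2 : ℕ) * b ^ (6 : ℕ)
        + (361175 / 8192) * (1 - b) ^ (3 : ℕ) * b ^ (5 : ℕ)
        + (1606181 / 32768) * (1 - b) ^ (4 : ℕ) * b ^ (4 : ℕ)
        + (279725 / 8192) * (1 - b) ^ (5 : ℕ) * b ^ (3 : ℕ)
        + (1902021 / 131072) * (1 - b) ^ (6 : ℕ) * b ^ (2 : ℕ)
        + (56129 / 16384) * (1 - b) ^ (7 : ℕ) * b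
        + (2805 / 8192) * (1 - b) ^ (8 : ℕ))
      + (1 - a) ^ (2 : ℕ) * a ^ (7 : ℕ) * ((243 / 64) * b ^ (8 : ℕ)
        + (14619 / 512) * (1 - b) * b ^ (7 : ℕ)
        + (94487 / 1024) * (1 - b) ^ (2 : ℕ) * b ^ (6 : ℕ)
        + (2740547 / 16384) * (1 - b) ^ (3 : ℕ) * b ^ (5 : ℕ)
        + (380495 / 2048) * (1 - b) ^ (4 : ℕ) * b ^ (4 : ℕ)
        + (8463681 / 65536) * (1 - b) ^ (5 : ℕ) * b ^ (3 : ℕ)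
        + (1790515 / 32768) * (1 - b) ^ (6 : ℕ) * b ^ (2 : ℕ)
        + (838395 / 65536) * (1 - b) ^ (7 : ℕ) * b
        + (165123 / 131072) * (1 - b) ^ (8 : ℕ))
      + (1 - a) ^ (3 : ℕ) * a ^ (6 : ℕ) * ((273 / 32) * b ^ (8 : ℕ)
        + (32877 / 512) * (1 - b) * b ^ (7 : ℕ)
        + (212529 / 1024) * (1 - b) ^ (2 : ℕ) * b ^ (6 : ℕ)
        + (769721 / 2048) * (1 - b) ^ (3 : ℕ) * b ^ (5 : ℕ)
        + (3409573 / 8192) * (1 - b) ^ (4 : ℕ) * b ^ (4 : ℕ)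
        + (4712145 / 16384) * (1 - b) ^ (5 : ℕ) * b ^ (3 : ℕ)
        + (986499 / 8192) * (1 - b) ^ (6 : ℕ) * b ^ (2 : ℕ)
        + (1815273 / 65536) * (1 - b) ^ (7 : ℕ) * b
        + (347031 / 131072) * (1 - b) ^ (8 : ℕ))
      + (1 - a) ^ (4 : ℕ) * a ^ (5 : ℕ) * ((1631 / 128) * b ^ (8 : ℕ)
        + (98511 / 1024) * (1 - b) * b ^ (7 : ℕ)
        + (39849 / 128) * (1 - b) ^ (2 : ℕ) * b ^ (6 : ℕ)
        + (576377 / 1024) * (1 - b) ^ (3 : ℕ) * b ^ (5 : ℕ)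
        + (5077947 / 8192) * (1 - b) ^ (4 : ℕ) * b ^ (4 : ℕ)
        + (433755 / 1024) * (1 - b) ^ (5 : ℕ) * b ^ (3 : ℕ)
        + (5700747 / 32768) * (1 - b) ^ (6 : ℕ) * b ^ (2 : ℕ)
        + (2539433 / 65536) * (1 - b) ^ (7 : ℕ) * b
        + (229665 / 65536) * (1 - b) ^ (8 : ℕ))
      + (1 - a) ^ (5 : ℕ) * a ^ (4 : ℕ) * ((429 / 32) * b ^ (8 : ℕ)
        + (26065 / 256) * (1 - b) * b ^ (7 : ℕ)
        + (2643 / 8) * (1 - b) ^ (2 : ℕ) * b ^ (6 : ℕ)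
        + (152617 / 256) * (1 - b) ^ (3 : ℕ) * b ^ (5 : ℕ)
        + (1333439 / 2048) * (1 - b) ^ (4 : ℕ) * b ^ (4 : ℕ)
        + (3583055 / 8192) * (1 - b) ^ (5 : ℕ) * b ^ (3 : ℕ)
        + (2856229 / 16384) * (1 - b) ^ (6 : ℕ) * b ^ (2 : ℕ)
        + (1208059 / 32768) * (1 - b) ^ (7 : ℕ) * b
        + (198273 / 65536) * (1 - b) ^ (8 : ℕ))
      + (1 - a) ^ (6 : ℕ) * a ^ (3 : ℕ) * ((323 / 32) * b ^ (8 : ℕ)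
        + (9891 / 128) * (1 - b) * b ^ (7 : ℕ)
        + (128835 / 512) * (1 - b) ^ (2 : ℕ) * b ^ (6 : ℕ)
        + (115949 / 256) * (1 - b) ^ (3 : ℕ) * b ^ (5 : ℕ)
        + (2004477 / 4096) * (1 - b) ^ (4 : ℕ) * b ^ (4 : ℕ)
        + (2633831 / 8192) * (1 - b) ^ (5 : ℕ) * b ^ (3 : ℕ)
        + (2017025 / 16384) * (1 - b) ^ (6 : ℕ) * b ^ (2 : ℕ)
        + (792189 / 32768) * (1 - b) ^ (7 : ℕ) * b
        + (27603 / 16384) * (1 - b) ^ (8 : ℕ))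
      + (1 - a) ^ (7 : ℕ) * a ^ (2 : ℕ) * ((21 / 4) * b ^ (8 : ℕ)
        + (81 / 2) * (1 - b) * b ^ (7 : ℕ)
        + (8463 / 64) * (1 - b) ^ (2 : ℕ) * b ^ (6 : ℕ)
        + (30347 / 128) * (1 - b) ^ (3 : ℕ) * b ^ (5 : ℕ)
        + (64743 / 256) * (1 - b) ^ (4 : ℕ) * b ^ (4 : ℕ)
        + (331641 / 2048) * (1 - b) ^ (5 : ℕ) * b ^ (3 : ℕ)
        + (242201 / 4096) * (1 - b) ^ (6 : ℕ) * b ^ (2 : ℕ)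
        + (86431 / 8192) * (1 - b) ^ (7 : ℕ) * b
        + (9147 / 16384) * (1 - b) ^ (8 : ℕ))
      + (1 - a) ^ (8 : ℕ) * a ^ (1 : ℕ) * ((27 / 16) * b ^ (8 : ℕ)
        + (837 / 64) * (1 - b) * b ^ (7 : ℕ)
        + (10929 / 256) * (1 - b) ^ (2 : ℕ) * b ^ (6 : ℕ)
        + (38935 / 512) * (1 - b) ^ (3 : ℕ) * b ^ (5 : ℕ)
        + (40905 / 512) * (1 - b) ^ (4 : ℕ) * b ^ (4 : ℕ)
        + (12727 / 256) * (1 - b) ^ (5 : ℕ) * b ^ (3 : ℕ)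
        + (70493 / 4096) * (1 - b) ^ (6 : ℕ) * b ^ (2 : ℕ)
        + (22327 / 8192) * (1 - b) ^ (7 : ℕ) * b
        + (345 / 4096) * (1 - b) ^ (8 : ℕ))
      + (1 - a) ^ (9 : ℕ) * a ^ (0 : ℕ) * ((1 / 4) * b ^ (8 : ℕ)
        + (31 / 16) * (1 - b) * b ^ (7 : ℕ)
        + (403 / 64) * (1 - b) ^ (2 : ℕ) * b ^ (6 : ℕ)
        + (1421 / 128) * (1 - b) ^ (3 : ℕ) * b ^ (5 : ℕ)
        + (1465 / 128) * (1 - b) ^ (4 : ℕ) * b ^ (4 : ℕ)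
        + (441 / 64) * (1 - b) ^ (5 : ℕ) * b ^ (3 : ℕ)
        + (2295 / 1024) * (1 - b) ^ (6 : ℕ) * b ^ (2 : ℕ)
        + (621 / 2048) * (1 - b) ^ (7 : ℕ) * b)) := by
    unfold Gp Bb QQ Nn; ring
  rw [key]
  generalize 1 - a = c at hu ⊢
  generalize 1 - b = e at hv ⊢
  positivity

set_option maxHeartbeats 2000000 in
theorem certX_ee (u v : ℝ) (hu : 0 ≤ u) (hu' : u ≤ 1) (hv : 0 ≤ v) (hv' : v ≤ 1) :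
    0 ≤ Gp ((1 + u) / 2) ((1 + v) / 2) ((3 * ((1 + u) / 2) ^ (2 : ℕ) - 1) / 2) ((3 * ((1 + v) / 2) ^ (2 : ℕ) - 1) / 2) (((1 + u) / 2) ^ (3 : ℕ)) := by
  obtain ⟨a, ha, rfl⟩ : ∃ a, 0 ≤ a ∧ u = 1 - a := ⟨1 - u, by linarith, by ring⟩
  obtain ⟨b, hb, rfl⟩ : ∃ b, 0 ≤ b ∧ v = 1 - b := ⟨1 - v, by linarith, by ring⟩
  have key : Gp ((1 + (1 - a)) / 2) ((1 + (1 - b)) / 2) ((3 * ((1 + (1 - a)) / 2) ^ (2 : ℕ) - 1) / 2) ((3 * ((1 + (1 - b)) / 2) ^ (2 : ℕ) - 1) / 2) (((1 + (1 - a)) / 2) ^ (3 : ℕ)) =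
      (1 - a) ^ (0 : ℕ) * a ^ (3 : ℕ) * ((1 - b) ^ (0 : ℕ) * b ^ (2 : ℕ)) * ((1 - a) ^ (0 : ℕ) * a ^ (8 : ℕ) * ((2655 / 65536) * b ^ (7 : ℕ)
        + (2787 / 8192) * (1 - b) * b ^ (6 : ℕ)
        + (158115 / 131072) * (1 - b) ^ (2 : ℕ) * b ^ (5 : ℕ)
        + (304287 / 131072) * (1 - b) ^ (3 : ℕ) * b ^ (4 : ℕ)
        + (169905 / 65536) * (1 - b) ^ (4 : ℕ) * b ^ (3 : ℕ)
        + (108507 / 65536) * (1 - b) ^ (5 : ℕ) * b ^ (2 : ℕ)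
        + (8937 / 16384) * (1 - b) ^ (6 : ℕ) * b
        + (69 / 1024) * (1 - b) ^ (7 : ℕ))
      + (1 - a) ^ (1 : ℕ) * a ^ (7 : ℕ) * ((2805 / 8192) * b ^ (7 : ℕ)
        + (46825 / 16384) * (1 - b) * b ^ (6 : ℕ)
        + (1322503 / 131072) * (1 - b) ^ (2 : ℕ) * b ^ (5 : ℕ)
        + (1268857 / 65536) * (1 - b) ^ (3 : ℕ) * b ^ (4 : ℕ)
        + (1414543 / 65536) * (1 - b) ^ (4 : ℕ) * b ^ (3 : ℕ)
        + (451403 / 32768) * (1 - b) ^ (5 : ℕ) * b ^ (2 : ℕ)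
        + (18603 / 4096) * (1 - b) ^ (6 : ℕ) * b
        + (1153 / 2048) * (1 - b) ^ (7 : ℕ))
      + (1 - a) ^ (2 : ℕ) * a ^ (6 : ℕ) * ((165123 / 131072) * b ^ (7 : ℕ)
        + (1368927 / 131072) * (1 - b) * b ^ (6 : ℕ)
        + (600851 / 16384) * (1 - b) ^ (2 : ℕ) * b ^ (5 : ℕ)
        + (2295671 / 32768) * (1 - b) ^ (3 : ℕ) * b ^ (4 : ℕ)
        + (637349 / 8192) * (1 - b) ^ (4 : ℕ) * b ^ (3 : ℕ)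
        + (810659 / 16384) * (1 - b) ^ (5 : ℕ) * b ^ (2 : ℕ)
        + (133179 / 8192) * (1 - b) ^ (6 : ℕ) * b
        + (4115 / 2048) * (1 - b) ^ (7 : ℕ))
      + (1 - a) ^ (3 : ℕ) * a ^ (5 : ℕ) * ((347031 / 131072) * b ^ (7 : ℕ)
        + (1425897 / 65536) * (1 - b) * b ^ (6 : ℕ)
        + (2483607 / 32768) * (1 - b) ^ (2 : ℕ) * b ^ (5 : ℕ)
        + (2354347 / 16384) * (1 - b) ^ (3 : ℕ) * b ^ (4 : ℕ)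
        + (2594259 / 16384) * (1 - b) ^ (4 : ℕ) * b ^ (3 : ℕ)
        + (817829 / 8192) * (1 - b) ^ (5 : ℕ) * b ^ (2 : ℕ)
        + (33245 / 1024) * (1 - b) ^ (6 : ℕ) * b
        + (2027 / 512) * (1 - b) ^ (7 : ℕ))
      + (1 - a) ^ (4 : ℕ) * a ^ (4 : ℕ) * ((229665 / 65536) * b ^ (7 : ℕ)
        + (1862677 / 65536) * (1 - b) * b ^ (6 : ℕ)
        + (800689 / 8192) * (1 - b) ^ (2 : ℕ) * b ^ (5 : ℕ)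
        + (748993 / 4096) * (1 - b) ^ (3 : ℕ) * b ^ (4 : ℕ)
        + (813401 / 4096) * (1 - b) ^ (4 : ℕ) * b ^ (3 : ℕ)
        + (126047 / 1024) * (1 - b) ^ (5 : ℕ) * b ^ (2 : ℕ)
        + (20059 / 512) * (1 - b) ^ (6 : ℕ) * b
        + (593 / 128) * (1 - b) ^ (7 : ℕ))
      + (1 - a) ^ (5 : ℕ) * a ^ (3 : ℕ) * ((198273 / 65536) * b ^ (7 : ℕ)
        + (787697 / 32768) * (1 - b) * b ^ (6 : ℕ)
        + (10359 / 128) * (1 - b) ^ (2 : ℕ) * b ^ (5 : ℕ)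
        + (75785 / 512) * (1 - b) ^ (3 : ℕ) * b ^ (4 : ℕ)
        + (320935 / 2048) * (1 - b) ^ (4 : ℕ) * b ^ (3 : ℕ)
        + (96471 / 1024) * (1 - b) ^ (5 : ℕ) * b ^ (2 : ℕ)
        + (3687 / 128) * (1 - b) ^ (6 : ℕ) * b
        + (205 / 64) * (1 - b) ^ (7 : ℕ))
      + (1 - a) ^ (6 : ℕ) * a ^ (2 : ℕ) * ((27603 / 16384) * b ^ (7 : ℕ)
        + (212715 / 16384) * (1 - b) * b ^ (6 : ℕ)
        + (346447 / 8192) * (1 - b) ^ (2 : ℕ) * b ^ (5 : ℕ)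
        + (152747 / 2048) * (1 - b) ^ (3 : ℕ) * b ^ (4 : ℕ)
        + (4845 / 64) * (1 - b) ^ (4 : ℕ) * b ^ (3 : ℕ)
        + (22109 / 512) * (1 - b) ^ (5 : ℕ) * b ^ (2 : ℕ)
        + (3141 / 256) * (1 - b) ^ (6 : ℕ) * b
        + (77 / 64) * (1 - b) ^ (7 : ℕ))
      + (1 - a) ^ (7 : ℕ) * a ^ (1 : ℕ) * ((9147 / 16384) * b ^ (7 : ℕ)
        + (33833 / 8192) * (1 - b) * b ^ (6 : ℕ)
        + (6575 / 512) * (1 - b) ^ (2 : ℕ) * b ^ (5 : ℕ)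
        + (5493 / 256) * (1 - b) ^ (3 : ℕ) * b ^ (4 : ℕ)
        + (10437 / 512) * (1 - b) ^ (4 : ℕ) * b ^ (3 : ℕ)
        + (2723 / 256) * (1 - b) ^ (5 : ℕ) * b ^ (2 : ℕ)
        + (21 / 8) * (1 - b) ^ (6 : ℕ) * b
        + (3 / 16) * (1 - b) ^ (7 : ℕ))
      + (1 - a) ^ (8 : ℕ) * a ^ (0 : ℕ) * ((345 / 4096) * b ^ (7 : ℕ)
        + (1217 / 2048) * (1 - b) * b ^ (6 : ℕ)
        + (893 / 512) * (1 - b) ^ (2 : ℕ) * b ^ (5 : ℕ)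
        + (347 / 128) * (1 - b) ^ (3 : ℕ) * b ^ (4 : ℕ)
        + (299 / 128) * (1 - b) ^ (4 : ℕ) * b ^ (3 : ℕ)
        + (67 / 64) * (1 - b) ^ (5 : ℕ) * b ^ (2 : ℕ)
        + (3 / 16) * (1 - b) ^ (6 : ℕ) * b)) := by
    unfold Gp Bb QQ Nn; ring
  rw [key]
  generalize 1 - a = c at hu ⊢
  generalize 1 - b = e at hv ⊢
  positivity

end Vale.P154.Q3
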