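import Vale.Agent.P154.Q3Region

/-!
# The two inequalities in terms of the moments
-/

namespace Vale.P154.Q3

theorem core_gain {x y m n Q : ℝ} (hx : Adm x m) (hy : Adm y n) (x1 : x < 1) (y1 : y < 1)
    (hR : ((Q - 1 + 3 * x ^ 2 * y ^ 2) / 2 - m * n) ^ 2 = (x ^ 6 - m ^ 2) * (y ^ 6 - n ^ 2)) :
    0 ≤ Bb x y m n * Q + Nn x y m n * ((1 - x ^ 2) * (1 - y ^ 2)) := by
  have a0 := hx.x0
  have b0 := hy.x0
  have L0 : 0 < (1 - x) * (1 - y) := mul_pos (sub_pos.2 x1) (sub_pos.2 y1)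
  have hx3 := pow_nonneg a0 3
  have hy3 := pow_nonneg b0 3
  have um := sub_nonneg.2 hx.ub
  have un := sub_nonneg.2 hy.ub
  have pm : 0 ≤ x ^ 3 + m := by linarith [hx.lb]
  have pn : 0 ≤ y ^ 3 + n := by linarith [hy.lb]
  -- the product of the three masses dominates its linearisation
  set W := y ^ 3 * (x ^ 3 - m) * (1 - y) ^ 2 + x ^ 3 * (y ^ 3 - n) * (1 - x) ^ 2 with hW
  set D := ((Q - 1 + 3 * x ^ 2 * y ^ 2) / 2 - m * n) * ((1 - x) * (1 - y)) with hD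
  have W0 : 0 ≤ W := by rw [hW]; positivity
  have key : D ^ 2 ≤ W ^ 2 := by
    have e : D ^ 2 = ((x ^ 3 + m) * (y ^ 3 + n))
        * ((x ^ 3 - m) * (y ^ 3 - n) * ((1 - x) * (1 - y)) ^ 2) := by
      rw [hD, mul_pow, hR]; ring
    have h4 : (x ^ 3 + m) * (y ^ 3 + n) ≤ (2 * x ^ 3) * (2 * y ^ 3) :=
      mul_le_mul (by linarith) (by linarith) pn (by linarith)
    have h5 := mul_le_mul_of_nonneg_right h4
      (mul_nonneg (mul_nonneg um un) (sq_nonneg ((1 - x) * (1 - y))))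
    have h6 := sq_nonneg (y ^ 3 * (x ^ 3 - m) * (1 - y) ^ 2 - x ^ 3 * (y ^ 3 - n) * (1 - x) ^ 2)
    rw [e, hW]
    linarith
  have hDW : -W ≤ D := (abs_le_of_sq_le_sq' key W0).1
  have hQ : QQ x y m n ≤ Q * ((1 - x) * (1 - y)) := by
    have e : Q * ((1 - x) * (1 - y)) - QQ x y m n = 2 * (D + W) := by
      rw [hD, hW]; unfold QQ; ring
    linarith
  have g := Gp_nonneg hx hy
  have := mul_le_mul_of_nonneg_left hQ (Bb_nonneg hx hy)
  unfold Gp at g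
  refine nonneg_of_mul_nonneg_left ?_ L0
  linarith

theorem core_sub {x y m n Q : ℝ} (hx : Adm x m) (hy : Adm y n)
    (hQ : 0 ≤ Q) (hN : Nn x y m n ≤ 0)
    (hR : ((Q - 1 + 3 * x ^ 2 * y ^ 2) / 2 - m * n) ^ 2 = (x ^ 6 - m ^ 2) * (y ^ 6 - n ^ 2)) :
    0 ≤ Tt x y m n * Q - Nn x y m n * ((1 - x ^ 2) * (1 - y ^ 2)) := by
  have a0 := hx.x0
  have b0 := hy.x0
  have qr : 0 ≤ (1 - x ^ 2) * (1 - y ^ 2) :=
    mul_nonneg (by nlinarith [hx.x1]) (by nlinarith [hy.x1])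
  rcases le_total 0 (Tt x y m n) with hT | hT
  · have := mul_nonneg hT hQ
    have := mul_nonneg (neg_nonneg.2 hN) qr
    linarith
  · have hd : 0 ≤ x ^ 3 * y ^ 3 - m * n := by
      nlinarith [mul_nonneg (by linarith [hx.lb] : 0 ≤ x ^ 3 + m) (sub_nonneg.2 hy.ub),
        mul_nonneg (sub_nonneg.2 hx.ub) (by linarith [hy.lb] : 0 ≤ y ^ 3 + n)]
    have hsq : ((Q - 1 + 3 * x ^ 2 * y ^ 2) / 2 - m * n) ^ 2 ≤ (x ^ 3 * y ^ 3 - m * n) ^ 2 := by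
      rw [hR]; nlinarith [sq_nonneg (x ^ 3 * n - y ^ 3 * m)]
    have hup := (abs_le_of_sq_le_sq' hsq hd).2
    have hQle : Q ≤ (1 - x * y) ^ 2 * (1 + 2 * x * y) := by nlinarith
    have := mul_le_mul_of_nonpos_left hQle hT
    have f := Fp_nonneg hx hy
    unfold Fp at f
    linarith

end Vale.P154.Q3
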