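import Mathlib

/-!
# Polynomials behind the three-state ferromagnetic certificate

`x, y` are the square roots of the half chi-squares of the two vectors and `m, n` their half third
moments.
-/

namespace Vale.P154.Q3

/-- The numerator of the averaged chi-square minus two. -/
noncomputable def Nn (x y m n : ℝ) : ℝ :=
  (-2 + 2 * x ^ 2 + 2 * y ^ 2 + 2 * x ^ 2 * y ^ 2) * (1 - x ^ 2 * y ^ 2)
    - 4 * x ^ 2 * (1 - x ^ 2) * n - 4 * y ^ 2 * (1 - y ^ 2) * m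

/-- The bracket of the gain inequality. -/
noncomputable def Bb (x y m n : ℝ) : ℝ :=
  (1 - x ^ 2) * (1 - y ^ 2) + (1 - 3 * y ^ 2 + 2 * n) * (1 - x ^ 2) * (1 - 2 * x ^ 2) / 2
    + (1 - 3 * x ^ 2 + 2 * m) * (1 - y ^ 2) * (1 - 2 * y ^ 2) / 2
    - (1 - y ^ 2) ^ 3 * (m - x ^ 4) - (1 - x ^ 2) ^ 3 * (n - y ^ 4)

/-- The lower bound for the product of the three masses, cleared of denominators. -/
noncomputable def QQ (x y m n : ℝ) : ℝ :=
  (1 - 3 * x ^ 2 * y ^ 2 + 2 * m * n) * ((1 - x) * (1 - y))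
    - 2 * y ^ 3 * (x ^ 3 - m) * (1 - y) ^ 2 - 2 * x ^ 3 * (y ^ 3 - n) * (1 - x) ^ 2

/-- The gain polynomial with the product bound taken at `M`. -/
noncomputable def Gp (x y m n M : ℝ) : ℝ :=
  Bb x y m n * QQ x y M n + Nn x y m n * ((1 - x ^ 2) * (1 - y ^ 2)) * ((1 - x) * (1 - y))

/-- The bracket of the subadditivity inequality. -/
noncomputable def Tt (x y m n : ℝ) : ℝ :=
  (2 * x ^ 2 + 2 * y ^ 2 - 2 - x ^ 2 * y ^ 2 / 4) * ((1 - x ^ 2) * (1 - y ^ 2))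
    - 3 * y ^ 2 * (1 - y ^ 2) ^ 2 * (m - x ^ 4) - 3 * x ^ 2 * (1 - x ^ 2) ^ 2 * (n - y ^ 4)

/-- The subadditivity polynomial at the largest product of the three masses. -/
noncomputable def Fp (x y m n : ℝ) : ℝ :=
  Tt x y m n * ((1 - x * y) ^ 2 * (1 + 2 * x * y))
    - Nn x y m n * ((1 - x ^ 2) * (1 - y ^ 2))

theorem Gp_swap (x y m n : ℝ) : Gp y x n m n = Gp x y m n m := by
  unfold Gp Bb QQ Nn; ring

theorem Fp_swap (x y m n : ℝ) : Fp y x n m = Fp x y m n := by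
  unfold Fp Tt Nn; ring

theorem Bb_swap (x y m n : ℝ) : Bb y x n m = Bb x y m n := by
  unfold Bb; ring

end Vale.P154.Q3
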