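import Vale.Agent.P154.Q3CertB
import Vale.Agent.P154.Q3CertG
import Vale.Agent.P154.Q3CertX
import Vale.Agent.P154.Q3CertF

/-!
# Positivity of the certificate polynomials on the whole region
-/

namespace Vale.P154.Q3

/-- The admissible third moments at radius `x`. -/
structure Adm (x m : ℝ) : Prop where
  x0 : 0 ≤ x
  x1 : x ≤ 1
  lb : -x ^ 3 ≤ m
  ub : m ≤ x ^ 3
  edge : (3 * x ^ 2 - 1) / 2 ≤ m

/-- An endpoint of the admissible interval, in parametrised form. -/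
def End (k : Fin 3) (x m : ℝ) : Prop :=
  if k = 0 then 0 ≤ x ∧ x ≤ 1 ∧ m = x ^ 3
  else if k = 1 then ∃ u, 0 ≤ u ∧ u ≤ 1 ∧ x = u / 2 ∧ m = -(u / 2) ^ 3
  else ∃ u, 0 ≤ u ∧ u ≤ 1 ∧ x = (1 + u) / 2 ∧ m = (3 * ((1 + u) / 2) ^ 2 - 1) / 2

theorem Adm.exists_low {x m : ℝ} (h : Adm x m) :
    ∃ l, l ≤ m ∧ (End 1 x l ∨ End 2 x l) := by
  obtain ⟨x0, x1, lb, ub, edge⟩ := h
  rcases le_total x (1 / 2) with hx | hx
  · refine ⟨-x ^ 3, lb, Or.inl ?_⟩
    simp only [End]
    exact ⟨2 * x, by linarith, by linarith, by ring, by ring⟩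
  · refine ⟨(3 * x ^ 2 - 1) / 2, edge, Or.inr ?_⟩
    simp only [End]
    exact ⟨2 * x - 1, by linarith, by linarith, by ring, by ring⟩

theorem Adm.high {x m : ℝ} (h : Adm x m) : End 0 x (x ^ 3) := by
  simp [End, h.x0, h.x1]

/-- A function which is affine plus a nonpositive multiple of the square is nonnegative between
two points where it is nonnegative. -/
theorem concave_interp {f : ℝ → ℝ} {α β γ : ℝ} (hf : ∀ t, f t = α + β * t + γ * t ^ 2)
    (hγ : γ ≤ 0) {l t r : ℝ} (hl : l ≤ t) (hr : t ≤ r) (fl : 0 ≤ f l) (fr : 0 ≤ f r) :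
    0 ≤ f t := by
  rw [hf] at fl fr ⊢
  rcases (hl.trans hr).eq_or_lt with e | e
  · obtain rfl : l = t := le_antisymm hl (e ▸ hr)
    exact fl
  · nlinarith [mul_nonneg (sub_nonneg.2 hr) fl, mul_nonneg (sub_nonneg.2 hl) fr,
      mul_nonneg (mul_nonneg (sub_nonneg.2 hl) (sub_nonneg.2 hr))
        (mul_nonneg (neg_nonneg.2 hγ) (sub_pos.2 e).le)]

theorem Bb_end {i j : Fin 3} {x y m n : ℝ} (hm : End i x m) (hn : End j y n) :
    0 ≤ Bb x y m n := by
  fin_cases i <;> fin_cases j <;> simp [End] at hm hn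
  all_goals
    first
      | (obtain ⟨a0, a1, rfl⟩ := hm; obtain ⟨b0, b1, rfl⟩ := hn
         exact certB_hh x y a0 a1 b0 b1)
      | (obtain ⟨a0, a1, rfl⟩ := hm; obtain ⟨v, b0, b1, rfl, rfl⟩ := hn
         first | exact certB_hn x v a0 a1 b0 b1 | exact certB_he x v a0 a1 b0 b1)
      | (obtain ⟨u, a0, a1, rfl, rfl⟩ := hm; obtain ⟨b0, b1, rfl⟩ := hn
         rw [← Bb_swap]
         first | exact certB_hn y u b0 b1 a0 a1 | exact certB_he y u b0 b1 a0 a1)
      | (obtain ⟨u, a0, a1, rfl, rfl⟩ := hm; obtain ⟨v, b0, b1, rfl, rfl⟩ := hn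
         first
           | exact certB_nn u v a0 a1 b0 b1
           | exact certB_ne u v a0 a1 b0 b1
           | exact certB_ee u v a0 a1 b0 b1
           | (rw [← Bb_swap]; exact certB_ne v u b0 b1 a0 a1))

theorem Gp_end {i j : Fin 3} {x y m n : ℝ} (hm : End i x m) (hn : End j y n) :
    0 ≤ Gp x y m n m := by
  fin_cases i <;> fin_cases j <;> simp [End] at hm hn
  all_goals
    first
      | (obtain ⟨a0, a1, rfl⟩ := hm; obtain ⟨b0, b1, rfl⟩ := hn
         exact certG_hh x y a0 a1 b0 b1)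
      | (obtain ⟨a0, a1, rfl⟩ := hm; obtain ⟨v, b0, b1, rfl, rfl⟩ := hn
         first | exact certG_hn x v a0 a1 b0 b1 | exact certG_he x v a0 a1 b0 b1)
      | (obtain ⟨u, a0, a1, rfl, rfl⟩ := hm; obtain ⟨b0, b1, rfl⟩ := hn
         rw [← Gp_swap]
         first | exact certG_hn y u b0 b1 a0 a1 | exact certG_he y u b0 b1 a0 a1)
      | (obtain ⟨u, a0, a1, rfl, rfl⟩ := hm; obtain ⟨v, b0, b1, rfl, rfl⟩ := hn
         first
           | exact certG_nn u v a0 a1 b0 b1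
           | exact certG_ne u v a0 a1 b0 b1
           | exact certG_ee u v a0 a1 b0 b1
           | (rw [← Gp_swap]; exact certG_ne v u b0 b1 a0 a1))

theorem Fp_end {i j : Fin 3} {x y m n : ℝ} (hm : End i x m) (hn : End j y n) :
    0 ≤ Fp x y m n := by
  fin_cases i <;> fin_cases j <;> simp [End] at hm hn
  all_goals
    first
      | (obtain ⟨a0, a1, rfl⟩ := hm; obtain ⟨b0, b1, rfl⟩ := hn
         exact certF_hh x y a0 a1 b0 b1)
      | (obtain ⟨a0, a1, rfl⟩ := hm; obtain ⟨v, b0, b1, rfl, rfl⟩ := hn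
         first | exact certF_hn x v a0 a1 b0 b1 | exact certF_he x v a0 a1 b0 b1)
      | (obtain ⟨u, a0, a1, rfl, rfl⟩ := hm; obtain ⟨b0, b1, rfl⟩ := hn
         rw [← Fp_swap]
         first | exact certF_hn y u b0 b1 a0 a1 | exact certF_he y u b0 b1 a0 a1)
      | (obtain ⟨u, a0, a1, rfl, rfl⟩ := hm; obtain ⟨v, b0, b1, rfl, rfl⟩ := hn
         first
           | exact certF_nn u v a0 a1 b0 b1
           | exact certF_ne u v a0 a1 b0 b1
           | exact certF_ee u v a0 a1 b0 b1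
           | (rw [← Fp_swap]; exact certF_ne v u b0 b1 a0 a1))

theorem Gp_extra {i j : Fin 3} (hi : i = 1 ∨ i = 2) (hj : j = 1 ∨ j = 2) {x y m n : ℝ}
    (hm : End i x m) (hn : End j y n) : 0 ≤ Gp x y m n (x ^ 3) := by
  rcases hi with rfl | rfl <;> rcases hj with rfl | rfl <;> simp [End] at hm hn <;>
    obtain ⟨u, a0, a1, rfl, rfl⟩ := hm <;> obtain ⟨v, b0, b1, rfl, rfl⟩ := hn
  · exact certX_nn u v a0 a1 b0 b1
  · exact certX_ne u v a0 a1 b0 b1
  · exact certX_en u v a0 a1 b0 b1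
  · exact certX_ee u v a0 a1 b0 b1

theorem Bb_nonneg {x y m n : ℝ} (hx : Adm x m) (hy : Adm y n) : 0 ≤ Bb x y m n := by
  obtain ⟨l, hl, hle⟩ := hx.exists_low
  obtain ⟨k, hk, hke⟩ := hy.exists_low
  have fix_n : ∀ {i : Fin 3} {t : ℝ}, End i x t → 0 ≤ Bb x y t n := by
    intro i t ht
    refine concave_interp (f := fun n => Bb x y t n) (α := Bb x y t 0)
      (β := Bb x y t 1 - Bb x y t 0) (γ := 0) (fun s => by unfold Bb; ring) le_rfl hk hy.ub ?_
      (Bb_end ht hy.high)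
    rcases hke with h | h <;> exact Bb_end ht h
  refine concave_interp (f := fun m => Bb x y m n) (α := Bb x y 0 n)
    (β := Bb x y 1 n - Bb x y 0 n) (γ := 0) (fun s => by unfold Bb; ring) le_rfl hl hx.ub ?_
    (fix_n hx.high)
  rcases hle with h | h <;> exact fix_n h

theorem Fp_nonneg {x y m n : ℝ} (hx : Adm x m) (hy : Adm y n) : 0 ≤ Fp x y m n := by
  obtain ⟨l, hl, hle⟩ := hx.exists_low
  obtain ⟨k, hk, hke⟩ := hy.exists_low
  have fix_n : ∀ {i : Fin 3} {t : ℝ}, End i x t → 0 ≤ Fp x y t n := by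
    intro i t ht
    refine concave_interp (f := fun n => Fp x y t n) (α := Fp x y t 0)
      (β := Fp x y t 1 - Fp x y t 0) (γ := 0) (fun s => by unfold Fp Tt Nn; ring) le_rfl hk
      hy.ub ?_ (Fp_end ht hy.high)
    rcases hke with h | h <;> exact Fp_end ht h
  refine concave_interp (f := fun m => Fp x y m n) (α := Fp x y 0 n)
    (β := Fp x y 1 n - Fp x y 0 n) (γ := 0) (fun s => by unfold Fp Tt Nn; ring) le_rfl hl hx.ub ?_
    (fix_n hx.high)
  rcases hle with h | h <;> exact fix_n h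

theorem Gp_nonneg_of_le {x y m n : ℝ} (hx : Adm x m) (hy : Adm y n) (hxy : x ≤ y) :
    0 ≤ Gp x y m n m := by
  obtain ⟨x0, x1, lb, ub, edge⟩ := hx
  have hx : Adm x m := ⟨x0, x1, lb, ub, edge⟩
  have h1x : 0 ≤ 1 - x := sub_nonneg.2 x1
  have h1y : 0 ≤ 1 - y := sub_nonneg.2 hy.x1
  have q2 : 0 ≤ 1 - x ^ 2 := by nlinarith
  have r2 : 0 ≤ 1 - y ^ 2 := by nlinarith [hy.x0]
  obtain ⟨k, hk, hke⟩ := hy.exists_low
  -- reduction in the second variable
  refine concave_interp (f := fun n => Gp x y m n m)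
    (γ := -((1 - x ^ 2) * x ^ 4) *
      (2 * m * ((1 - x) * (1 - y)) + 2 * x ^ 3 * (1 - x) ^ 2))
    (α := Gp x y m 0 m) (β := (Gp x y m 1 m - Gp x y m 0 m) + ((1 - x ^ 2) * x ^ 4) *
      (2 * m * ((1 - x) * (1 - y)) + 2 * x ^ 3 * (1 - x) ^ 2))
    (fun s => by unfold Gp Bb QQ Nn; ring) ?_ hk hy.ub ?_ ?_
  · have e : 0 ≤ 2 * m * ((1 - x) * (1 - y)) + 2 * x ^ 3 * (1 - x) ^ 2 := by
      nlinarith [mul_nonneg (by linarith : 0 ≤ m + x ^ 3) (mul_nonneg h1x h1y),
        mul_nonneg (mul_nonneg (pow_nonneg x0 3) h1x) (sub_nonneg.2 hxy)]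
    have := mul_nonneg (mul_nonneg q2 (pow_nonneg x0 4)) e
    linarith
  rotate_left
  -- first variable, at the upper end
  · obtain ⟨l, hl, hle⟩ := hx.exists_low
    refine concave_interp (f := fun m => Gp x y m (y ^ 3) m)
      (γ := -((1 - y ^ 2) * y ^ 4) *
        (2 * y ^ 3 * ((1 - x) * (1 - y)) + 2 * y ^ 3 * (1 - y) ^ 2))
      (α := Gp x y 0 (y ^ 3) 0) (β := (Gp x y 1 (y ^ 3) 1 - Gp x y 0 (y ^ 3) 0)
        + ((1 - y ^ 2) * y ^ 4) *
          (2 * y ^ 3 * ((1 - x) * (1 - y)) + 2 * y ^ 3 * (1 - y) ^ 2))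
      (fun s => by unfold Gp Bb QQ Nn; ring) ?_ hl hx.ub ?_ (Gp_end hx.high hy.high)
    · have hy0 := hy.x0
      have : 0 ≤ ((1 - y ^ 2) * y ^ 4) *
        (2 * y ^ 3 * ((1 - x) * (1 - y)) + 2 * y ^ 3 * (1 - y) ^ 2) := by positivity
      linarith
    · rcases hle with h | h <;> exact Gp_end h hy.high
  -- first variable, at the lower end
  · obtain ⟨l, hl, hle⟩ := hx.exists_low
    have endl : 0 ≤ Gp x y l k l := by
      rcases hle with h | h <;> rcases hke with g | g <;> exact Gp_end h g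
    have endh : 0 ≤ Gp x y (x ^ 3) k (x ^ 3) := by
      rcases hke with g | g <;> exact Gp_end hx.high g
    by_cases hs : 0 ≤ 2 * k * ((1 - x) * (1 - y)) + 2 * y ^ 3 * (1 - y) ^ 2
    · refine concave_interp (f := fun m => Gp x y m k m)
        (γ := -((1 - y ^ 2) * y ^ 4) *
          (2 * k * ((1 - x) * (1 - y)) + 2 * y ^ 3 * (1 - y) ^ 2))
        (α := Gp x y 0 k 0) (β := (Gp x y 1 k 1 - Gp x y 0 k 0) + ((1 - y ^ 2) * y ^ 4) *
          (2 * k * ((1 - x) * (1 - y)) + 2 * y ^ 3 * (1 - y) ^ 2))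
        (fun s => by unfold Gp Bb QQ Nn; ring) ?_ hl hx.ub endl endh
      have := mul_nonneg (mul_nonneg r2 (pow_nonneg hy.x0 4)) hs
      linarith
    · -- the product bound decreases in the first variable
      have hyk : Adm y k := by
        refine ⟨hy.x0, hy.x1, ?_, hk.trans hy.ub, ?_⟩ <;> rcases hke with g | g <;>
          simp [End] at g <;> obtain ⟨v, b0, b1, rfl, rfl⟩ := g <;>
          nlinarith [mul_nonneg b0 b0, mul_nonneg (sub_nonneg.2 b1) (mul_nonneg b0 b0),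
            mul_nonneg (sub_nonneg.2 b1) b0]
      have hq : QQ x y (x ^ 3) k ≤ QQ x y m k := by
        have e : QQ x y m k - QQ x y (x ^ 3) k =
            (x ^ 3 - m) * -(2 * k * ((1 - x) * (1 - y)) + 2 * y ^ 3 * (1 - y) ^ 2) := by
          unfold QQ; ring
        nlinarith [mul_nonneg (sub_nonneg.2 ub)
          (by linarith : 0 ≤ -(2 * k * ((1 - x) * (1 - y)) + 2 * y ^ 3 * (1 - y) ^ 2))]
      have low : 0 ≤ Gp x y m k (x ^ 3) := by
        refine concave_interp (f := fun m => Gp x y m k (x ^ 3)) (γ := 0)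
          (α := Gp x y 0 k (x ^ 3)) (β := Gp x y 1 k (x ^ 3) - Gp x y 0 k (x ^ 3))
          (fun s => by unfold Gp Bb QQ Nn; ring) le_rfl hl hx.ub ?_ endh
        rcases hle with h | h <;> rcases hke with g | g
        · exact Gp_extra (Or.inl rfl) (Or.inl rfl) h g
        · exact Gp_extra (Or.inl rfl) (Or.inr rfl) h g
        · exact Gp_extra (Or.inr rfl) (Or.inl rfl) h g
        · exact Gp_extra (Or.inr rfl) (Or.inr rfl) h g
      have := mul_le_mul_of_nonneg_left hq (Bb_nonneg hx hyk)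
      unfold Gp at low ⊢
      linarith

theorem Gp_nonneg {x y m n : ℝ} (hx : Adm x m) (hy : Adm y n) : 0 ≤ Gp x y m n m := by
  rcases le_total x y with h | h
  · exact Gp_nonneg_of_le hx hy h
  · rw [← Gp_swap]
    exact Gp_nonneg_of_le hy hx h

end Vale.P154.Q3
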