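import Vale.Agent.P154.Q4Core

/-!
# Four states: inequalities between the moments
-/

noncomputable section

namespace Vale.P154.Q4

open Finset

theorem chi_nonneg (y : Fin 4 → ℝ) : 0 ≤ chi y := by unfold chi; positivity

theorem chi_le_three' {y : Fin 4 → ℝ} (hy : Simp y) : chi y ≤ 3 := by
  obtain ⟨hy1, hy2⟩ := hy
  rw [Fin.sum_univ_four] at hy2
  have hp : ∀ i j, 0 ≤ (1 + y i) * (1 + y j) := fun i j =>
    mul_nonneg (by linarith [hy1 i]) (by linarith [hy1 j])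
  simp only [chi, Fin.sum_univ_four]
  push_cast
  nlinarith [hp 0 1, hp 0 2, hp 0 3, hp 1 2, hp 1 3, hp 2 3]

/-- Cauchy-Schwarz between the second, third and fourth moments. -/
theorem m3_sq_le {y : Fin 4 → ℝ} (hy : ∑ i, y i = 0) : m3 y ^ 2 ≤ chi y * e4 y := by
  have h := Finset.sum_mul_sq_le_sq_mul_sq Finset.univ y fun i => y i ^ 2 - chi y
  have e1 : ∑ i, y i * (y i ^ 2 - chi y) = 4 * m3 y := by
    simp only [mul_sub, Finset.sum_sub_distrib, ← Finset.sum_mul, hy, m3, ← pow_succ']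
    ring
  have e2 : ∑ i, (y i ^ 2 - chi y) ^ 2 = 4 * e4 y := by
    simp only [e4, chi, Fin.sum_univ_four]
    push_cast
    ring
  have e3 : ∑ i, y i ^ 2 = 4 * chi y := by simp [chi]; ring
  rw [e1, e2, e3] at h
  linarith

theorem e4_le {y : Fin 4 → ℝ} (hy : ∑ i, y i = 0) : e4 y ≤ 4 / 3 * chi y ^ 2 := by
  rw [Fin.sum_univ_four] at hy
  have e : y 3 = -y 0 - y 1 - y 2 := by linarith
  set a := (y 0 + y 1) / 2 with ha
  set b := (y 0 + y 2) / 2 with hb
  set c := (y 1 + y 2) / 2 with hc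
  have h0 : y 0 = a + b - c := by rw [ha, hb, hc]; ring
  have h1 : y 1 = a - b + c := by rw [ha, hb, hc]; ring
  have h2 : y 2 = -a + b + c := by rw [ha, hb, hc]; ring
  have hC : chi y = a ^ 2 + b ^ 2 + c ^ 2 := by
    simp only [chi, Fin.sum_univ_four, e, h0, h1, h2]; push_cast; ring
  have he : e4 y = 4 * (a ^ 2 * b ^ 2 + a ^ 2 * c ^ 2 + b ^ 2 * c ^ 2) := by
    simp only [e4, hC, Fin.sum_univ_four, e, h0, h1, h2]; ring
  rw [hC, he]
  nlinarith [sq_nonneg (a ^ 2 - b ^ 2), sq_nonneg (b ^ 2 - c ^ 2), sq_nonneg (a ^ 2 - c ^ 2)]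

theorem e4_nonneg {y : Fin 4 → ℝ} : 0 ≤ e4 y := by
  have h := sq_sum_le_card_mul_sum_sq (s := Finset.univ) (f := fun i => y i ^ 2)
  simp only [← pow_mul, Finset.card_univ, Fintype.card_fin] at h
  push_cast at h
  simp only [e4, chi]
  push_cast
  linarith

theorem m3_sq_le_cube {y : Fin 4 → ℝ} (hy : ∑ i, y i = 0) :
    m3 y ^ 2 ≤ 4 / 3 * chi y ^ 3 := by
  refine (m3_sq_le hy).trans ((mul_le_mul_of_nonneg_left (e4_le hy) (chi_nonneg y)).trans_eq ?_)
  ring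

/-- The product of the four relative likelihoods. -/
theorem prod_one_add {y : Fin 4 → ℝ} (hy : ∑ i, y i = 0) :
    ∏ i, (1 + y i) = (1 - chi y) ^ 2 + 4 / 3 * m3 y - e4 y := by
  rw [Fin.sum_univ_four] at hy
  have e : y 3 = -y 0 - y 1 - y 2 := by linarith
  simp only [m3, e4, chi, Fin.sum_univ_four, Fin.prod_univ_four, e]
  push_cast
  ring

theorem chi_smul (l : ℝ) (y : Fin 4 → ℝ) : chi (fun i => l * y i) = l ^ 2 * chi y := by
  simp [chi, mul_pow, ← Finset.mul_sum]; ring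

theorem m3_smul (l : ℝ) (y : Fin 4 → ℝ) : m3 (fun i => l * y i) = l ^ 3 * m3 y := by
  simp [m3, mul_pow, ← Finset.mul_sum]; ring

theorem e4_smul (l : ℝ) (y : Fin 4 → ℝ) : e4 (fun i => l * y i) = l ^ 4 * e4 y := by
  rw [e4, e4, chi_smul]
  simp [mul_pow, ← Finset.mul_sum]; ring

end Vale.P154.Q4
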