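import Vale.Agent.P154.Q4Core

/-!
# Four states: cones from triangles with polynomial vertices

The features of a point of a triangle are a nonnegative combination of the polarised features of
its vertices. For vertices which are polynomials in a parameter, the Bernstein numbers of these
polarised features are checked to be nonnegative multiples of given integer generators.
-/

noncomputable section

namespace Vale.P154.Q4

open Finset

/-- The value of an integer polynomial. -/
def evalP : List ℤ → ℝ → ℝ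
  | [], _ => 0
  | c :: l, x => c + x * evalP l x

theorem evalP_addL : ∀ (p q : List ℤ) (x : ℝ), evalP (addL p q) x = evalP p x + evalP q x
  | [], q, x => by simp [addL, evalP]
  | a :: p, [], x => by simp [addL, evalP]
  | a :: p, b :: q, x => by simp only [addL, evalP, evalP_addL p q x]; push_cast; ring

theorem evalP_smul : ∀ (k : ℤ) (p : List ℤ) (x : ℝ), evalP (p.map (k * ·)) x = k * evalP p x
  | k, [], x => by simp [evalP]
  | k, a :: p, x => by simp only [List.map_cons, evalP, evalP_smul k p x]; push_cast; ring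

/-- The product of two integer polynomials. -/
def mulP : List ℤ → List ℤ → List ℤ
  | [], _ => []
  | a :: p, q => addL (q.map (a * ·)) (0 :: mulP p q)

theorem evalP_mulP : ∀ (p q : List ℤ) (x : ℝ), evalP (mulP p q) x = evalP p x * evalP q x
  | [], q, x => by simp [mulP, evalP]
  | a :: p, q, x => by
    simp only [mulP, evalP_addL, evalP_smul, evalP, evalP_mulP p q x]; push_cast; ring

/-- A vertex: numerators of the third and fourth moments over a denominator. -/
abbrev Vert := List ℤ × List ℤ × List ℤ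

/-- A real point in homogeneous coordinates. -/
abbrev Pt := ℝ × ℝ × ℝ

/-- The value of a vertex. -/
def evalV (X : Vert) (x : ℝ) : Pt := (evalP X.1 x, evalP X.2.1 x, evalP X.2.2 x)

/-- The polarised features of two points, doubled. -/
def hom (C : ℝ) (X Y : Pt) : List ℝ :=
  [2 * (X.2.2 * Y.2.2), C * (2 * (X.2.2 * Y.2.2)), X.1 * Y.2.2 + Y.1 * X.2.2,
    X.2.1 * Y.2.2 + Y.2.1 * X.2.2, C ^ 2 * (2 * (X.2.2 * Y.2.2)),
    C * (X.1 * Y.2.2 + Y.1 * X.2.2), 2 * (X.1 * Y.1), C * (X.2.1 * Y.2.2 + Y.2.1 * X.2.2),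
    C ^ 3 * (2 * (X.2.2 * Y.2.2)), X.1 * Y.2.1 + Y.1 * X.2.1,
    C ^ 2 * (X.1 * Y.2.2 + Y.1 * X.2.2), 2 * (X.2.1 * Y.2.1), C * (2 * (X.1 * Y.1)),
    C ^ 2 * (X.2.1 * Y.2.2 + Y.2.1 * X.2.2), C ^ 4 * (2 * (X.2.2 * Y.2.2))]

/-- Three times the square of the parameter. -/
def cPoly : List ℤ := [0, 0, 3]

/-- The polarised features of two vertices, as polynomials. -/
def pairPolys (X Y : Vert) : List (List ℤ) :=
  let dd := (mulP X.2.2 Y.2.2).map (2 * ·)
  let md := addL (mulP X.1 Y.2.2) (mulP Y.1 X.2.2)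
  let ed := addL (mulP X.2.1 Y.2.2) (mulP Y.2.1 X.2.2)
  let mm := (mulP X.1 Y.1).map (2 * ·)
  let me := addL (mulP X.1 Y.2.1) (mulP Y.1 X.2.1)
  let ee := (mulP X.2.1 Y.2.1).map (2 * ·)
  let c2 := mulP cPoly cPoly
  [dd, mulP cPoly dd, md, ed, mulP c2 dd, mulP cPoly md, mm, mulP cPoly ed,
    mulP (mulP c2 cPoly) dd, me, mulP c2 md, ee, mulP cPoly mm, mulP c2 ed, mulP (mulP c2 c2) dd]

theorem eval_pairPolys (X Y : Vert) (x : ℝ) :
    (pairPolys X Y).map (fun p => evalP p x) = hom (3 * x ^ 2) (evalV X x) (evalV Y x) := by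
  have hc : evalP cPoly x = 3 * x ^ 2 := by simp [cPoly, evalP]; ring
  simp only [pairPolys, hom, evalV, List.map_cons, List.map_nil, evalP_mulP, evalP_addL,
    evalP_smul, hc, List.cons.injEq, and_true]
  push_cast
  refine ⟨?_, ?_, ?_, ?_, ?_, ?_, ?_, ?_, ?_, ?_, ?_, ?_, ?_, ?_, ?_⟩
  all_goals first | trivial | ring

/-- Multiplication of a homogeneous polynomial by `p v + q u`, carrying a coefficient. -/
def mulLin (p q : ℤ) : ℤ → List ℤ → List ℤ
  | prev, [] => [q * prev]
  | prev, c :: l => (p * c + q * prev) :: mulLin p q c l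

/-- The value of a homogeneous polynomial given by its coefficients. -/
def evalH (u v : ℝ) : List ℤ → ℝ
  | [] => 0
  | c :: l => c * v ^ l.length + u * evalH u v l

theorem length_mulLin (p q : ℤ) : ∀ (l : List ℤ) (prev : ℤ),
    (mulLin p q prev l).length = l.length + 1
  | [], _ => rfl
  | c :: l, _ => by simp [mulLin, length_mulLin p q l c]

theorem evalH_mulLin (u v : ℝ) (p q : ℤ) : ∀ (l : List ℤ) (prev : ℤ),
    evalH u v (mulLin p q prev l) = (p * v + q * u) * evalH u v l + q * prev * v ^ l.length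
  | [], prev => by simp [mulLin, evalH]
  | c :: l, prev => by
    simp only [mulLin, evalH, evalH_mulLin u v p q l c, length_mulLin, List.length_cons]
    push_cast
    ring

theorem length_addL : ∀ (p q : List ℤ), p.length = q.length → (addL p q).length = p.length
  | [], q, h => by simp [addL, List.length_eq_zero_iff.1 h.symm]
  | a :: p, [], h => by simp at h
  | a :: p, b :: q, h => by
    simp only [List.length_cons, add_left_inj] at h; simp [addL, length_addL p q h]

theorem evalH_addL (u v : ℝ) : ∀ (p q : List ℤ), p.length = q.length →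
    evalH u v (addL p q) = evalH u v p + evalH u v q
  | [], q, h => by simp [addL, List.length_eq_zero_iff.1 h.symm, evalH]
  | a :: p, [], h => by simp at h
  | a :: p, b :: q, h => by
    simp only [List.length_cons, add_left_inj] at h
    simp only [addL, evalH, evalH_addL u v p q h, length_addL p q h, h]
    push_cast
    ring

/-- The Bernstein numbers of a constant. -/
def constB (D c : ℤ) : ℕ → List ℤ
  | 0 => [c]
  | k + 1 => mulLin D D 0 (constB D c k)

theorem length_constB (D c : ℤ) : ∀ k, (constB D c k).length = k + 1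
  | 0 => rfl
  | k + 1 => by simp [constB, length_mulLin, length_constB D c k]

theorem evalH_constB (u v : ℝ) (D c : ℤ) : ∀ k,
    evalH u v (constB D c k) = c * (D * v + D * u) ^ k
  | 0 => by simp [constB, evalH]
  | k + 1 => by rw [constB, evalH_mulLin, evalH_constB u v D c k]; push_cast; ring

/-- The Bernstein numbers of a polynomial of degree at most `d`, up to positive factors. -/
def bsum (a b D : ℤ) : ℕ → List ℤ → List ℤ
  | d, [] => constB D 0 d
  | 0, c :: _ => [c]
  | d + 1, c :: l => addL (constB D c (d + 1)) (mulLin a b 0 (bsum a b D d l))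

/-- All coefficients above degree `d` vanish. -/
def fits : ℕ → List ℤ → Bool
  | _, [] => true
  | 0, _ :: l => l.all fun t => decide (t = 0)
  | d + 1, _ :: l => fits d l

theorem length_bsum (a b D : ℤ) : ∀ (d : ℕ) (l : List ℤ), (bsum a b D d l).length = d + 1
  | d, [] => by simp [bsum, length_constB]
  | 0, c :: l => by simp [bsum]
  | d + 1, c :: l => by
    rw [bsum, length_addL _ _ (by rw [length_constB, length_mulLin, length_bsum a b D d l]),
      length_constB]

theorem evalP_zero : ∀ (l : List ℤ) (x : ℝ), (∀ t ∈ l, t = 0) → evalP l x = 0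
  | [], _, _ => rfl
  | c :: l, x, h => by
    simp [evalP, h c (by simp), evalP_zero l x fun t ht => h t (List.mem_cons_of_mem c ht)]

theorem evalH_bsum {a b D : ℤ} {x u v : ℝ} (hu : u = D * x - a) (hv : v = b - D * x) :
    ∀ (d : ℕ) (l : List ℤ), fits d l = true →
      evalH u v (bsum a b D d l) = (((b : ℝ) - a) * D) ^ d * evalP l x
  | d, [], _ => by simp [bsum, evalH_constB, evalP]
  | 0, c :: l, h => by
    simp only [fits, List.all_eq_true, decide_eq_true_eq] at h
    simp [bsum, evalH, evalP, evalP_zero l x h]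
  | d + 1, c :: l, h => by
    simp only [fits] at h
    rw [bsum, evalH_addL _ _ _ _ (by rw [length_constB, length_mulLin, length_bsum]),
      evalH_constB, evalH_mulLin, evalH_bsum hu hv d l h, evalP]
    subst hu hv
    push_cast
    ring

theorem evalH_eq_sum (u v : ℝ) : ∀ l : List ℤ,
    evalH u v l = ∑ k ∈ range l.length, ((l.getD k 0 : ℤ) : ℝ) * (u ^ k * v ^ (l.length - 1 - k))
  | [] => by simp [evalH]
  | c :: l => by
    rw [List.length_cons, Finset.sum_range_succ', evalH, evalH_eq_sum u v l, Finset.mul_sum]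
    simp only [List.getD_cons_succ, List.getD_cons_zero, pow_zero, Nat.sub_zero, one_mul]
    rw [add_comm]
    congr 1
    refine Finset.sum_congr rfl fun k _ => ?_
    rw [show l.length + 1 - 1 - (k + 1) = l.length - 1 - k by omega]
    ring

/-- The gcd of the entries. -/
def gcdL : List ℤ → ℕ
  | [] => 0
  | c :: l => Nat.gcd c.natAbs (gcdL l)

/-- The length without trailing zeros. -/
def trimLen : List ℤ → ℕ
  | [] => 0
  | c :: l => if trimLen l = 0 ∧ c = 0 then 0 else trimLen l + 1

/-- The largest degree in a list of polynomials. -/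
def degOf : List (List ℤ) → ℕ
  | [] => 0
  | p :: P => max (trimLen p - 1) (degOf P)

/-- Every Bernstein vector of the polynomials is a multiple of a generator. -/
def polysOK (T : List (List ℤ)) (a b D : ℤ) (P : List (List ℤ)) : Bool :=
  let d := degOf P
  decide (a < b) && decide (0 < D) && (P.all fun p => fits d p) &&
    (let B := P.map (bsum a b D d)
    (List.range (d + 1)).all fun k =>
      (fun e => (fun g : ℤ => T.any fun t => decide (t.map (g * ·) = e)) (gcdL e : ℤ))
        (B.map fun l => l.getD k 0))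

/-- The check for one pair of vertices. -/
def pairCheck (T : List (List ℤ)) (a b D : ℤ) (X Y : Vert) : Bool :=
  polysOK T a b D (pairPolys X Y)

/-- The six checks for a triangle. -/
def triCheck (T : List (List ℤ)) (a b D : ℤ) (X Y Z : Vert) : Bool :=
  pairCheck T a b D X X && pairCheck T a b D Y Y && pairCheck T a b D Z Z
    && pairCheck T a b D X Y && pairCheck T a b D X Z && pairCheck T a b D Y Z

theorem dot_bern {a b D : ℤ} {x u v : ℝ} (hu : u = D * x - a) (hv : v = b - D * x) (d : ℕ) :
    ∀ (P : List (List ℤ)) (L : List ℝ), (∀ p ∈ P, fits d p = true) →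
      (((b : ℝ) - a) * D) ^ d * dot L (P.map fun p => evalP p x) =
        ∑ k ∈ range (d + 1),
          u ^ k * v ^ (d - k) * dot L (castL ((P.map (bsum a b D d)).map fun l => l.getD k 0))
  | [], L, _ => by cases L <;> simp [dot, castL]
  | p :: P, [], _ => by simp [dot]
  | p :: P, t :: L, h => by
    have ih := dot_bern hu hv d P L fun q hq => h q (List.mem_cons_of_mem p hq)
    have hp := evalH_bsum hu hv d p (h p (by simp))
    rw [evalH_eq_sum, length_bsum] at hp
    simp only [List.map_cons, castL, dot] at ih ⊢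
    rw [mul_add, ih, mul_left_comm, ← hp, Finset.mul_sum, ← Finset.sum_add_distrib]
    refine Finset.sum_congr rfl fun k _ => ?_
    rw [show d + 1 - 1 - k = d - k by omega]
    ring

/-- A checked pair gives a nonnegative polarised value on the interval. -/
theorem dot_hom_nonneg {T : List (List ℤ)} {a b D : ℤ} {X Y : Vert}
    (h : pairCheck T a b D X Y = true) {x : ℝ} (hx0 : (a : ℝ) ≤ D * x) (hx1 : (D : ℝ) * x ≤ b)
    {L : List ℝ} (hL : ∀ t ∈ T, 0 ≤ dot L (castL t)) :
    0 ≤ dot L (hom (3 * x ^ 2) (evalV X x) (evalV Y x)) := by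
  simp only [pairCheck, polysOK, Bool.and_eq_true, decide_eq_true_eq, List.all_eq_true,
    List.any_eq_true] at h
  obtain ⟨⟨⟨hab, hD⟩, hfit⟩, hmem⟩ := h
  rw [← eval_pairPolys]
  have key := dot_bern (u := (D : ℝ) * x - a) (v := (b : ℝ) - D * x) rfl rfl
    (degOf (pairPolys X Y)) (pairPolys X Y) L hfit
  refine nonneg_of_mul_nonneg_right ?_ (pow_pos (mul_pos
    (sub_pos.2 (show (a : ℝ) < b by exact_mod_cast hab))
    (show (0 : ℝ) < D by exact_mod_cast hD)) (degOf (pairPolys X Y)))
  rw [key]
  refine Finset.sum_nonneg fun k hk => mul_nonneg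
    (mul_nonneg (pow_nonneg (sub_nonneg.2 hx0) _) (pow_nonneg (sub_nonneg.2 hx1) _)) ?_
  obtain ⟨t, ht, ht'⟩ := hmem k (List.mem_range.2 (Finset.mem_range.1 hk))
  rw [← ht', dot_comm, dot_smul, dot_comm]
  exact mul_nonneg (by exact_mod_cast Int.natCast_nonneg _) (hL t ht)

theorem dot_cons' (L : List ℝ) (x : ℝ) (xs : List ℝ) :
    dot L (x :: xs) = L.headD 0 * x + dot L.tail xs := by
  cases L with
  | nil => cases xs <;> simp [dot]
  | cons t L => simp [dot]

theorem dot_nil' (L : List ℝ) : dot L [] = 0 := by cases L <;> simp [dot]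

/-- The determinant of three points in homogeneous coordinates. -/
def det3 (X Y Z : Pt) : ℝ :=
  X.1 * (Y.2.1 * Z.2.2 - Y.2.2 * Z.2.1) - X.2.1 * (Y.1 * Z.2.2 - Y.2.2 * Z.1)
    + X.2.2 * (Y.1 * Z.2.1 - Y.2.1 * Z.1)

/-- A linear inequality on the features holds at a point with given barycentric weights. -/
theorem phi_nonneg_of_weights {C M e : ℝ} {X Y Z : Pt} {a b c S : ℝ} (ha : 0 ≤ a) (hb : 0 ≤ b)
    (hc : 0 ≤ c) (hS : 0 < S) (h1 : a * X.1 + b * Y.1 + c * Z.1 = S * M)
    (h2 : a * X.2.1 + b * Y.2.1 + c * Z.2.1 = S * e)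
    (h3 : a * X.2.2 + b * Y.2.2 + c * Z.2.2 = S) {L : List ℝ}
    (hXX : 0 ≤ dot L (hom C X X)) (hYY : 0 ≤ dot L (hom C Y Y)) (hZZ : 0 ≤ dot L (hom C Z Z))
    (hXY : 0 ≤ dot L (hom C X Y)) (hXZ : 0 ≤ dot L (hom C X Z)) (hYZ : 0 ≤ dot L (hom C Y Z)) :
    0 ≤ dot L (phi C M e) := by
  have e1 : dot L (hom C (S * M, S * e, S) (S * M, S * e, S)) = 2 * S ^ 2 * dot L (phi C M e) := by
    simp only [hom, phi, dot_cons', dot_nil']; ring
  have e2 : dot L (hom C (S * M, S * e, S) (S * M, S * e, S)) =
      a ^ 2 * dot L (hom C X X) + b ^ 2 * dot L (hom C Y Y) + c ^ 2 * dot L (hom C Z Z)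
        + 2 * (a * b) * dot L (hom C X Y) + 2 * (a * c) * dot L (hom C X Z)
        + 2 * (b * c) * dot L (hom C Y Z) := by
    rw [← h1, ← h2, ← h3]
    simp only [hom, dot_cons', dot_nil']
    ring
  refine nonneg_of_mul_nonneg_right (a := 2 * S ^ 2) ?_ (by positivity)
  rw [← e1, e2]
  have := mul_nonneg ha hb
  have := mul_nonneg ha hc
  have := mul_nonneg hb hc
  positivity

/-- The features of a point of a checked triangle are in the cone. -/
theorem inCone_of_tri {T : List (List ℤ)} {a b D : ℤ} {X Y Z : Vert}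
    (h : triCheck T a b D X Y Z = true) {x : ℝ} (hx0 : (a : ℝ) ≤ D * x) (hx1 : (D : ℝ) * x ≤ b)
    {C M e : ℝ} (hC : C = 3 * x ^ 2)
    (hX : 0 ≤ det3 (M, e, 1) (evalV Y x) (evalV Z x))
    (hY : 0 ≤ det3 (evalV X x) (M, e, 1) (evalV Z x))
    (hZ : 0 ≤ det3 (evalV X x) (evalV Y x) (M, e, 1))
    (hS : 0 < det3 (evalV X x) (evalV Y x) (evalV Z x)) : InCone T (phi C M e) := by
  intro L hL
  simp only [triCheck, Bool.and_eq_true] at h
  obtain ⟨⟨⟨⟨⟨c1, c2⟩, c3⟩, c4⟩, c5⟩, c6⟩ := h
  subst hC
  exact phi_nonneg_of_weights hX hY hZ hS (by simp only [det3]; ring) (by simp only [det3]; ring)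
    (by simp only [det3]; ring) (dot_hom_nonneg c1 hx0 hx1 hL) (dot_hom_nonneg c2 hx0 hx1 hL)
    (dot_hom_nonneg c3 hx0 hx1 hL) (dot_hom_nonneg c4 hx0 hx1 hL) (dot_hom_nonneg c5 hx0 hx1 hL)
    (dot_hom_nonneg c6 hx0 hx1 hL)

/-- The features of a vertex are in the cone. -/
theorem inCone_of_vert {T : List (List ℤ)} {a b D : ℤ} {X : Vert}
    (h : pairCheck T a b D X X = true) {x : ℝ} (hx0 : (a : ℝ) ≤ D * x) (hx1 : (D : ℝ) * x ≤ b)
    {C M e : ℝ} (hC : C = 3 * x ^ 2) (hd : 0 < (evalV X x).2.2)
    (h1 : (evalV X x).1 = M * (evalV X x).2.2) (h2 : (evalV X x).2.1 = e * (evalV X x).2.2) :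
    InCone T (phi C M e) := by
  intro L hL
  subst hC
  have k := dot_hom_nonneg h hx0 hx1 hL
  exact phi_nonneg_of_weights (X := evalV X x) (Y := evalV X x) (Z := evalV X x)
    zero_le_one le_rfl le_rfl hd (by rw [h1]; ring) (by rw [h2]; ring) (by ring) k k k k k k

end Vale.P154.Q4
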