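import Vale.Agent.P154.Q4Basic

/-!
# Averages over relabellings for four states

A sum over the 24 relabellings is a sum over six classes of four shifts. In the coordinates of the
characters of the Klein group each class is a short polynomial, and the average of the chi-square
after one more child is at most an explicit form in the moments of the two vectors.
-/

noncomputable section

namespace Vale.P154.Q4

open Finset

set_option linter.unusedVariables false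

/-- The six relabellings fixing colour zero. -/
def sig : Fin 6 → Equiv.Perm (Fin 4) :=
  ![1, Equiv.swap 1 2, Equiv.swap 1 3, Equiv.swap 2 3, Equiv.swap 1 2 * Equiv.swap 2 3,
    Equiv.swap 2 3 * Equiv.swap 1 2]

/-- The four shifts. -/
def shf : Fin 4 → Equiv.Perm (Fin 4) :=
  ![1, Equiv.swap 0 1 * Equiv.swap 2 3, Equiv.swap 0 2 * Equiv.swap 1 3,
    Equiv.swap 0 3 * Equiv.swap 1 2]

theorem sig_shf_bijective :
    Function.Bijective fun p : Fin 6 × Fin 4 => sig p.1 * shf p.2 := by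
  rw [Fintype.bijective_iff_injective_and_card]
  refine ⟨?_, by simp [Fintype.card_perm, Nat.factorial]⟩
  unfold Function.Injective
  decide

/-- A sum over relabellings is a sum over classes of shifts. -/
theorem sum_perm4 (f : (Fin 4 → ℝ) → ℝ) (y : Fin 4 → ℝ) :
    ∑ π : Equiv.Perm (Fin 4), f (fun j => y (π j))
      = ∑ s : Fin 6, ∑ k : Fin 4, f (fun j => y (sig s (shf k j))) := by
  rw [← Fintype.sum_prod_type']
  exact (Fintype.sum_bijective _ sig_shf_bijective _ _ fun p => rfl).symm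

/-- The characters' coefficients of a centred vector. -/
def four (y : Fin 4 → ℝ) : ℝ × ℝ × ℝ := ((y 0 + y 1) / 2, (y 0 + y 2) / 2, (y 0 + y 3) / 2)

theorem exists_four {y : Fin 4 → ℝ} (hy : ∑ i, y i = 0) :
    ∃ a b c : ℝ, four y = (a, b, c) ∧ y 0 = a + b + c ∧ y 1 = a - b - c ∧ y 2 = -a + b - c ∧
      y 3 = -a - b + c := by
  rw [Fin.sum_univ_four] at hy
  exact ⟨_, _, _, rfl, by linarith, by linarith, by linarith, by linarith⟩

/-- The moments in the characters' coefficients. -/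
theorem moments_four {y : Fin 4 → ℝ} {a b c : ℝ} (h0 : y 0 = a + b + c) (h1 : y 1 = a - b - c)
    (h2 : y 2 = -a + b - c) (h3 : y 3 = -a - b + c) :
    chi y = a ^ 2 + b ^ 2 + c ^ 2 ∧ m3 y = 6 * (a * b * c) ∧
      e4 y = 4 * (a ^ 2 * b ^ 2 + a ^ 2 * c ^ 2 + b ^ 2 * c ^ 2) := by
  have hC : chi y = a ^ 2 + b ^ 2 + c ^ 2 := by
    simp only [chi, Fin.sum_univ_four, h0, h1, h2, h3]; push_cast; ring
  refine ⟨hC, ?_, ?_⟩
  · simp only [m3, Fin.sum_univ_four, h0, h1, h2, h3]; ring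
  · simp only [e4, hC, Fin.sum_univ_four, h0, h1, h2, h3]; ring

/-- A summand of one class, as a function of the mass and the mean square. -/
def sh4 (g : ℝ → ℝ → ℝ) (a b c a' b' c' : ℝ) : ℝ :=
  g (1 + a * a' + b * b' + c * c')
    ((1 + (a ^ 2 + b ^ 2 + c ^ 2)) * (1 + (a' ^ 2 + b' ^ 2 + c' ^ 2))
      + 4 * ((a + b * c) * (a' + b' * c') + (b + a * c) * (b' + a' * c')
        + (c + a * b) * (c' + a' * b')))

/-- The four shifts of one class. -/
def cls4 (g : ℝ → ℝ → ℝ) (a b c a' b' c' : ℝ) : ℝ :=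
  sh4 g a b c a' b' c' + sh4 g a b c a' (-b') (-c') + sh4 g a b c (-a') b' (-c')
    + sh4 g a b c (-a') (-b') c'

/-- The likelihood ratios after one more child. -/
def prodv (w z : Fin 4 → ℝ) (i : Fin 4) : ℝ := (1 + w i) * (1 + z i)

/-- Mass and mean square of a vector. -/
def massSq (g : ℝ → ℝ → ℝ) (A : Fin 4 → ℝ) : ℝ := g ((∑ i, A i) / 4) ((∑ i, A i ^ 2) / 4)

theorem massSq_prodv (g : ℝ → ℝ → ℝ) {w z : Fin 4 → ℝ} {a b c a' b' c' : ℝ}
    (h0 : w 0 = a + b + c) (h1 : w 1 = a - b - c) (h2 : w 2 = -a + b - c) (h3 : w 3 = -a - b + c)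
    (g0 : z 0 = a' + b' + c') (g1 : z 1 = a' - b' - c') (g2 : z 2 = -a' + b' - c')
    (g3 : z 3 = -a' - b' + c') :
    massSq g (prodv w z) = sh4 g a b c a' b' c' := by
  simp only [massSq, sh4, prodv, Fin.sum_univ_four, h0, h1, h2, h3, g0, g1, g2, g3]
  congr 1 <;> ring

/-- The sum over all relabellings, by classes. -/
theorem sum_perm_massSq (g : ℝ → ℝ → ℝ) {w y : Fin 4 → ℝ} {a b c a' b' c' : ℝ}
    (h0 : w 0 = a + b + c) (h1 : w 1 = a - b - c) (h2 : w 2 = -a + b - c) (h3 : w 3 = -a - b + c)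
    (g0 : y 0 = a' + b' + c') (g1 : y 1 = a' - b' - c') (g2 : y 2 = -a' + b' - c')
    (g3 : y 3 = -a' - b' + c') :
    ∑ π : Equiv.Perm (Fin 4), massSq g (prodv w fun j => y (π j)) =
      cls4 g a b c a' b' c' + cls4 g a b c b' a' c' + cls4 g a b c c' b' a' + cls4 g a b c a' c' b'
        + cls4 g a b c b' c' a' + cls4 g a b c c' a' b' := by
  rw [sum_perm4 fun z => massSq g (prodv w z)]
  have key : ∀ (s : Fin 6) (u v t : ℝ), y (sig s 0) = u + v + t → y (sig s 1) = u - v - t →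
      y (sig s 2) = -u + v - t → y (sig s 3) = -u - v + t →
      ∑ k : Fin 4, massSq g (prodv w fun j => y (sig s (shf k j))) = cls4 g a b c u v t := by
    intro s u v t e0 e1 e2 e3
    rw [Fin.sum_univ_four, cls4]
    refine congrArg₂ (· + ·) (congrArg₂ (· + ·) (congrArg₂ (· + ·) ?_ ?_) ?_) ?_ <;>
      refine massSq_prodv g h0 h1 h2 h3 ?_ ?_ ?_ ?_ <;>
      simp [shf, e0, e1, e2, e3, Equiv.swap_apply_def] <;> ring
  have k0 := key 0 a' b' c' (by simp [sig, g0]) (by simp [sig, g1]) (by simp [sig, g2])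
    (by simp [sig, g3])
  have k1 := key 1 b' a' c' (by simp [sig, g0, Equiv.swap_apply_def]; ring)
    (by simp [sig, g2]; ring) (by simp [sig, g1]; ring)
    (by simp [sig, g3, Equiv.swap_apply_def]; ring)
  have k2 := key 2 c' b' a' (by simp [sig, g0, Equiv.swap_apply_def]; ring)
    (by simp [sig, g3]; ring) (by simp [sig, g2, Equiv.swap_apply_def]; ring)
    (by simp [sig, g1]; ring)
  have k3 := key 3 a' c' b' (by simp [sig, g0, Equiv.swap_apply_def]; ring)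
    (by simp [sig, g1, Equiv.swap_apply_def]; ring) (by simp [sig, g3]; ring)
    (by simp [sig, g2]; ring)
  have k4 := key 4 b' c' a' (by simp [sig, g0, Equiv.swap_apply_def]; ring)
    (by simp [sig, g2, Equiv.swap_apply_def]; ring) (by simp [sig, g3, Equiv.swap_apply_def]; ring)
    (by simp [sig, g1]; ring)
  have k5 := key 5 c' a' b' (by simp [sig, g0, Equiv.swap_apply_def]; ring)
    (by simp [sig, g3]; ring) (by simp [sig, g1, Equiv.swap_apply_def]; ring)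
    (by simp [sig, g2, Equiv.swap_apply_def]; ring)
  rw [Fin.sum_univ_six, k0, k1, k2, k3, k4, k5]

/-- The polynomial lower bound for the inverse of the mass, tangent at two. -/
def psi (Z : ℝ) : ℝ := 1 - (Z - 1) + (Z - 1) ^ 2 - (Z - 1) ^ 3 + (Z - 1) ^ 4 * (4 - Z) / 4

/-- The upper bound for mass times chi-square. -/
def top5 (Z Q : ℝ) : ℝ := 3 * Z - (4 * Z ^ 2 - Q) * psi Z

/-- Mass times chi-square after normalisation is at most `top5`. -/
theorem mass_chi_le {A : Fin 4 → ℝ} (hA : ∀ i, 0 ≤ A i) :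
    ((∑ i, A i) / 4) * chi (rel A) ≤ massSq top5 A := by
  have a0 := hA 0; have a1 := hA 1; have a2 := hA 2; have a3 := hA 3
  simp only [massSq, chi, rel, Fin.sum_univ_four]
  push_cast
  set Z := (A 0 + A 1 + A 2 + A 3) / 4 with hZ
  set Q := (A 0 ^ 2 + A 1 ^ 2 + A 2 ^ 2 + A 3 ^ 2) / 4 with hQ
  have hQ0 : Q ≤ 4 * Z ^ 2 := by
    rw [hQ, hZ]
    nlinarith [mul_nonneg a0 a1, mul_nonneg a0 a2, mul_nonneg a0 a3, mul_nonneg a1 a2,
      mul_nonneg a1 a3, mul_nonneg a2 a3]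
  have hS : A 0 + A 1 + A 2 + A 3 = 4 * Z := by rw [hZ]; ring
  rcases eq_or_lt_of_le (show 0 ≤ Z by rw [hZ]; positivity) with h | h
  · have hQ' : Q = 0 := le_antisymm (by rw [← h] at hQ0; linarith) (by rw [hQ]; positivity)
    simp [top5, ← h, hQ']
  · rw [hS]
    have e : Z * (((4 * A 0 / (4 * Z) - 1) ^ 2 + (4 * A 1 / (4 * Z) - 1) ^ 2
        + (4 * A 2 / (4 * Z) - 1) ^ 2 + (4 * A 3 / (4 * Z) - 1) ^ 2) / 4) = Q / Z - Z := by
      field_simp
      rw [hQ, hZ]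
      ring
    have key : top5 Z Q - (Q / Z - Z)
        = (4 * Z ^ 2 - Q) * (Z - 1) ^ 4 * (Z - 2) ^ 2 / (4 * Z) := by
      unfold top5 psi
      field_simp
      ring
    have : 0 ≤ (4 * Z ^ 2 - Q) * (Z - 1) ^ 4 * (Z - 2) ^ 2 / (4 * Z) :=
      div_nonneg (mul_nonneg (mul_nonneg (sub_nonneg.2 hQ0) (by positivity)) (sq_nonneg _))
        (by positivity)
    rw [e]
    linarith

/-- The form bounding the excess of chi-square, in the moments of the two vectors. -/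
def form5 (C M e C' M' e' : ℝ) : ℝ :=
  (C) * ((-2 / 3) * (M') + (1 / 3) * (C' ^ 2))
    + (M) * ((-2 / 3) * (C') + (1 / 6) * (M') + (-1 / 3) * (C' ^ 2) + (1 / 3) * ((e' + C' ^ 2)) + (-1 / 6) * (C' * M'))
    + (C ^ 2) * ((1 / 3) * (C') + (-1 / 3) * (M') + (-47 / 32) * (C' ^ 2) + (65 / 96) * ((e' + C' ^ 2)) + (21 / 32) * (C' ^ 3) + (-9 / 32) * (C' * (e' + C' ^ 2)))
    + ((e + C ^ 2)) * ((1 / 3) * (M') + (65 / 96) * (C' ^ 2) + (-29 / 96) * ((e' + C' ^ 2)) + (-2 / 9) * (C' * M') + (-9 / 32) * (C' ^ 3) + (5 / 32) * (C' * (e' + C' ^ 2)))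
    + (C * M) * ((-1 / 6) * (M') + (-2 / 9) * ((e' + C' ^ 2)) + (-11 / 108) * (C' * M') + (-1 / 6) * (C' ^ 3) + (1 / 9) * (M' ^ 2) + (1 / 6) * (C' * (e' + C' ^ 2)) + (-5 / 108) * (C' ^ 2 * M'))
    + (C ^ 3) * ((21 / 32) * (C' ^ 2) + (-9 / 32) * ((e' + C' ^ 2)) + (-1 / 6) * (C' * M') + (-151 / 96) * (C' ^ 3) + (-23 / 144) * (M' ^ 2) + (25 / 32) * (C' * (e' + C' ^ 2)) + (-11 / 144) * (C' ^ 2 * M') + (7 / 144) * (M' * (e' + C' ^ 2)))
    + (M ^ 2) * ((1 / 9) * (C' * M') + (-23 / 144) * (C' ^ 3) + (-35 / 432) * (M' ^ 2) + (5 / 48) * (C' * (e' + C' ^ 2)) + (11 / 216) * (C' ^ 2 * M') + (-7 / 216) * (M' * (e' + C' ^ 2)))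
    + (C * (e + C ^ 2)) * ((-9 / 32) * (C' ^ 2) + (5 / 32) * ((e' + C' ^ 2)) + (1 / 6) * (C' * M') + (25 / 32) * (C' ^ 3) + (5 / 48) * (M' ^ 2) + (-13 / 32) * (C' * (e' + C' ^ 2)) + (-1 / 144) * (C' ^ 2 * M') + (-1 / 48) * (M' * (e' + C' ^ 2)))
    + (C ^ 2 * M) * ((-5 / 108) * (C' * M') + (-11 / 144) * (C' ^ 3) + (11 / 216) * (M' ^ 2) + (-1 / 144) * (C' * (e' + C' ^ 2)) + (563 / 864) * (C' ^ 2 * M') + (-77 / 288) * (M' * (e' + C' ^ 2)))
    + (M * (e + C ^ 2)) * ((7 / 144) * (C' ^ 3) + (-7 / 216) * (M' ^ 2) + (-1 / 48) * (C' * (e' + C' ^ 2)) + (-77 / 288) * (C' ^ 2 * M') + (107 / 864) * (M' * (e' + C' ^ 2)))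

/-- The sum of `top5` over four shifts, expanded. -/
def clsTop (p q r Q u v t : ℝ) : ℝ :=
  (-4) + (4) * Q + (-16) * r * t + (4) * r ^ 2 * Q + (-16) * r ^ 3 * t + (4) * r ^ 4
    + (3) * r ^ 4 * Q + (-4) * r ^ 5 * t + (-4) * r ^ 6 + (-16) * q * v + (32) * q * r * u
    + (-48) * q * r ^ 2 * v + (48) * q * r ^ 3 * u + (-20) * q * r ^ 4 * v + (4) * q ^ 2 * Q
    + (-48) * q ^ 2 * r * t + (24) * q ^ 2 * r ^ 2 + (18) * q ^ 2 * r ^ 2 * Q
    + (-40) * q ^ 2 * r ^ 3 * t + (-60) * q ^ 2 * r ^ 4 + (-16) * q ^ 3 * v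
    + (48) * q ^ 3 * r * u + (-40) * q ^ 3 * r ^ 2 * v + (4) * q ^ 4 + (3) * q ^ 4 * Q
    + (-20) * q ^ 4 * r * t + (-60) * q ^ 4 * r ^ 2 + (-4) * q ^ 5 * v + (-4) * q ^ 6
    + (-16) * p * u + (32) * p * r * v + (-48) * p * r ^ 2 * u + (48) * p * r ^ 3 * v
    + (-20) * p * r ^ 4 * u + (32) * p * q * t + (-24) * p * q * r * Q
    + (144) * p * q * r ^ 2 * t + (-80) * p * q * r ^ 3 + (-20) * p * q * r ^ 3 * Q
    + (168) * p * q * r ^ 5 + (-48) * p * q ^ 2 * u + (144) * p * q ^ 2 * r * v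
    + (-120) * p * q ^ 2 * r ^ 2 * u + (48) * p * q ^ 3 * t + (-80) * p * q ^ 3 * r
    + (-20) * p * q ^ 3 * r * Q + (560) * p * q ^ 3 * r ^ 3 + (-20) * p * q ^ 4 * u
    + (168) * p * q ^ 5 * r + (4) * p ^ 2 * Q + (-48) * p ^ 2 * r * t + (24) * p ^ 2 * r ^ 2
    + (18) * p ^ 2 * r ^ 2 * Q + (-40) * p ^ 2 * r ^ 3 * t + (-60) * p ^ 2 * r ^ 4
    + (-48) * p ^ 2 * q * v + (144) * p ^ 2 * q * r * u + (-120) * p ^ 2 * q * r ^ 2 * v
    + (24) * p ^ 2 * q ^ 2 + (18) * p ^ 2 * q ^ 2 * Q + (-120) * p ^ 2 * q ^ 2 * r * t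
    + (-360) * p ^ 2 * q ^ 2 * r ^ 2 + (-40) * p ^ 2 * q ^ 3 * v + (-60) * p ^ 2 * q ^ 4
    + (-16) * p ^ 3 * u + (48) * p ^ 3 * r * v + (-40) * p ^ 3 * r ^ 2 * u
    + (48) * p ^ 3 * q * t + (-80) * p ^ 3 * q * r + (-20) * p ^ 3 * q * r * Q
    + (560) * p ^ 3 * q * r ^ 3 + (-40) * p ^ 3 * q ^ 2 * u + (560) * p ^ 3 * q ^ 3 * r
    + (4) * p ^ 4 + (3) * p ^ 4 * Q + (-20) * p ^ 4 * r * t + (-60) * p ^ 4 * r ^ 2
    + (-20) * p ^ 4 * q * v + (-60) * p ^ 4 * q ^ 2 + (-4) * p ^ 5 * u + (168) * p ^ 5 * q * r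
    + (-4) * p ^ 6

theorem cls4_top5 (a b c a' b' c' : ℝ) :
    cls4 top5 a b c a' b' c' = clsTop (a * a') (b * b') (c * c')
      ((1 + (a ^ 2 + b ^ 2 + c ^ 2)) * (1 + (a' ^ 2 + b' ^ 2 + c' ^ 2)))
      ((a + b * c) * (a' + b' * c')) ((b + a * c) * (b' + a' * c'))
      ((c + a * b) * (c' + a' * b')) := by
  have gen : ∀ p q r Q u v t : ℝ, clsTop p q r Q u v t
      = top5 (1 + p + q + r) (Q + 4 * (u + v + t)) + top5 (1 + p - q - r) (Q + 4 * (u - v - t))
        + top5 (1 - p + q - r) (Q + 4 * (-u + v - t)) + top5 (1 - p - q + r) (Q + 4 * (-u - v + t)) :=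
    fun p q r Q u v t => by unfold clsTop top5 psi; ring
  rw [gen, cls4, sh4, sh4, sh4, sh4]
  congr 1
  · congr 1
    · congr 1
      congr 1 <;> ring
    · congr 1 <;> ring
  · congr 1 <;> ring

set_option maxHeartbeats 1000000 in
/-- The six classes of `top5`. -/
theorem classes_top5 (a b c a' b' c' : ℝ) :
    cls4 top5 a b c a' b' c' + cls4 top5 a b c b' a' c' + cls4 top5 a b c c' b' a'
        + cls4 top5 a b c a' c' b' + cls4 top5 a b c b' c' a' + cls4 top5 a b c c' a' b'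
      = 24 * (a ^ 2 + b ^ 2 + c ^ 2 + (a' ^ 2 + b' ^ 2 + c' ^ 2)
        + form5 (a ^ 2 + b ^ 2 + c ^ 2) (6 * (a * b * c))
          (4 * (a ^ 2 * b ^ 2 + a ^ 2 * c ^ 2 + b ^ 2 * c ^ 2))
          (a' ^ 2 + b' ^ 2 + c' ^ 2) (6 * (a' * b' * c'))
          (4 * (a' ^ 2 * b' ^ 2 + a' ^ 2 * c' ^ 2 + b' ^ 2 * c' ^ 2))) := by
  simp only [cls4_top5]
  unfold clsTop form5
  ring

/-- The average chi-square after one more child at full strength. -/
theorem mix_chi_le_form {w y : Fin 4 → ℝ} (hw : Simp w) (hy : Simp y) :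
    mix 1 chi w y ≤ chi w + chi y + form5 (chi w) (m3 w) (e4 w) (chi y) (m3 y) (e4 y) := by
  obtain ⟨a, b, c, -, h0, h1, h2, h3⟩ := exists_four hw.2
  obtain ⟨a', b', c', -, g0, g1, g2, g3⟩ := exists_four hy.2
  obtain ⟨eC, eM, eE⟩ := moments_four h0 h1 h2 h3
  obtain ⟨fC, fM, fE⟩ := moments_four g0 g1 g2 g3
  rw [eC, eM, eE, fC, fM, fE]
  have hcard : (Fintype.card (Equiv.Perm (Fin 4)) : ℝ) = 24 := by
    simp [Fintype.card_perm, Nat.factorial]
  rw [mix, hcard, div_le_iff₀ (by norm_num)]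
  refine le_trans (Finset.sum_le_sum fun π _ => ?_)
    ((sum_perm_massSq top5 h0 h1 h2 h3 g0 g1 g2 g3).trans_le
      (le_of_eq ((classes_top5 a b c a' b' c').trans (mul_comm _ _))))
  have e : tilt 1 w (fun j => y (π j)) = prodv w fun j => y (π j) := by
    funext i; simp [tilt, prodv]
  rw [e]
  exact_mod_cast mass_chi_le fun i =>
    mul_nonneg (by linarith [hw.1 i]) (by linarith [hy.1 (π i)])

/-- The sharp lower bound for the excess fourth moment. -/
theorem m3_sq_le_e4_sq {y : Fin 4 → ℝ} (hy : ∑ i, y i = 0) :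
    4 * chi y * m3 y ^ 2 ≤ 3 * e4 y ^ 2 := by
  obtain ⟨a, b, c, -, h0, h1, h2, h3⟩ := exists_four hy
  obtain ⟨eC, eM, eE⟩ := moments_four h0 h1 h2 h3
  rw [eC, eM, eE]
  nlinarith [sq_nonneg (a ^ 2 * b ^ 2 - a ^ 2 * c ^ 2), sq_nonneg (a ^ 2 * b ^ 2 - b ^ 2 * c ^ 2),
    sq_nonneg (a ^ 2 * c ^ 2 - b ^ 2 * c ^ 2)]

/-- The upper bound for the excess fourth moment by the third. -/
theorem chi_mul_e4_le {y : Fin 4 → ℝ} (hy : ∑ i, y i = 0) :
    4 * chi y * e4 y ≤ 4 * chi y ^ 3 + m3 y ^ 2 := by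
  obtain ⟨a, b, c, -, h0, h1, h2, h3⟩ := exists_four hy
  obtain ⟨eC, eM, eE⟩ := moments_four h0 h1 h2 h3
  rw [eC, eM, eE]
  have schur : ∀ p q r : ℝ, 0 ≤ p → 0 ≤ q → 0 ≤ r →
      0 ≤ p * (p - q) * (p - r) + q * (q - p) * (q - r) + r * (r - p) * (r - q) := by
    intro p q r hp hq hr
    have sorted : ∀ p q r : ℝ, 0 ≤ r → r ≤ q → q ≤ p →
        0 ≤ p * (p - q) * (p - r) + q * (q - p) * (q - r) + r * (r - p) * (r - q) := by
      intro p q r hr hrq hqp
      have h1 : 0 ≤ (p - q) ^ 2 * (p + q - r) := mul_nonneg (sq_nonneg _) (by linarith)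
      have h2 : 0 ≤ r * ((p - r) * (q - r)) :=
        mul_nonneg hr (mul_nonneg (by linarith) (by linarith))
      linarith
    rcases le_total p q with h | h <;> rcases le_total q r with h' | h' <;>
      rcases le_total p r with h'' | h''
    all_goals
      first
        | (have := sorted p q r hr (by linarith) (by linarith); linarith)
        | (have := sorted p r q hq (by linarith) (by linarith); linarith)
        | (have := sorted q p r hr (by linarith) (by linarith); linarith)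
        | (have := sorted q r p hp (by linarith) (by linarith); linarith)
        | (have := sorted r p q hq (by linarith) (by linarith); linarith)
        | (have := sorted r q p hp (by linarith) (by linarith); linarith)
  nlinarith [schur (a ^ 2) (b ^ 2) (c ^ 2) (sq_nonneg _) (sq_nonneg _) (sq_nonneg _)]

/-- The excess fourth moment against positivity of the product. -/
theorem e4_le_prod {y : Fin 4 → ℝ} (hy : Simp y) :
    e4 y ≤ (1 - chi y) ^ 2 + 4 / 3 * m3 y := by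
  have h := Finset.prod_nonneg (s := Finset.univ) (f := fun i => 1 + y i)
    fun i _ => by linarith [hy.1 i]
  rw [prod_one_add hy.2] at h
  linarith

/-- The third moment against positivity of the four triple products. -/
theorem le_m3 {y : Fin 4 → ℝ} (hy : Simp y) : 3 * (chi y - 1) ≤ m3 y := by
  obtain ⟨hy1, hy2⟩ := hy
  rw [Fin.sum_univ_four] at hy2
  have ha : 0 ≤ 1 + y 0 := by linarith [hy1 0]
  have hb : 0 ≤ 1 + y 1 := by linarith [hy1 1]
  have hc : 0 ≤ 1 + y 2 := by linarith [hy1 2]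
  have hd : 0 ≤ 1 + y 3 := by linarith [hy1 3]
  have key : m3 y - 3 * (chi y - 1) = 3 / 4 * ((1 + y 0) * (1 + y 1) * (1 + y 2)
      + (1 + y 0) * (1 + y 1) * (1 + y 3) + (1 + y 0) * (1 + y 2) * (1 + y 3)
      + (1 + y 1) * (1 + y 2) * (1 + y 3)) := by
    have e : y 3 = -y 0 - y 1 - y 2 := by linarith
    simp only [m3, chi, Fin.sum_univ_four, e]
    push_cast
    ring
  have : 0 ≤ (1 + y 0) * (1 + y 1) * (1 + y 2)
      + (1 + y 0) * (1 + y 1) * (1 + y 3) + (1 + y 0) * (1 + y 2) * (1 + y 3)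
      + (1 + y 1) * (1 + y 2) * (1 + y 3) := by positivity
  linarith

end Vale.P154.Q4
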