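import Vale.Agent.P154.Q4Bern
import Vale.Agent.P154.Q4Regions
import Vale.Agent.P154.Q4Perm

/-!
# Four states: the moment region lies in the cones of the six regimes

With the mean square written as three times the square of a parameter `p`, the region of the third
and excess fourth moments is covered by triangles whose vertices are rational functions of `p`.
The features on the triangles lie in the cones generated by the checked Bernstein vectors.
-/

noncomputable section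

namespace Vale.P154.Q4

open Finset

/-- The vertex of a point mass at the origin. -/
def vO : Vert := ([], [], [1])

/-- The top of the symmetric chord. -/
def vN : Vert := ([], [0, 0, 0, 0, 9], [1])

/-- The right corner. -/
def vR : Vert := ([0, 0, 0, 6], [0, 0, 0, 0, 12], [1])

/-- The left corner. -/
def vL : Vert := ([0, 0, 0, -6], [0, 0, 0, 0, 12], [1])

/-- The level of the corners on the line of vanishing product. -/
def vT : Vert := ([-3, 0, 18, 0, 9], [0, 0, 0, 0, 48], [4])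

/-- The lower line on the line of vanishing product. -/
def vA : Vert := ([-3, 0, 18, 0, -27], [0, 6, 0, -36, 0, 54], [4, 6])

/-- The least third moment on the line of vanishing product. -/
def vW : Vert := ([-3, 0, 9], [-3, 0, 6, 0, 9], [1])

/-- A chord of the upper curve on the line of vanishing product. -/
def vB : Vert := ([-6, 0, 36], [0, -3, 0, 18, 72, -27], [8, -3])

/-- A shorter chord of the upper curve on the line of vanishing product. -/
def vE : Vert := ([-24, 0, 144, 0, -54], [0, -21, 0, 126, 216, -189], [32, -21])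

/-- The shortest chord of the upper curve on the line of vanishing product. -/
def vF : Vert := ([-60, 0, 360, 0, -162], [0, -57, 0, 342, 504, -513], [80, -57])

theorem chk0 : triCheck (vec 0) 0 1 3 vO vN vL = true := by decide +kernel
theorem chk1 : triCheck (vec 1) 0 1 3 vO vR vN = true := by decide +kernel
theorem chk2a : triCheck (vec 2) 4 5 12 vO vR vT = true := by decide +kernel
theorem chk2b : triCheck (vec 2) 4 5 12 vO vT vA = true := by decide +kernel
theorem chk3a : triCheck (vec 3) 75 104 180 vO vR vB = true := by decide +kernel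
theorem chk3b : triCheck (vec 3) 75 104 180 vO vB vA = true := by decide +kernel
theorem chk4 : triCheck (vec 4) 26 30 45 vR vE vW = true := by decide +kernel
theorem chk5 : triCheck (vec 5) 2 3 3 vR vF vW = true := by decide +kernel

/-- What is known of the moments at mean square `3 * p ^ 2`. -/
structure Bounds (p M e : ℝ) : Prop where
  sq_le : M ^ 2 ≤ 36 * p ^ 6
  lower : 4 * p ^ 2 * M ^ 2 ≤ e ^ 2
  e_nonneg : 0 ≤ e
  upper : e ≤ 12 * p ^ 4
  curve : 12 * p ^ 2 * e ≤ 108 * p ^ 6 + M ^ 2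
  prod : e ≤ (1 - 3 * p ^ 2) ^ 2 + 4 / 3 * M
  least : 9 * p ^ 2 - 3 ≤ M
  base : 0 ≤ (2 * p + 1) * (e - 12 * p ^ 4) + (1 + p) ^ 2 * (6 * p ^ 3 - M)

/-- Every coordinate is at most three times the parameter. -/
theorem sq_le_chi {y : Fin 4 → ℝ} (hy : ∑ i, y i = 0) (i : Fin 4) : y i ^ 2 ≤ 3 * chi y := by
  rw [Fin.sum_univ_four] at hy
  have e : y 3 = -y 0 - y 1 - y 2 := by linarith
  have c : chi y = (y 0 ^ 2 + y 1 ^ 2 + y 2 ^ 2 + y 3 ^ 2) / 4 := by
    simp [chi, Fin.sum_univ_four]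
  fin_cases i <;> simp [c, e] <;>
    nlinarith [sq_nonneg (y 0 - y 1), sq_nonneg (y 0 - y 2), sq_nonneg (y 1 - y 2),
      sq_nonneg (y 0 + 2 * y 1 + y 2), sq_nonneg (y 0 + y 1 + 2 * y 2),
      sq_nonneg (2 * y 0 + y 1 + y 2)]

/-- The lower line: the relative likelihoods lie below `1 + 3 p`. -/
theorem base_line {y : Fin 4 → ℝ} (hy : Simp y) {p : ℝ} (hp0 : 0 ≤ p) (hp1 : p < 1)
    (hC : chi y = 3 * p ^ 2) :
    0 ≤ (2 * p + 1) * (e4 y - 12 * p ^ 4) + (1 + p) ^ 2 * (6 * p ^ 3 - m3 y) := by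
  have hb : ∀ i, y i ≤ 3 * p := fun i => by
    have := sq_le_chi hy.2 i
    nlinarith
  have hv : ∀ i, 0 ≤ 1 + y i := fun i => by linarith [hy.1 i]
  have hs := hy.2
  rw [Fin.sum_univ_four] at hs
  have e : y 3 = -y 0 - y 1 - y 2 := by linarith
  have key : ∀ a b : ℝ,
      (1 + y 0 - a) ^ 2 * (b - (1 + y 0)) * ((1 + y 1) * (1 + y 2) * (1 + y 3))
        + (1 + y 1 - a) ^ 2 * (b - (1 + y 1)) * ((1 + y 0) * (1 + y 2) * (1 + y 3))
        + (1 + y 2 - a) ^ 2 * (b - (1 + y 2)) * ((1 + y 0) * (1 + y 1) * (1 + y 3))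
        + (1 + y 3 - a) ^ 2 * (b - (1 + y 3)) * ((1 + y 0) * (1 + y 1) * (1 + y 2))
      = (∏ i, (1 + y i)) * (-4 * (1 + chi y) + 4 * (2 * a + b) - 4 * (a ^ 2 + 2 * a * b))
        + a ^ 2 * b * (4 / 3 * (m3 y - 3 * (chi y - 1))) := by
    intro a b
    simp only [Fin.prod_univ_four, m3, chi, Fin.sum_univ_four, e]
    push_cast
    ring
  have h : 0 ≤ (1 + y 0 - (1 - p)) ^ 2 * ((1 + 3 * p) - (1 + y 0))
        * ((1 + y 1) * (1 + y 2) * (1 + y 3))
      + (1 + y 1 - (1 - p)) ^ 2 * ((1 + 3 * p) - (1 + y 1))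
        * ((1 + y 0) * (1 + y 2) * (1 + y 3))
      + (1 + y 2 - (1 - p)) ^ 2 * ((1 + 3 * p) - (1 + y 2))
        * ((1 + y 0) * (1 + y 1) * (1 + y 3))
      + (1 + y 3 - (1 - p)) ^ 2 * ((1 + 3 * p) - (1 + y 3))
        * ((1 + y 0) * (1 + y 1) * (1 + y 2)) := by
    have := hv 0; have := hv 1; have := hv 2; have := hv 3
    have hd : ∀ i, 0 ≤ (1 + 3 * p) - (1 + y i) := fun i => by linarith [hb i]
    have := hd 0; have := hd 1; have := hd 2; have := hd 3
    positivity
  rw [key, prod_one_add hy.2, hC] at h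
  refine nonneg_of_mul_nonneg_right (a := 4 * (1 - p)) ?_ (by linarith)
  linarith

/-- The parameter and the bounds at it. -/
theorem exists_bounds {y : Fin 4 → ℝ} (hy : Simp y) :
    ∃ p : ℝ, 0 ≤ p ∧ p ≤ 1 ∧ chi y = 3 * p ^ 2 ∧ Bounds p (m3 y) (e4 y) := by
  obtain ⟨p, hp⟩ : ∃ p, p = Real.sqrt (chi y / 3) := ⟨_, rfl⟩
  have hp0 : 0 ≤ p := hp ▸ Real.sqrt_nonneg _
  have hC : chi y = 3 * p ^ 2 := by
    rw [hp, Real.sq_sqrt (by linarith [chi_nonneg y])]; ring
  have hp1 : p ≤ 1 := by nlinarith [chi_le_three' hy]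
  have hlo := m3_sq_le_e4_sq hy.2
  have hsq := m3_sq_le_cube hy.2
  have hup := e4_le hy.2
  have hcu := chi_mul_e4_le hy.2
  have hpr := e4_le_prod hy
  have hle := le_m3 hy
  rw [hC] at hlo hsq hup hcu hpr hle
  refine ⟨p, hp0, hp1, hC, ⟨by linarith, by linarith, e4_nonneg, by linarith, by linarith,
    hpr, by linarith, ?_⟩⟩
  rcases hp1.lt_or_eq with h | h
  · exact base_line hy hp0 h hC
  · subst h
    nlinarith [sq_nonneg (m3 y - 6), e4_nonneg (y := y)]

namespace Bounds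

variable {p M e : ℝ}

theorem above (h : Bounds p M e) : 2 * p * M ≤ e ∧ -(2 * p * M) ≤ e := by
  have h1 := h.lower
  have h2 := h.e_nonneg
  constructor <;> nlinarith

theorem abs_le (h : Bounds p M e) (hp : 0 ≤ p) : -(6 * p ^ 3) ≤ M ∧ M ≤ 6 * p ^ 3 := by
  have h1 := h.sq_le
  have := pow_nonneg hp 3
  constructor <;> nlinarith

/-- A chord of the upper curve. -/
theorem chord (h : Bounds p M e) (hp : 0 < p) {m : ℝ} (hm : 6 * p ^ 3 * m ≤ M) :
    e ≤ (9 - 3 * m) * p ^ 4 + (1 + m) / 2 * p * M := by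
  refine le_of_mul_le_mul_left ?_ (show 0 < 12 * p ^ 2 by positivity)
  nlinarith [h.curve, mul_nonneg (sub_nonneg.2 hm) (sub_nonneg.2 (h.abs_le hp.le).2)]

/-- The mirrored chord. -/
theorem chord_neg (h : Bounds p M e) (hp : 0 < p) (hM : M ≤ 0) :
    e ≤ 9 * p ^ 4 - p * M / 2 := by
  refine le_of_mul_le_mul_left ?_ (show 0 < 12 * p ^ 2 by positivity)
  nlinarith [h.curve, mul_nonneg (neg_nonneg.2 hM)
    (show 0 ≤ 6 * p ^ 3 + M by linarith [(h.abs_le hp.le).1])]

theorem line_half (h : Bounds p M e) (hp0 : 5 / 12 ≤ p) (hp1 : p ≤ 26 / 45) :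
    e ≤ 9 * p ^ 4 + 1 / 2 * p * M := by
  rcases le_total 0 M with hM | hM
  · have := h.chord (by linarith) (m := 0) (by linarith)
    linarith
  · have := h.prod
    have : (1 - 3 * p ^ 2) ^ 2 ≤ 9 * p ^ 4 := by nlinarith
    nlinarith

theorem line_seven (h : Bounds p M e) (hp0 : 26 / 45 ≤ p) (hp1 : p ≤ 2 / 3) :
    e ≤ 27 / 4 * p ^ 4 + 7 / 8 * p * M := by
  rcases le_total (6 * p ^ 3 * (3 / 4)) M with hM | hM
  · have := h.chord (by linarith) hM
    linarith
  · have q := quint_nonneg (c := [-16, 0, 96, -96, 27, 0]) (a := 26) (b := 30) (D := 45)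
      (by norm_num) (by norm_num) (by decide +kernel) (x := p) (by push_cast; linarith)
      (by push_cast; linarith)
    simp only [castL, List.map_cons, List.map_nil, dot, pw5] at q
    push_cast at q
    nlinarith [h.prod, mul_nonneg (show 0 ≤ 4 / 3 - 7 / 8 * p by linarith) (sub_nonneg.2 hM)]

theorem line_nineteen (h : Bounds p M e) (hp0 : 2 / 3 ≤ p) (hp1 : p ≤ 1) :
    e ≤ 63 / 10 * p ^ 4 + 19 / 20 * p * M := by
  rcases le_total (6 * p ^ 3 * (9 / 10)) M with hM | hM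
  · have := h.chord (by linarith) hM
    linarith
  · have q := quint_nonneg (c := [-100, 0, 600, -720, 243, 0]) (a := 2) (b := 3) (D := 3)
      (by norm_num) (by norm_num) (by decide +kernel) (x := p) (by push_cast; linarith)
      (by push_cast; linarith)
    simp only [castL, List.map_cons, List.map_nil, dot, pw5] at q
    push_cast at q
    nlinarith [h.prod, mul_nonneg (show 0 ≤ 4 / 3 - 19 / 20 * p by linarith) (sub_nonneg.2 hM)]

theorem inCone0 (h : Bounds p M e) (hp0 : 0 ≤ p) (hp1 : p ≤ 1 / 3) (hM : M ≤ 0) :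
    InCone (vec 0) (phi (3 * p ^ 2) M e) := by
  rcases hp0.lt_or_eq with hp | hp
  · obtain ⟨-, hlo⟩ := h.above
    have hch := h.chord_neg hp hM
    refine inCone_of_tri chk0 (x := p) (by push_cast; linarith) (by push_cast; linarith) rfl
      ?_ ?_ ?_ ?_
    all_goals simp only [det3, evalV, evalP, vO, vN, vL]; push_cast
    · linarith [mul_nonneg (pow_nonneg hp.le 3) (sub_nonneg.2 hch)]
    · linarith [mul_nonneg (pow_nonneg hp.le 3) (sub_nonneg.2 hlo)]
    · linarith [mul_nonneg (pow_nonneg hp.le 4) (neg_nonneg.2 hM)]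
    · linarith [pow_pos hp 7]
  · subst hp
    have hM0 : M = 0 := by nlinarith [h.sq_le]
    have he : e = 0 := le_antisymm (by simpa using h.upper) h.e_nonneg
    refine inCone_of_vert (X := vO) (x := 0) (a := 0) (b := 1) (D := 3) ?_ (by simp) (by simp)
      rfl ?_ ?_ ?_
    · have := chk0
      simp only [triCheck, Bool.and_eq_true] at this
      exact this.1.1.1.1.1
    all_goals simp [evalV, evalP, vO, hM0, he]

theorem inCone1 (h : Bounds p M e) (hp0 : 0 ≤ p) (hp1 : p ≤ 1 / 3) (hM : 0 ≤ M) :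
    InCone (vec 1) (phi (3 * p ^ 2) M e) := by
  rcases hp0.lt_or_eq with hp | hp
  · obtain ⟨hlo, -⟩ := h.above
    have hch := h.chord hp (m := 0) (by linarith)
    refine inCone_of_tri chk1 (x := p) (by push_cast; linarith) (by push_cast; linarith) rfl
      ?_ ?_ ?_ ?_
    all_goals simp only [det3, evalV, evalP, vO, vR, vN]; push_cast
    · linarith [mul_nonneg (pow_nonneg hp.le 3) (sub_nonneg.2 hch)]
    · linarith [mul_nonneg (pow_nonneg hp.le 4) hM]
    · linarith [mul_nonneg (pow_nonneg hp.le 3) (sub_nonneg.2 hlo)]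
    · linarith [pow_pos hp 7]
  · subst hp
    have hM0 : M = 0 := by nlinarith [h.sq_le]
    have he : e = 0 := le_antisymm (by simpa using h.upper) h.e_nonneg
    refine inCone_of_vert (X := vO) (x := 0) (a := 0) (b := 1) (D := 3) ?_ (by simp) (by simp)
      rfl ?_ ?_ ?_
    · have := chk1
      simp only [triCheck, Bool.and_eq_true] at this
      exact this.1.1.1.1.1
    all_goals simp [evalV, evalP, vO, hM0, he]

theorem inCone2 (h : Bounds p M e) (hp0 : 1 / 3 < p) (hp1 : p ≤ 5 / 12) :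
    InCone (vec 2) (phi (3 * p ^ 2) M e) := by
  have hp : 0 < p := by linarith
  obtain ⟨hlo, hlo'⟩ := h.above
  have f1 : 0 < (1 - p) ^ 3 * (1 + 3 * p) := by
    have : 0 < 1 - p := by linarith
    positivity
  rcases le_total 0 (48 * p ^ 4 * M + e * (3 - 18 * p ^ 2 - 9 * p ^ 4)) with hs | hs
  · refine inCone_of_tri chk2a (x := p) (by push_cast; linarith) (by push_cast; linarith) rfl
      ?_ ?_ ?_ ?_
    all_goals simp only [det3, evalV, evalP, vO, vR, vT]; push_cast
    · linarith [mul_nonneg f1.le (sub_nonneg.2 h.upper)]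
    · linarith
    · linarith [mul_nonneg (pow_nonneg hp.le 3) (sub_nonneg.2 hlo)]
    · linarith [mul_pos f1 (pow_pos hp 4)]
  · have hU : 0 < 1 - 3 * p ^ 2 := by nlinarith
    have f2 : 0 < p * (1 + p) ^ 3 * (3 * p - 1) := by
      have : 0 < 3 * p - 1 := by linarith
      positivity
    refine inCone_of_tri chk2b (x := p) (by push_cast; linarith) (by push_cast; linarith) rfl
      ?_ ?_ ?_ ?_
    all_goals simp only [det3, evalV, evalP, vO, vT, vA]; push_cast
    · linarith [mul_nonneg f2.le (sub_nonneg.2 h.prod)]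
    · linarith [mul_nonneg (sq_nonneg (1 - 3 * p ^ 2)) (sub_nonneg.2 hlo')]
    · linarith
    · linarith [mul_pos f2 (pow_pos hU 2)]

theorem inCone3 (h : Bounds p M e) (hp0 : 5 / 12 ≤ p) (hp1 : p ≤ 26 / 45) :
    InCone (vec 3) (phi (3 * p ^ 2) M e) := by
  have hp : 0 < p := by linarith
  obtain ⟨hlo, hlo'⟩ := h.above
  have hh := h.line_half hp0 hp1
  have f1 : 0 < (1 - p) ^ 3 * (1 + 3 * p) := by
    have : 0 < 1 - p := by linarith
    positivity
  rcases le_or_gt 0 (e * (6 - 36 * p ^ 2)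
      + M * (-3 * p + 18 * p ^ 3 + 72 * p ^ 4 - 27 * p ^ 5)) with hs | hs
  · refine inCone_of_tri chk3a (x := p) (by push_cast; linarith) (by push_cast; linarith) rfl
      ?_ ?_ ?_ ?_
    all_goals simp only [det3, evalV, evalP, vO, vR, vB]; push_cast
    · linarith [mul_nonneg f1.le (sub_nonneg.2 hh)]
    · linarith
    · linarith [mul_nonneg (pow_nonneg hp.le 3) (sub_nonneg.2 hlo)]
    · linarith [mul_pos f1 (pow_pos hp 4)]
  · have hU : 1 - 3 * p ^ 2 ≠ 0 := by
      intro hU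
      have hq : p ^ 2 = 1 / 3 := by linarith
      have hp4 : p ^ 4 = 1 / 9 := by rw [show p ^ 4 = (p ^ 2) ^ 2 by ring, hq]; norm_num
      have hp3 : p ^ 3 = p / 3 := by rw [show p ^ 3 = p * p ^ 2 by ring, hq]; ring
      have hp5 : p ^ 5 = p / 9 := by rw [show p ^ 5 = p * p ^ 4 by ring, hp4]; ring
      have := h.prod
      rw [hU] at this
      rw [hq, hp3, hp4, hp5] at hs
      linarith
    have f2 : 0 < p * (-5 + 30 * p ^ 2 + 24 * p ^ 3 - 9 * p ^ 4) := by
      refine mul_pos hp ?_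
      nlinarith [mul_nonneg (pow_nonneg hp.le 3) (show 0 ≤ 24 - 9 * p by linarith),
        mul_le_mul hp0 hp0 (by norm_num) hp.le]
    refine inCone_of_tri chk3b (x := p) (by push_cast; linarith) (by push_cast; linarith) rfl
      ?_ ?_ ?_ ?_
    all_goals simp only [det3, evalV, evalP, vO, vB, vA]; push_cast
    · linarith [mul_nonneg f2.le (sub_nonneg.2 h.prod)]
    · linarith [mul_nonneg (sq_nonneg (1 - 3 * p ^ 2)) (sub_nonneg.2 hlo')]
    · linarith
    · linarith [mul_pos f2 (sq_pos_of_ne_zero hU)]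

theorem inCone4 (h : Bounds p M e) (hp0 : 26 / 45 ≤ p) (hp1 : p ≤ 2 / 3) :
    InCone (vec 4) (phi (3 * p ^ 2) M e) := by
  have hl := h.line_seven hp0 hp1
  have h1p : 0 < 1 - p := by linarith
  have f1 : 0 < 8 + 9 * p - 6 * p ^ 2 := by nlinarith
  refine inCone_of_tri chk4 (x := p) (by push_cast; linarith) (by push_cast; linarith) rfl
    ?_ ?_ ?_ ?_
  all_goals simp only [det3, evalV, evalP, vR, vE, vW]; push_cast
  · linarith [mul_nonneg (mul_nonneg (sq_nonneg (1 - p)) f1.le) (sub_nonneg.2 h.prod)]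
  · linarith [mul_nonneg (sq_nonneg (1 - p)) h.base]
  · linarith [mul_nonneg (mul_nonneg (pow_nonneg h1p.le 3) (show 0 ≤ 1 + 3 * p by linarith))
      (sub_nonneg.2 hl)]
  · linarith [mul_pos (mul_pos (pow_pos h1p 5) (show 0 < 1 + 3 * p by linarith)) f1]

theorem inCone5 (h : Bounds p M e) (hp0 : 2 / 3 ≤ p) (hp1 : p ≤ 1) :
    InCone (vec 5) (phi (3 * p ^ 2) M e) := by
  rcases hp1.lt_or_eq with hp | hp
  · have hl := h.line_nineteen hp0 hp1
    have h1p : 0 < 1 - p := by linarith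
    have f1 : 0 < 20 + 21 * p - 18 * p ^ 2 := by nlinarith
    refine inCone_of_tri chk5 (x := p) (by push_cast; linarith) (by push_cast; linarith) rfl
      ?_ ?_ ?_ ?_
    all_goals simp only [det3, evalV, evalP, vR, vF, vW]; push_cast
    · linarith [mul_nonneg (mul_nonneg (sq_nonneg (1 - p)) f1.le) (sub_nonneg.2 h.prod)]
    · linarith [mul_nonneg (sq_nonneg (1 - p)) h.base]
    · linarith [mul_nonneg (mul_nonneg (pow_nonneg h1p.le 3) (show 0 ≤ 1 + 3 * p by linarith))
        (sub_nonneg.2 hl)]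
    · linarith [mul_pos (mul_pos (pow_pos h1p 5) (show 0 < 1 + 3 * p by linarith)) f1]
  · subst hp
    have hM : M = 6 := by
      have := h.least
      have := (h.abs_le zero_le_one).2
      linarith
    have he : e = 12 := by
      have := h.upper
      have := h.above.1
      linarith
    refine inCone_of_vert (X := vR) (x := 1) (a := 2) (b := 3) (D := 3) ?_ (by norm_num)
      (by norm_num) rfl ?_ ?_ ?_
    · have := chk5
      simp only [triCheck, Bool.and_eq_true] at this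
      exact this.1.1.1.1.1
    all_goals norm_num [evalV, evalP, vR, hM, he]

end Bounds

/-- Every vector falls in one of the six regimes. -/
theorem exists_regime {y : Fin 4 → ℝ} (hy : Simp y) : ∃ r : Fin 6, InRegime r y := by
  obtain ⟨p, hp0, hp1, hC, hB⟩ := exists_bounds hy
  simp only [InRegime, phiY, hC]
  rcases le_or_gt p (1 / 3) with h0 | h0
  · rcases le_total (m3 y) 0 with hM | hM
    · refine ⟨0, ?_, ?_, hB.inCone0 hp0 h0 hM⟩
      · simp [cmax]; nlinarith
      · simp [sgnR, hM]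
    · refine ⟨1, ?_, ?_, hB.inCone1 hp0 h0 hM⟩
      · simp [cmax]; nlinarith
      · simp [sgnR, hM]
  rcases le_or_gt p (5 / 12) with h1 | h1
  · exact ⟨2, by simp [cmax]; nlinarith, by simp [sgnR], hB.inCone2 h0 h1⟩
  rcases le_or_gt p (26 / 45) with h2 | h2
  · exact ⟨3, by simp [cmax]; nlinarith, by simp [sgnR], hB.inCone3 h1.le h2⟩
  rcases le_or_gt p (2 / 3) with h3 | h3
  · exact ⟨4, by simp [cmax]; nlinarith, by simp [sgnR], hB.inCone4 h2.le h3⟩
  · exact ⟨5, by simp [cmax, abs_of_nonneg hp0, hp1], by simp [sgnR], hB.inCone5 h3.le hp1⟩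

/-- Hölder: the squared mean root is at least the reciprocal second moment. -/
theorem one_le_root_sq {s : Fin 4 → ℝ} (hs : ∀ i, 0 ≤ s i) (h2 : ∑ i, s i ^ 2 = 4) {C : ℝ}
    (h4 : ∑ i, s i ^ 4 = 4 * (1 + C)) : 1 ≤ ((∑ i, s i) / 4) ^ 2 * (1 + C) := by
  have c1 : (∑ i, s i ^ 2) ^ 2 ≤ (∑ i, s i) * ∑ i, s i ^ 3 := by
    simp only [Fin.sum_univ_four]
    have := hs 0; have := hs 1; have := hs 2; have := hs 3
    nlinarith [mul_nonneg (mul_nonneg (hs 0) (hs 1)) (sq_nonneg (s 0 - s 1)),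
      mul_nonneg (mul_nonneg (hs 0) (hs 2)) (sq_nonneg (s 0 - s 2)),
      mul_nonneg (mul_nonneg (hs 0) (hs 3)) (sq_nonneg (s 0 - s 3)),
      mul_nonneg (mul_nonneg (hs 1) (hs 2)) (sq_nonneg (s 1 - s 2)),
      mul_nonneg (mul_nonneg (hs 1) (hs 3)) (sq_nonneg (s 1 - s 3)),
      mul_nonneg (mul_nonneg (hs 2) (hs 3)) (sq_nonneg (s 2 - s 3))]
  have c2 : (∑ i, s i ^ 3) ^ 2 ≤ (∑ i, s i ^ 2) * ∑ i, s i ^ 4 := by
    have k := Finset.sum_mul_sq_le_sq_mul_sq Finset.univ s fun i => s i ^ 2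
    simpa only [← pow_mul, ← pow_succ'] using k
  rw [h2] at c1 c2
  rw [h4] at c2
  have c3 := mul_le_mul c1 c1 (by norm_num) (by nlinarith)
  nlinarith [mul_le_mul_of_nonneg_left c2 (sq_nonneg (∑ i, s i))]

/-- The squared mean root against the pairwise products. -/
theorem le_root_sq {s : Fin 4 → ℝ} (hs : ∀ i, 0 ≤ s i) (h2 : ∑ i, s i ^ 2 = 4) {C t : ℝ}
    (h4 : ∑ i, s i ^ 4 = 4 * (1 + C)) (ht : t ^ 2 ≤ 6 - 2 * C) :
    (2 + t) / 8 ≤ ((∑ i, s i) / 4) ^ 2 := by
  rw [Fin.sum_univ_four] at h2 h4 ⊢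
  obtain ⟨σ, hσ⟩ : ∃ σ, σ = s 0 * s 1 + s 0 * s 2 + s 0 * s 3 + s 1 * s 2 + s 1 * s 3
      + s 2 * s 3 := ⟨_, rfl⟩
  have := hs 0; have := hs 1; have := hs 2; have := hs 3
  have hσ0 : 0 ≤ σ := by rw [hσ]; positivity
  have hcross : 6 - 2 * C ≤ σ ^ 2 := by
    have : 0 ≤ s 0 ^ 2 * s 1 * s 2 + s 0 ^ 2 * s 1 * s 3 + s 0 ^ 2 * s 2 * s 3
        + s 1 ^ 2 * s 0 * s 2 + s 1 ^ 2 * s 0 * s 3 + s 1 ^ 2 * s 2 * s 3
        + s 2 ^ 2 * s 0 * s 1 + s 2 ^ 2 * s 0 * s 3 + s 2 ^ 2 * s 1 * s 3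
        + s 3 ^ 2 * s 0 * s 1 + s 3 ^ 2 * s 0 * s 2 + s 3 ^ 2 * s 1 * s 2
        + 3 * (s 0 * s 1 * s 2 * s 3) := by positivity
    have hsq : (s 0 ^ 2 + s 1 ^ 2 + s 2 ^ 2 + s 3 ^ 2) ^ 2 = 16 := by rw [h2]; norm_num
    rw [hσ]
    linarith
  have hts : t ≤ σ := by nlinarith
  linarith

/-- The mass in each regime. -/
theorem mass_le {v : Fin 4 → ℝ} (hv : Simp v) {Z : ℝ} (hZ : 0 ≤ Z)
    (h : Z * ((∑ i, Real.sqrt (1 + v i)) / 4) ^ 2 ≤ 1) {r : Fin 6} (hc : chi v ≤ cmax r) :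
    48000 * Z ≤ zmaxI r := by
  obtain ⟨s, hs⟩ : ∃ s : Fin 4 → ℝ, s = fun i => Real.sqrt (1 + v i) := ⟨_, rfl⟩
  have hs0 : ∀ i, 0 ≤ s i := fun i => hs ▸ Real.sqrt_nonneg _
  have hsq : ∀ i, s i ^ 2 = 1 + v i := fun i => by
    rw [hs]; exact Real.sq_sqrt (by linarith [hv.1 i])
  have h2 : ∑ i, s i ^ 2 = 4 := by simp [hsq, Finset.sum_add_distrib, hv.2]
  have h4 : ∑ i, s i ^ 4 = 4 * (1 + chi v) := by
    have hsum := hv.2
    have e : ∀ i, s i ^ 4 = 1 + 2 * v i + v i ^ 2 := fun i => by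
      rw [show s i ^ 4 = (s i ^ 2) ^ 2 by ring, hsq]; ring
    simp [e, chi, Finset.sum_add_distrib, ← Finset.mul_sum, hsum]
    ring
  have hsum : ∑ i, Real.sqrt (1 + v i) = ∑ i, s i := by rw [hs]
  rw [hsum] at h
  have hA : Z ≤ 1 + chi v := by
    have k := one_le_root_sq hs0 h2 h4
    have hC := chi_nonneg v
    nlinarith [mul_le_mul_of_nonneg_left k hZ, mul_le_mul_of_nonneg_right h
      (show 0 ≤ 1 + chi v by linarith)]
  have hB : ∀ t : ℝ, t ^ 2 ≤ 6 - 2 * chi v → Z * (2 + t) ≤ 8 := fun t ht => by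
    have := mul_le_mul_of_nonneg_left (le_root_sq hs0 h2 h4 ht) hZ
    linarith
  fin_cases r <;> simp [cmax] at hc <;> simp [zmaxI]
  · linarith
  · linarith
  · linarith
  · have := hB (384000 / 96048 - 2) (by norm_num; linarith)
    linarith
  · have := hB (384000 / 100416 - 2) (by norm_num; linarith)
    linarith
  · have := hB 0 (by linarith)
    linarith

end Vale.P154.Q4
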