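import Vale.Agent.P154.Fold

/-!
# Four states: moments, feature vectors and cone checks

The features of a centred vector are fifteen monomials in its mean square, its third moment and
its excess fourth moment. An inequality which is linear in the features holds on a region as soon
as it holds at finitely many integer vectors whose cone contains the features of the region.
-/

noncomputable section

namespace Vale.P154.Q4

/-- The third moment. -/
def m3 (y : Fin 4 → ℝ) : ℝ := (∑ i, y i ^ 3) / 4

/-- The excess fourth moment. -/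
def e4 (y : Fin 4 → ℝ) : ℝ := (∑ i, y i ^ 4) / 4 - chi y ^ 2

/-- The fifteen monomials of weight at most eight. -/
def phi (C M e : ℝ) : List ℝ :=
  [1, C, M, e, C ^ 2, C * M, M ^ 2, C * e, C ^ 3, M * e, C ^ 2 * M, e ^ 2, C * M ^ 2, C ^ 2 * e,
    C ^ 4]

/-- The features of a vector. -/
def phiY (y : Fin 4 → ℝ) : List ℝ := phi (chi y) (m3 y) (e4 y)

/-- The pairing of two lists. -/
def dot : List ℝ → List ℝ → ℝ
  | a :: as, b :: bs => a * b + dot as bs
  | _, _ => 0

/-- The pairing of two integer lists. -/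
def dotI : List ℤ → List ℤ → ℤ
  | a :: as, b :: bs => a * b + dotI as bs
  | _, _ => 0

/-- An integer list as a real one. -/
def castL (v : List ℤ) : List ℝ := List.map (Int.cast : ℤ → ℝ) v

/-- Sum of two lists, the longer one prevailing. -/
def addL : List ℤ → List ℤ → List ℤ
  | a :: as, b :: bs => (a + b) :: addL as bs
  | [], bs => bs
  | as, [] => as

/-- The combination of the rows of `G` with coefficients `t`. -/
def comb : List (List ℤ) → List ℤ → List ℤ
  | r :: G, c :: t => addL (r.map (c * ·)) (comb G t)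
  | _, _ => []

/-- A matrix applied to a real vector. -/
def app (G : List (List ℤ)) (x : List ℝ) : List ℝ := G.map fun r => dot (castL r) x

theorem dot_comm : ∀ a b : List ℝ, dot a b = dot b a
  | a :: as, b :: bs => by simp [dot, dot_comm as bs, mul_comm]
  | [], [] => rfl
  | [], _ :: _ => rfl
  | _ :: _, [] => rfl

theorem dot_castL : ∀ a b : List ℤ, dot (castL a) (castL b) = (dotI a b : ℝ)
  | a :: as, b :: bs => by
      have := dot_castL as bs
      simp only [castL, List.map_cons, dot, dotI] at *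
      rw [this]; push_cast; ring
  | [], [] => by simp [castL, dot, dotI]
  | [], _ :: _ => by simp [castL, dot, dotI]
  | _ :: _, [] => by simp [castL, dot, dotI]

theorem dot_addL : ∀ (a b : List ℤ) (x : List ℝ),
    dot (castL (addL a b)) x = dot (castL a) x + dot (castL b) x
  | [], b, x => by simp [addL, castL, dot]
  | a :: as, [], x => by simp [addL, castL, dot]
  | a :: as, b :: bs, [] => by simp [addL, castL, dot]
  | a :: as, b :: bs, t :: x => by
      have := dot_addL as bs x
      simp only [castL, addL, List.map_cons, dot] at *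
      rw [this]; push_cast; ring

theorem dot_smul : ∀ (c : ℤ) (a : List ℤ) (x : List ℝ),
    dot (castL (a.map (c * ·))) x = c * dot (castL a) x
  | c, [], x => by simp [castL, dot]
  | c, a :: as, [] => by simp [castL, dot]
  | c, a :: as, t :: x => by
      have := dot_smul c as x
      simp only [castL, List.map_cons, dot] at *
      rw [this]; push_cast; ring

/-- Applying a matrix and pairing with an integer vector. -/
theorem dot_app : ∀ (G : List (List ℤ)) (t : List ℤ) (x : List ℝ),
    dot (app G x) (castL t) = dot (castL (comb G t)) x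
  | [], t, x => by simp [app, comb, castL, dot]
  | r :: G, [], x => by simp [app, comb, castL, dot]
  | r :: G, c :: t, x => by
      rw [comb, dot_addL, dot_smul, ← dot_app G t x]
      simp only [app, castL, List.map_cons, dot]
      ring

/-- `x` is a nonnegative combination of the vectors in `T`, in dual form. -/
def InCone (T : List (List ℤ)) (x : List ℝ) : Prop :=
  ∀ L : List ℝ, (∀ t ∈ T, 0 ≤ dot L (castL t)) → 0 ≤ dot L x

/-- All generators packed into one vector, at positions `2 ^ 192` apart. -/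
def packS : List (List ℤ) → List ℤ
  | [] => []
  | s :: S => addL s ((packS S).map ((2 : ℤ) ^ 192 * ·))

/-- The sum of absolute values. -/
def absSum : List ℤ → ℤ
  | a :: as => |a| + absSum as
  | [] => 0

/-- The first `n` digits in base `2 ^ 192` are in the lower half. -/
def digitsOK : ℕ → ℤ → Bool
  | 0, _ => true
  | n + 1, R => decide (R % (2 : ℤ) ^ 192 < (2 : ℤ) ^ 191) && digitsOK n (R / (2 : ℤ) ^ 192)

/-- Nonnegativity of a bilinear form on all pairs of generators, by packed products. -/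
def pairOK (G : List (List ℤ)) (S T : List (List ℤ)) : Bool :=
  (S.all fun s => s.all fun a => decide (|a| ≤ (2 : ℤ) ^ 64)) &&
    (fun P => T.all fun t => (fun g => decide (absSum g < (2 : ℤ) ^ 127) &&
      digitsOK S.length (dotI g P)) (comb G t)) (packS S)

theorem dotI_addL : ∀ g a b : List ℤ, dotI g (addL a b) = dotI g a + dotI g b
  | [], a, b => by simp [dotI]
  | c :: g, [], b => by simp [addL, dotI]
  | c :: g, a :: as, [] => by simp [addL, dotI]
  | c :: g, a :: as, b :: bs => by simp [addL, dotI, dotI_addL g as bs]; ring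

theorem dotI_smul : ∀ (g a : List ℤ) (c : ℤ), dotI g (a.map (c * ·)) = c * dotI g a
  | [], a, c => by simp [dotI]
  | _ :: _, [], c => by simp [dotI]
  | b :: g, a :: as, c => by simp [dotI, dotI_smul g as c]; ring

theorem absSum_nonneg : ∀ g : List ℤ, 0 ≤ absSum g
  | [] => le_rfl
  | a :: as => add_nonneg (abs_nonneg a) (absSum_nonneg as)

theorem abs_dotI_le {B : ℤ} (hB : 0 ≤ B) : ∀ (g s : List ℤ), (∀ a ∈ s, |a| ≤ B) →
    |dotI g s| ≤ absSum g * B
  | [], s, _ => by simp [dotI, absSum]
  | c :: g, [], _ => by simpa [dotI] using mul_nonneg (absSum_nonneg (c :: g)) hB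
  | c :: g, a :: s, h => by
      have h1 := abs_dotI_le hB g s fun x hx => h x (List.mem_cons_of_mem a hx)
      have h2 := mul_le_mul_of_nonneg_left (h a List.mem_cons_self) (abs_nonneg c)
      calc |dotI (c :: g) (a :: s)| ≤ |c * a| + |dotI g s| := abs_add_le _ _
        _ ≤ |c| * B + absSum g * B := by rw [abs_mul]; exact add_le_add h2 h1
        _ = _ := by simp [absSum]; ring

theorem digitsOK_sound (g : List ℤ) (hg : absSum g < (2 : ℤ) ^ 127) : ∀ S : List (List ℤ),
    (∀ s ∈ S, ∀ a ∈ s, |a| ≤ (2 : ℤ) ^ 64) → digitsOK S.length (dotI g (packS S)) = true →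
      ∀ s ∈ S, 0 ≤ dotI g s
  | [], _, _ => by simp
  | s :: S, hb, h => by
      simp only [packS, dotI_addL, dotI_smul, List.length_cons, digitsOK, Bool.and_eq_true,
        decide_eq_true_eq] at h
      obtain ⟨h1, h2⟩ := h
      have hd := abs_le.1 (abs_dotI_le (by norm_num) g s (hb s List.mem_cons_self))
      have hlt : absSum g * (2 : ℤ) ^ 64 < (2 : ℤ) ^ 127 * (2 : ℤ) ^ 64 :=
        mul_lt_mul_of_pos_right hg (by norm_num)
      rw [Int.add_mul_emod_self_left] at h1
      have hp : (2 : ℤ) ^ 192 = 2 * 2 ^ 191 := by norm_num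
      have hq : (2 : ℤ) ^ 127 * 2 ^ 64 = 2 ^ 191 := by norm_num
      have h0 : 0 ≤ dotI g s := by
        by_contra hneg
        rw [← Int.add_emod_right, Int.emod_eq_of_lt (by omega) (by omega)] at h1
        omega
      intro x hx
      rcases List.mem_cons.1 hx with rfl | hx
      · exact h0
      · rw [Int.add_mul_ediv_left _ _ (by norm_num), Int.ediv_eq_zero_of_lt h0 (by omega),
          zero_add] at h2
        exact digitsOK_sound g hg S (fun u hu => hb u (List.mem_cons_of_mem s hu)) h2 x hx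

/-- A bilinear form nonnegative on the generators is nonnegative on the two cones. -/
theorem bilinear_nonneg {G : List (List ℤ)} {S T : List (List ℤ)} (h : pairOK G S T = true)
    {x y : List ℝ} (hx : InCone S x) (hy : InCone T y) : 0 ≤ dot (app G x) y := by
  refine hy _ fun t ht => ?_
  rw [dot_app]
  refine hx _ fun s hs => ?_
  rw [dot_castL]
  simp only [pairOK, Bool.and_eq_true, List.all_eq_true, decide_eq_true_eq] at h
  exact_mod_cast digitsOK_sound _ (h.2 t ht).1 S h.1 (h.2 t ht).2 s hs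

/-- Powers up to the fifth. -/
def pw5 (x : ℝ) : List ℝ := [1, x, x ^ 2, x ^ 3, x ^ 4, x ^ 5]

/-- The six Bernstein numbers, times ten, of a quintic on `[a, b]`. -/
def bern5 (c : List ℤ) (a b : ℤ) (D : ℤ) : List ℤ :=
  match c with
  | [c0, c1, c2, c3, c4, c5] =>
    let e0 := 10 * c0 * D ^ 5
    let e1 := 2 * c1 * D ^ 4
    let e2 := c2 * D ^ 3
    let e3 := c3 * D ^ 2
    let e4 := 2 * c4 * D
    let e5 := 10 * c5
    [e0 + e1 * (5 * a) + e2 * (10 * a ^ 2) + e3 * (10 * a ^ 3) + e4 * (5 * a ^ 4) + e5 * a ^ 5,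
      e0 + e1 * (4 * a + b) + e2 * (6 * a ^ 2 + 4 * a * b) + e3 * (4 * a ^ 3 + 6 * a ^ 2 * b)
        + e4 * (a ^ 4 + 4 * a ^ 3 * b) + e5 * (a ^ 4 * b),
      e0 + e1 * (3 * a + 2 * b) + e2 * (3 * a ^ 2 + 6 * a * b + b ^ 2)
        + e3 * (a ^ 3 + 6 * a ^ 2 * b + 3 * a * b ^ 2) + e4 * (2 * a ^ 3 * b + 3 * a ^ 2 * b ^ 2)
        + e5 * (a ^ 3 * b ^ 2),
      e0 + e1 * (2 * a + 3 * b) + e2 * (a ^ 2 + 6 * a * b + 3 * b ^ 2)
        + e3 * (3 * a ^ 2 * b + 6 * a * b ^ 2 + b ^ 3) + e4 * (3 * a ^ 2 * b ^ 2 + 2 * a * b ^ 3)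
        + e5 * (a ^ 2 * b ^ 3),
      e0 + e1 * (a + 4 * b) + e2 * (4 * a * b + 6 * b ^ 2) + e3 * (6 * a * b ^ 2 + 4 * b ^ 3)
        + e4 * (4 * a * b ^ 3 + b ^ 4) + e5 * (a * b ^ 4),
      e0 + e1 * (5 * b) + e2 * (10 * b ^ 2) + e3 * (10 * b ^ 3) + e4 * (5 * b ^ 4) + e5 * b ^ 5]
  | _ => [-1]

/-- A quintic with nonnegative Bernstein numbers is nonnegative. -/
theorem quint_nonneg {c : List ℤ} {a b D : ℤ} (hab : a < b) (hD : 0 < D)
    (h : (bern5 c a b D).all (fun t => decide (0 ≤ t)) = true) {x : ℝ}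
    (hx0 : (a : ℝ) ≤ D * x) (hx1 : (D : ℝ) * x ≤ b) : 0 ≤ dot (castL c) (pw5 x) := by
  match c, h with
  | [c0, c1, c2, c3, c4, c5], h =>
    simp only [bern5, List.all_cons, List.all_nil, Bool.and_true, Bool.and_eq_true,
      decide_eq_true_eq] at h
    obtain ⟨h0, h1, h2, h3, h4, h5⟩ := h
    have hd : (0 : ℝ) < D := by exact_mod_cast hD
    have hba : (0 : ℝ) < b - a := by exact_mod_cast sub_pos.2 hab
    replace h0 := (Int.cast_nonneg_iff (R := ℝ)).2 h0
    replace h1 := (Int.cast_nonneg_iff (R := ℝ)).2 h1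
    replace h2 := (Int.cast_nonneg_iff (R := ℝ)).2 h2
    replace h3 := (Int.cast_nonneg_iff (R := ℝ)).2 h3
    replace h4 := (Int.cast_nonneg_iff (R := ℝ)).2 h4
    replace h5 := (Int.cast_nonneg_iff (R := ℝ)).2 h5
    push_cast at h0 h1 h2 h3 h4 h5
    set u := (D : ℝ) * x - a with hu
    set v := (b : ℝ) - D * x with hv
    have u0 : 0 ≤ u := sub_nonneg.2 hx0
    have v0 : 0 ≤ v := sub_nonneg.2 hx1
    have key := add_nonneg (add_nonneg (add_nonneg (add_nonneg (add_nonneg
      (mul_nonneg (pow_nonneg v0 5) h0)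
      (mul_nonneg (mul_nonneg (show (0 : ℝ) ≤ 5 by norm_num)
        (mul_nonneg (pow_nonneg v0 4) u0)) h1))
      (mul_nonneg (mul_nonneg (show (0 : ℝ) ≤ 10 by norm_num)
        (mul_nonneg (pow_nonneg v0 3) (pow_nonneg u0 2))) h2))
      (mul_nonneg (mul_nonneg (show (0 : ℝ) ≤ 10 by norm_num)
        (mul_nonneg (pow_nonneg v0 2) (pow_nonneg u0 3))) h3))
      (mul_nonneg (mul_nonneg (show (0 : ℝ) ≤ 5 by norm_num)
        (mul_nonneg v0 (pow_nonneg u0 4))) h4))
      (mul_nonneg (pow_nonneg u0 5) h5)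
    refine nonneg_of_mul_nonneg_right (a := 10 * ((D : ℝ) ^ 5 * ((b : ℝ) - a) ^ 5)) ?_
      (by positivity)
    refine key.trans_eq ?_
    simp only [castL, List.map_cons, List.map_nil, dot, pw5, hu, hv]
    ring

end Vale.P154.Q4
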