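import Vale.Agent.P154.Q4Cone
import Vale.Agent.P154.Q4Matrices
import Vale.Agent.P154.Q4Pi

/-!
# Four states: the invariant along an edge and its polynomial minorant
-/

noncomputable section

namespace Vale.P154.Q4

/-- The invariant in the moments. -/
def inv8 (C M e : ℝ) : ℝ :=
  M / 2 - C ^ 2 / 4 - 293 / 1000 * e + 9 / 20 * (C * M) - 93 / 1000 * C ^ 3
    - 51 / 500 * M ^ 2 + 29 / 1000 * (C ^ 2 * M)

/-- The invariant. -/
def kinv (y : Fin 4 → ℝ) : ℝ := inv8 (chi y) (m3 y) (e4 y)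

/-- The retention of the invariant. -/
def alC (C : ℝ) : ℝ := (1 - C / 3) ^ 3

/-- The coefficient of the invariant in the chi-square bound. -/
def aaC (C : ℝ) : ℝ := 4 / 3 * C * (1 - C / 3)

theorem alC_nonneg {y : Fin 4 → ℝ} (hy : Simp y) : 0 ≤ alC (chi y) :=
  pow_nonneg (by linarith [chi_le_three' hy]) 3

theorem aaC_nonneg {y : Fin 4 → ℝ} (hy : Simp y) : 0 ≤ aaC (chi y) :=
  mul_nonneg (mul_nonneg (by norm_num) (chi_nonneg y)) (by linarith [chi_le_three' hy])

theorem moments_smul (l : ℝ) (y : Fin 4 → ℝ) :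
    chi (fun i => l * y i) = l ^ 2 * chi y ∧ m3 (fun i => l * y i) = l ^ 3 * m3 y ∧
      e4 (fun i => l * y i) = l ^ 4 * e4 y := by
  simp only [e4, m3, chi, Fin.sum_univ_four]
  refine ⟨?_, ?_, ?_⟩ <;> ring

theorem simp_smul {y : Fin 4 → ℝ} {l : ℝ} (hy : Simp y) (l0 : 0 ≤ l) (l1 : l ≤ 1) :
    Simp (fun i => l * y i) := by
  refine ⟨fun i => ?_, by rw [← Finset.mul_sum, hy.2, mul_zero]⟩
  nlinarith [mul_nonneg l0 (by linarith [hy.1 i] : 0 ≤ 1 + y i)]

theorem kinv_zero : kinv 0 = 0 := by simp [kinv, inv8, m3, e4, chi]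

theorem kinv_leaf (s : Fin 4) : 0 ≤ kinv (rel fun i => if s = i then 1 else 0) := by
  fin_cases s <;> simp [kinv, inv8, m3, e4, chi, rel, Fin.sum_univ_four] <;> norm_num

/-- The edge rows pass on every regime. -/
def edgeOK (T : List (List ℤ)) : Bool :=
  T.all fun t => (bern5 (comb eRows t) 0 1 1).all fun b => decide (0 ≤ b)

set_option maxRecDepth 100000 in
theorem edge_ok : ∀ r : Fin 6, edgeOK (vec r) = true := by decide +kernel

/-- The tangency rows pass on four equal parts of the range of the mass, in every regime. -/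
def massOK (T : List (List ℤ)) (z : ℤ) : Bool :=
  T.all fun t => (fun c => [(0 : ℤ), 1, 2, 3].all fun k =>
    (bern5 c (z * k) (z * (k + 1)) 192000).all fun b => decide (0 ≤ b)) (comb hRows t)

set_option maxRecDepth 100000 in
theorem mass_ok : ∀ r : Fin 6, massOK (vec r) (zmaxI r) = true := by decide +kernel

theorem zmaxI_pos : ∀ r : Fin 6, 0 < zmaxI r := by decide

/-- Passing the invariant through a ferromagnetic edge. -/
theorem kinv_edge {l : ℝ} (l0 : 0 ≤ l) (l1 : l ≤ 1) {y : Fin 4 → ℝ} {r : Fin 6}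
    (hr : InCone (vec r) (phiY y)) : l ^ 3 * kinv y ≤ kinv (fun i => l * y i) := by
  have h : 0 ≤ dot (app eRows (pw5 l)) (phiY y) := by
    refine hr _ fun t ht => ?_
    rw [dot_app]
    exact quint_nonneg (a := 0) (b := 1) (D := 1) (by norm_num) (by norm_num)
      ((List.all_eq_true.1 (edge_ok r)) t ht) (by simpa using l0) (by simpa using l1)
  obtain ⟨eC, eM, eE⟩ := moments_smul l y
  have e : 1000 * (kinv (fun i => l * y i) - l ^ 3 * kinv y)
      = l ^ 3 * (1 - l) * dot (app eRows (pw5 l)) (phiY y) := by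
    simp only [kinv, inv8, eC, eM, eE, app, eRows, castL, List.map_cons, List.map_nil, dot, phiY,
      phi, pw5]
    push_cast
    ring
  have := mul_nonneg (mul_nonneg (pow_nonneg l0 3) (sub_nonneg.2 l1)) h
  linarith

/-- The tangency gap is nonnegative on a regime. -/
theorem hRows_nonneg {Z : ℝ} (Z0 : 0 ≤ Z) {r : Fin 6} (hZ : 48000 * Z ≤ zmaxI r)
    {v : Fin 4 → ℝ} (hr : InCone (vec r) (phiY v)) :
    0 ≤ dot (app hRows (pw5 Z)) (phiY v) := by
  refine hr _ fun t ht => ?_
  rw [dot_app]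
  have h := (List.all_eq_true.1 (mass_ok r)) t ht
  have hz := zmaxI_pos r
  have hzR : (0 : ℝ) < zmaxI r := by exact_mod_cast hz
  obtain ⟨k, hk, hk0, hk1⟩ : ∃ k : ℤ, k ∈ [(0 : ℤ), 1, 2, 3] ∧
      ((zmaxI r * k : ℤ) : ℝ) ≤ ((192000 : ℤ) : ℝ) * Z ∧
      ((192000 : ℤ) : ℝ) * Z ≤ ((zmaxI r * (k + 1) : ℤ) : ℝ) := by
    push_cast
    rcases le_total (192000 * Z) (zmaxI r * 2 : ℝ) with h2 | h2
    · rcases le_total (192000 * Z) (zmaxI r : ℝ) with h1 | h1
      · exact ⟨0, by simp, by push_cast; linarith, by push_cast; linarith⟩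
      · exact ⟨1, by simp, by push_cast; linarith, by push_cast; linarith⟩
    · rcases le_total (192000 * Z) (zmaxI r * 3 : ℝ) with h1 | h1
      · exact ⟨2, by simp, by push_cast; linarith, by push_cast; linarith⟩
      · exact ⟨3, by simp, by push_cast; linarith, by push_cast; linarith⟩
  exact quint_nonneg (mul_lt_mul_of_pos_left (by omega) hz) (by norm_num)
    ((List.all_eq_true.1 h) k hk) hk0 hk1

/-- The minorant is below mass times the invariant. -/
theorem piPoly_le {A : Fin 4 → ℝ} (hA : ∀ i, 0 ≤ A i)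
    (hS : (∑ i, Real.sqrt (A i)) / 4 ≤ 1) :
    piPoly A ≤ (∑ i, A i) / 4 * kinv (rel A) := by
  set Z := (∑ i, A i) / 4 with hZdef
  have hsum : ∑ i, A i = 4 * Z := by rw [hZdef]; ring
  have Z0 : 0 ≤ Z := div_nonneg (Finset.sum_nonneg fun i _ => hA i) (by norm_num)
  rcases Z0.eq_or_lt with hz | hz
  · have hA0 : A = 0 := by
      funext i
      exact (Finset.sum_eq_zero_iff_of_nonneg fun i _ => hA i).1 (by rw [hsum, ← hz, mul_zero]) i
        (Finset.mem_univ i)
    have e : piPoly A = 0 := by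
      simp [piPoly, hA0, app, piRows, castL, dot, pw8, phiY, phi, chi, m3, e4]
    rw [e, ← hz, zero_mul]
  · have hv : Simp (rel A) := rel_simp hA (by rw [hsum]; linarith)
    have hu : ∀ i, A i - Z = Z * rel A i := by
      intro i
      simp only [rel, hsum]
      push_cast
      field_simp
    obtain ⟨r, hc, -, hr⟩ := exists_regime hv
    have hroot : Z * ((∑ i, Real.sqrt (1 + rel A i)) / 4) ^ 2 ≤ 1 := by
      have e : ∀ i, Real.sqrt (A i) = Real.sqrt Z * Real.sqrt (1 + rel A i) := by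
        intro i
        rw [← Real.sqrt_mul Z0]
        congr 1
        linarith [hu i]
      simp only [e, ← Finset.mul_sum] at hS
      have h2 : (Real.sqrt Z * (∑ i, Real.sqrt (1 + rel A i)) / 4) ^ 2 ≤ 1 :=
        pow_le_one₀ (by positivity) hS
      calc _ = (Real.sqrt Z * (∑ i, Real.sqrt (1 + rel A i)) / 4) ^ 2 := by
            rw [mul_div_assoc, mul_pow (Real.sqrt Z), Real.sq_sqrt Z0]
        _ ≤ 1 := h2
    have H := hRows_nonneg Z0 (mass_le hv Z0 hroot hc) hr
    have e : 131072000 * (Z * kinv (rel A) - piPoly A)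
        = Z * (Z - 1) ^ 2 * dot (app hRows (pw5 Z)) (phiY (rel A)) := by
      obtain ⟨eC, eM, eE⟩ := moments_smul Z (rel A)
      have hfun : (fun i => A i - Z) = fun i => Z * rel A i := by
        funext i; exact hu i
      simp only [piPoly, ← hZdef, hfun, kinv, inv8, eC, eM, eE, app, hRows, piRows, castL,
        List.map_cons, List.map_nil, dot, phiY, phi, pw5, pw8]
      push_cast
      ring
    have := mul_nonneg (mul_nonneg Z0 (sq_nonneg (Z - 1))) H
    linarith

end Vale.P154.Q4
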