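import Mathlib

/-!
# Broadcasting through the Potts channel on finite-depth rooted trees

`PTree n` is the type of rooted ordered trees truncated at depth `n`; `Cfg q n t` is the type of
spin configurations on the vertices at distance `n` from the root of `t`; `lik lam n t s i` is the
probability of observing `s` when the root spin is `i`.
-/

noncomputable section

namespace Vale.P154

open Finset

/-- Rooted ordered trees up to depth `n`: a number of children and a depth `n-1` tree for each. -/
def PTree : ℕ → Type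
  | 0 => Unit
  | n + 1 => Σ k : ℕ, (Fin k → PTree n)

/-- The truncation of the `d`-ary tree at depth `n`. -/
def regTree (d : ℕ) : (n : ℕ) → PTree n
  | 0 => ()
  | n + 1 => ⟨d, fun _ => regTree d n⟩

/-- Configurations of spins on the vertices at distance `n` from the root. -/
def Cfg (q : ℕ) : (n : ℕ) → PTree n → Type
  | 0, _ => Fin q
  | n + 1, t => (c : Fin t.1) → Cfg q n (t.2 c)

instance cfgFintype (q : ℕ) : (n : ℕ) → (t : PTree n) → Fintype (Cfg q n t)
  | 0, _ => inferInstanceAs (Fintype (Fin q))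
  | n + 1, t =>
      haveI : ∀ c, Fintype (Cfg q n (t.2 c)) := fun c => cfgFintype q n (t.2 c)
      inferInstanceAs (Fintype ((c : Fin t.1) → Cfg q n (t.2 c)))

/-- The Potts channel: the probability that a parent spin `i` gives a child spin `j`. -/
def potts (q : ℕ) (lam : ℝ) (i j : Fin q) : ℝ := (if i = j then lam else 0) + (1 - lam) / q

/-- The likelihood of the boundary configuration `s` given the root spin `i`. -/
def lik {q : ℕ} (lam : ℝ) : (n : ℕ) → (t : PTree n) → Cfg q n t → Fin q → ℝ
  | 0, _, s, i => if id (α := Fin q) s = i then 1 else 0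
  | n + 1, t, s, i => ∏ c, ∑ j, potts q lam i j * lik lam n (t.2 c) (s c) j

/-- `E[(1/2) * sum_i |P(root = i | boundary) - 1/q|]` for a fixed tree, the root being uniform. -/
def aTree (q : ℕ) (lam : ℝ) (n : ℕ) (t : PTree n) : ℝ :=
  ∑ s : Cfg q n t, ((∑ i, lik lam n t s i) / q) *
    ((1 / 2) * ∑ i, |lik lam n t s i / (∑ j, lik lam n t s j) - 1 / q|)

/-- The probability of a depth `n` tree under offspring law `p`. -/
def gwWeight (p : ℕ → ℝ) : (n : ℕ) → PTree n → ℝ
  | 0, _ => 1
  | n + 1, t => p t.1 * ∏ c, gwWeight p n (t.2 c)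

/-- The Poisson law. -/
def poisWeight (d : ℝ) (k : ℕ) : ℝ := Real.exp (-d) * d ^ k / k.factorial

/-- `a_n` on the `d`-ary tree. -/
def aReg (q d : ℕ) (lam : ℝ) (n : ℕ) : ℝ := aTree q lam n (regTree d n)

/-- `a_n` on the Galton-Watson tree with offspring law `p`, the tree being observed. -/
def aGW (q : ℕ) (p : ℕ → ℝ) (lam : ℝ) (n : ℕ) : ℝ := ∑' t : PTree n, gwWeight p n t * aTree q lam n t

variable {q : ℕ}

theorem sum_potts [NeZero q] (lam : ℝ) (i : Fin q) : ∑ j, potts q lam i j = 1 := by
  have : (q : ℝ) ≠ 0 := by exact_mod_cast NeZero.ne q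
  simp [potts, Finset.sum_add_distrib]
  field_simp
  ring

theorem potts_mul [NeZero q] (lam : ℝ) (i : Fin q) (l : Fin q → ℝ) :
    ∑ j, potts q lam i j * l j = lam * l i + (1 - lam) * ((∑ j, l j) / q) := by
  simp [potts, add_mul, Finset.sum_add_distrib, ← Finset.mul_sum]
  ring

theorem potts_perm (lam : ℝ) (π : Equiv.Perm (Fin q)) (i j : Fin q) :
    potts q lam (π i) (π j) = potts q lam i j := by
  simp [potts, π.injective.eq_iff]

theorem potts_nonneg (hq : 2 ≤ q) {lam : ℝ} (h0 : -1 / ((q : ℝ) - 1) ≤ lam) (h1 : lam ≤ 1)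
    (i j : Fin q) : 0 ≤ potts q lam i j := by
  have hq' : (2 : ℝ) ≤ q := by exact_mod_cast hq
  have h0' : -1 ≤ lam * ((q : ℝ) - 1) := (div_le_iff₀ (by linarith)).1 h0
  unfold potts
  split_ifs
  · have e : lam + (1 - lam) / q = (lam * ((q : ℝ) - 1) + 1) / q := by field_simp; ring
    rw [e]; exact div_nonneg (by linarith) (by linarith)
  · rw [zero_add]; exact div_nonneg (by linarith) (by linarith)

/-- A relabelling of the colours acts on configurations. -/
def permCfg (π : Equiv.Perm (Fin q)) : (n : ℕ) → (t : PTree n) → Cfg q n t ≃ Cfg q n t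
  | 0, _ => π
  | n + 1, t => Equiv.piCongrRight fun c => permCfg π n (t.2 c)

theorem lik_perm (lam : ℝ) (π : Equiv.Perm (Fin q)) : ∀ (n : ℕ) (t : PTree n) (s : Cfg q n t)
    (i : Fin q), lik lam n t (permCfg π n t s) (π i) = lik lam n t s i
  | 0, t, s, i => by
      show (if id (α := Fin q) ((π : Fin q → Fin q) s) = π i then (1 : ℝ) else 0) = if id (α := Fin q) s = i then 1 else 0
      exact if_congr π.injective.eq_iff rfl rfl
  | n + 1, t, s, i => by
      refine Finset.prod_congr rfl fun c _ => ?_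
      rw [← Equiv.sum_comp π]
      refine Finset.sum_congr rfl fun j _ => ?_
      rw [potts_perm]
      congr 1
      exact lik_perm lam π n (t.2 c) (s c) j

/-- Sums over configurations are invariant under relabelling the colours. -/
theorem sum_lik_perm (lam : ℝ) (π : Equiv.Perm (Fin q)) (n : ℕ) (t : PTree n)
    (f : (Fin q → ℝ) → ℝ) :
    ∑ s : Cfg q n t, f (fun i => lik lam n t s (π i)) = ∑ s : Cfg q n t, f (lik lam n t s) := by
  rw [← Equiv.sum_comp (permCfg π n t) fun s => f (fun i => lik lam n t s (π i))]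
  simp [lik_perm]

theorem lik_nonneg (hq : 2 ≤ q) {lam : ℝ} (h0 : -1 / ((q : ℝ) - 1) ≤ lam) (h1 : lam ≤ 1) :
    ∀ (n : ℕ) (t : PTree n) (s : Cfg q n t) (i : Fin q), 0 ≤ lik lam n t s i
  | 0, t, s, i => by
      show (0 : ℝ) ≤ if id (α := Fin q) s = i then 1 else 0
      split_ifs <;> norm_num
  | n + 1, t, s, i => Finset.prod_nonneg fun c _ => Finset.sum_nonneg fun j _ =>
      mul_nonneg (potts_nonneg hq h0 h1 i j) (lik_nonneg hq h0 h1 n (t.2 c) (s c) j)

theorem sum_lik [NeZero q] (lam : ℝ) : ∀ (n : ℕ) (t : PTree n) (i : Fin q),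
    ∑ s : Cfg q n t, lik lam n t s i = 1
  | 0, t, i => by
      show ∑ s : Fin q, (if s = i then (1 : ℝ) else 0) = 1
      simp
  | n + 1, t, i => by
      show ∑ s : (c : Fin t.1) → Cfg q n (t.2 c),
        ∏ c, ∑ j, potts q lam i j * lik lam n (t.2 c) (s c) j = 1
      rw [← Fintype.prod_sum (fun c x => ∑ j, potts q lam i j * lik lam n (t.2 c) x j)]
      refine Finset.prod_eq_one fun c _ => ?_
      rw [Finset.sum_comm]
      simp only [← Finset.mul_sum, sum_lik lam n (t.2 c), mul_one, sum_potts]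

theorem poisWeight_nonneg {d : ℝ} (hd : 0 ≤ d) (k : ℕ) : 0 ≤ poisWeight d k := by
  unfold poisWeight; positivity

end Vale.P154
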